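import Vale.Agent.P233G30.Defs

/-! # P233: local and variable lower bounds of the distributional sectional curvature -/

open MeasureTheory

universe u

namespace Vale.Agent.N233

open Vale.Agent.P233G

/-- Distributional sectional curvature `≥ k` on the set `A`, for a function `k` on `M`:
`R(X,Y,Y,X)(f) ≥ ∫ k f (|X|²|Y|² - ⟨X,Y⟩²) dm` for all test vector fields `X`, `Y` and all test
functions `f ≥ 0` that vanish almost everywhere outside `A`, computed in the tangent module. -/
def SecOn {M : Type u} [MetricSpace M] [MeasurableSpace M]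
    (U : Measure M → (M → ℝ) → (M → ℝ) → Prop) (m : Measure M) (k : M → ℝ) (A : Set M) : Prop :=
  ∀ (H : Type u) [NormedAddCommGroup H] [InnerProductSpace ℝ H] (T : Tan U m H) (X Y : H)
    (f : L0 m), T.TestV X → T.TestV Y → T.Test f → 0 ≤ f → (∀ᵐ x ∂m, x ∉ A → f x = 0) →
    ∫ x, k x * T.ar X Y f x ∂m ≤ ∫ x, T.rm X Y Y X f x ∂m

end Vale.Agent.N233
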