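import Vale.Agent.N233.Lev

/-! P233, local form. The block C6b (weak limits of the Hessians) does not use the sectional
curvature bound. The proofs are those of `P233/H671/C6bHess` and `P233/H994`. -/

set_option linter.all false

open MeasureTheory Filter Topology Set
open scoped ENNReal NNReal InnerProductSpace

universe u

namespace Vale.Agent.P233.H671.Nw

open Vale.Agent.P233.PC
open Vale.Agent.P233.PA (en OutA PotLim)

section real

end real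

section abstract

variable {M : Type u} [MeasurableSpace M] {m : Measure M} {C : Calc m} {κ : ℝ}

end abstract

section metric

variable {M : Type u} [MetricSpace M] [MeasurableSpace M] {m : Measure M} {K N κ : ℝ}
variable {E : Type} [NormedAddCommGroup E] [InnerProductSpace ℝ E]
variable {Gr : (M →ₘ[m] ℝ) → M → E} {V : (M →ₘ[m] ℝ) → (M →ₘ[m] ℝ) → M → E}
variable {D : (M →ₘ[m] ℝ) → (M →ₘ[m] ℝ)}
variable {u : ℕ → ℝ → M →ₘ[m] ℝ} {φ : (M →ₘ[m] ℝ) → ℕ → ℝ → M →ₘ[m] ℝ}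
variable {p : M} {s₀ C₀ : ℝ} {U : Ultrafilter ℕ} {Y : ℝ → M → M}

theorem FW_nonneg (hC : IsGamma (sob m)) (hB : LevB m Gr V D κ u φ) {l : M →ₘ[m] ℝ}
    (hl : l ∈ (sob m).TestI) : ∀ᶠ n in atTop, ∀ t ∈ Icc (0 : ℝ) 1, 0 ≤ FW u φ l n t := by
  filter_upwards [hB.mem l hl] with n hn t ht
  refine I_nonneg (mul_nonneg_ae rn_nonneg (hC.nonneg _ (hC.tW (hn t ht).2.2.2.1.1)))

/-- **(C)** -/
theorem hess_diff [BorelSpace M] [SecondCountableTopology M] (hstd : Std m K N)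
    (hB : LevB m Gr V D κ u φ) (hU : (U : Filter ℕ) ≤ atTop) (hSt : Strong p s₀ C₀ U u φ Y)
    {l h f β : M →ₘ[m] ℝ} (hl : l ∈ (sob m).TestI)
    (hh : h ∈ (sob m).TestI) (hf : f ∈ (sob m).TestI) (hβ : β ∈ (sob m).TestI)
    {s : ℝ} (hs : s ∈ Ioo (0 : ℝ) 1) :
    ∃ g : ℕ → ℝ → ℝ, (∀ᶠ n in (U : Filter ℕ), IntervalIntegrable (g n) volume s 1 ∧
      ∀ t ∈ Icc s 1, |I (β * rn u φ l n t * ((sob m).hess (tn u φ l n t) h f
        - (sob m).hess (tn u φ 0 n t) h f))| ≤ g n t) ∧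
      Tendsto (fun n => ∫ t in s..1, g n t) U (𝓝 0) := by
  have hC := H719.std_gamma hstd
  have hBE := H719.std_bei hstd
  have h0 := H719.testI_zero hstd
  obtain ⟨c1, h1⟩ := hB.b8b l hl (h + f) (hC.testI_add hBE hh hf) β hβ s hs
  obtain ⟨c2, h2⟩ := hB.b8b l hl h hh β hβ s hs
  obtain ⟨c3, h3⟩ := hB.b8b l hl f hf β hβ s hs
  set c : ℝ := |c1| + |c2| + |c3| with hc
  have hc0 : 0 ≤ c := by positivity
  refine ⟨fun n t => c * √(en n * FW u φ l n t), ?_, ?_⟩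
  · refine hU ?_
    filter_upwards [h1, h2, h3, hB.b8 l hl, hB.mem l hl, hB.mem 0 h0] with n a1 a2 a3 a4 a5 a6
    have hcont : ContinuousOn (fun t => FW u φ l n t) (Icc s 1) :=
      a4.1.mono (Icc_subset_Icc_left hs.1.le)
    refine ⟨?_, fun t ht => ?_⟩
    · refine ContinuousOn.intervalIntegrable ?_
      rw [uIcc_of_le hs.2.le]
      exact continuousOn_const.mul (Real.continuous_sqrt.comp_continuousOn
        (continuousOn_const.mul hcont))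
    · have ht0 : t ∈ Icc (0 : ℝ) 1 := ⟨hs.1.le.trans ht.1, ht.2⟩
      have hr := (a5 t ht0).2.2.1
      have hrt : MemLp (rn u φ l n t) ∞ m := by
        have e : rn u φ l n t = (rn u φ l n t - 1) + 1 := by ring
        rw [e]
        refine mem_add (hC.test_A hr.1).2 ?_
        exact mem_top_iff.2 ⟨1, by
          filter_upwards [one_ae (M := M) (m := m)] with x hx
          rw [hx, abs_one]⟩
      have hσ : MemLp (β * rn u φ l n t) 2 m := mem_top_mul (hC.memLp _ (hC.tW hβ.1)) hrt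
      rw [hess_diff_polar hC hBE (a5 t ht0).2.1.1 (a6 t ht0).2.1.1 hh.1 hf.1 hσ]
      have b1 := a1 t ht
      have b2 := a2 t ht
      have b3 := a3 t ht
      show _ ≤ c * √(en n * I (rn u φ 0 n t * (sob m).Γ (wn φ l n t - 1) (wn φ l n t - 1)))
      set S := √(en n * I (rn u φ 0 n t * (sob m).Γ (wn φ l n t - 1) (wn φ l n t - 1))) with hS
      have hS0 : 0 ≤ S := Real.sqrt_nonneg _
      have c1' : c1 * S ≤ |c1| * S := mul_le_mul_of_nonneg_right (le_abs_self _) hS0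
      have c2' : c2 * S ≤ |c2| * S := mul_le_mul_of_nonneg_right (le_abs_self _) hS0
      have c3' : c3 * S ≤ |c3| * S := mul_le_mul_of_nonneg_right (le_abs_self _) hS0
      have d1 : 0 ≤ |c1| * S := by positivity
      have d2 : 0 ≤ |c2| * S := by positivity
      have d3 : 0 ≤ |c3| * S := by positivity
      have e : c * S = |c1| * S + |c2| * S + |c3| * S := by rw [hc]; ring
      rw [e, abs_le]
      rw [abs_le] at b1 b2 b3
      constructor <;> linarith [b1.1, b1.2, b2.1, b2.2, b3.1, b3.2]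
  · -- `∫ √ → 0`
    have hlim := hSt.grad l hl s hs
    have key : ∀ δ > 0, ∀ᶠ n in (U : Filter ℕ), |(∫ t in s..1, c * √(en n * FW u φ l n t)) - 0|
        ≤ c * (δ * (1 - s) + (4 * δ)⁻¹ * (en n * ∫ t in s..1, FW u φ l n t)) := by
      intro δ hδ
      refine hU ?_
      filter_upwards [hB.b8 l hl, FW_nonneg hC hB hl] with n a4 a5
      have hcont : ContinuousOn (fun t => FW u φ l n t) (Icc s 1) :=
        a4.1.mono (Icc_subset_Icc_left hs.1.le)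
      have hε : 0 < en n := H719.en_pos n
      have h6 := sqrt_int_le hs.2.le hε.le hδ hcont
        (fun t ht => a5 t ⟨hs.1.le.trans ht.1, ht.2⟩)
      have h7 : 0 ≤ ∫ t in s..1, √(en n * FW u φ l n t) :=
        intervalIntegral.integral_nonneg hs.2.le fun t _ => Real.sqrt_nonneg _
      rw [sub_zero, intervalIntegral.integral_const_mul, abs_of_nonneg (mul_nonneg hc0 h7)]
      exact mul_le_mul_of_nonneg_left h6 hc0
    rw [Metric.tendsto_nhds]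
    intro η hη
    have hδ : 0 < η / (4 * (c + 1)) := by positivity
    set δ := η / (4 * (c + 1)) with hδd
    have h8 : Tendsto (fun n => c * (δ * (1 - s) + (4 * δ)⁻¹ *
        (en n * ∫ t in s..1, FW u φ l n t))) U (𝓝 (c * (δ * (1 - s) + (4 * δ)⁻¹ * 0))) :=
      (((hlim.const_mul _).const_add _).const_mul _)
    have h9 : c * (δ * (1 - s) + (4 * δ)⁻¹ * 0) < η := by
      rw [mul_zero, add_zero]
      have e1 : c * δ ≤ η / 4 := by
        rw [hδd, mul_div_assoc', div_le_div_iff₀ (by positivity) (by norm_num)]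
        nlinarith
      have e2 : c * (δ * (1 - s)) ≤ c * δ := by
        have : δ * (1 - s) ≤ δ := by nlinarith [hs.1]
        exact mul_le_mul_of_nonneg_left this hc0
      linarith
    filter_upwards [key δ hδ, (tendsto_order.1 h8).2 _ h9] with n a1 a2
    rw [Real.dist_eq]
    exact a1.trans_lt a2

/-- **(D)** -/
theorem wn_sq_lim (hC : IsGamma (sob m))
    (hB : LevB m Gr V D κ u φ) (hU : (U : Filter ℕ) ≤ atTop) (hSt : Strong p s₀ C₀ U u φ Y)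
    {l : M →ₘ[m] ℝ} (hl : l ∈ (sob m).TestI) {s : ℝ} (hs : s ∈ Ioo (0 : ℝ) 1) :
    (∀ᶠ n in (U : Filter ℕ), IntervalIntegrable
      (fun t => I (rn u φ 0 n t * (wn φ l n t - 1) ^ 2)) volume s 1) ∧
    Tendsto (fun n => ∫ t in s..1, I (rn u φ 0 n t * (wn φ l n t - 1) ^ 2)) U
      (𝓝 ((1 - s) * I ((ex l - 1) ^ 2))) := by
  have hu : uIcc s 1 = Icc s 1 := uIcc_of_le hs.2.le
  have main : ∀ᶠ n in (U : Filter ℕ), IntervalIntegrable
      (fun t => I (rn u φ 0 n t * (wn φ l n t - 1) ^ 2)) volume s 1 ∧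
      |(∫ t in s..1, I (rn u φ 0 n t * (wn φ l n t - 1) ^ 2)) - (1 - s) * I ((ex l - 1) ^ 2)|
        ≤ en n * ∫ t in s..1, FW u φ l n t := by
    refine hU ?_
    filter_upwards [hB.b8 l hl, FW_nonneg hC hB hl] with n a4 a5
    have hε : 0 < en n := H719.en_pos n
    have hcont : ContinuousOn (fun t => FW u φ l n t) (Icc s 1) :=
      a4.1.mono (Icc_subset_Icc_left hs.1.le)
    have hint : IntervalIntegrable (fun t => FW u φ l n t) volume s 1 :=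
      ContinuousOn.intervalIntegrable (by rw [hu]; exact hcont)
    set cc := I ((ex l - 1) ^ 2) with hcc
    have heq : ∀ t ∈ Icc s 1, I (rn u φ 0 n t * (wn φ l n t - 1) ^ 2)
        = cc - en n * ∫ r in t..1, FW u φ l n r := by
      intro t ht
      have := a4.2 t ⟨hs.1.le.trans ht.1, ht.2⟩
      show _ = cc - en n * ∫ r in t..1,
        I (rn u φ 0 n r * (sob m).Γ (wn φ l n r - 1) (wn φ l n r - 1))
      linarith
    have hprim : ContinuousOn (fun t => ∫ r in t..1, FW u φ l n r) (Icc s 1) := by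
      have h1 : ContinuousOn (fun t => ∫ r in s..t, FW u φ l n r) (uIcc s 1) :=
        intervalIntegral.continuousOn_primitive_interval
          (by
            rw [hu]
            exact hcont.integrableOn_Icc)
      rw [hu] at h1
      have h2 : ContinuousOn (fun t => (∫ r in s..1, FW u φ l n r)
          - ∫ r in s..t, FW u φ l n r) (Icc s 1) := continuousOn_const.sub h1
      refine h2.congr fun t ht => ?_
      have i1 : IntervalIntegrable (fun t => FW u φ l n t) volume s t :=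
        hint.mono_set (by rw [hu, uIcc_of_le ht.1]; exact Icc_subset_Icc_right ht.2)
      have i2 : IntervalIntegrable (fun t => FW u φ l n t) volume t 1 :=
        hint.mono_set (by rw [hu, uIcc_of_le ht.2]; exact Icc_subset_Icc_left ht.1)
      have := intervalIntegral.integral_add_adjacent_intervals i1 i2
      simp only
      linarith
    have hX : ContinuousOn (fun t => I (rn u φ 0 n t * (wn φ l n t - 1) ^ 2)) (Icc s 1) :=
      ((continuousOn_const (c := cc)).sub ((continuousOn_const (c := en n)).mul hprim)).congr heq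
    have hXi : IntervalIntegrable (fun t => I (rn u φ 0 n t * (wn φ l n t - 1) ^ 2)) volume s 1 :=
      ContinuousOn.intervalIntegrable (by rw [hu]; exact hX)
    refine ⟨hXi, ?_⟩
    have e1 : (1 - s) * cc = ∫ t in s..1, cc := by
      rw [intervalIntegral.integral_const, smul_eq_mul]
    rw [e1, ← intervalIntegral.integral_sub hXi intervalIntegrable_const]
    have hbd : ∀ t ∈ Set.uIoc s 1, ‖I (rn u φ 0 n t * (wn φ l n t - 1) ^ 2) - cc‖
        ≤ en n * ∫ t in s..1, FW u φ l n t := by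
      intro t ht
      rw [uIoc_of_le hs.2.le] at ht
      have ht' : t ∈ Icc s 1 := ⟨ht.1.le, ht.2⟩
      rw [heq t ht']
      have i1 : IntervalIntegrable (fun t => FW u φ l n t) volume s t :=
        hint.mono_set (by rw [hu, uIcc_of_le ht'.1]; exact Icc_subset_Icc_right ht'.2)
      have i2 : IntervalIntegrable (fun t => FW u φ l n t) volume t 1 :=
        hint.mono_set (by rw [hu, uIcc_of_le ht'.2]; exact Icc_subset_Icc_left ht'.1)
      have e2 := intervalIntegral.integral_add_adjacent_intervals i1 i2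
      have e3 : 0 ≤ ∫ r in s..t, FW u φ l n r :=
        intervalIntegral.integral_nonneg ht'.1 fun r hr =>
          a5 r ⟨hs.1.le.trans hr.1, hr.2.trans ht'.2⟩
      have e4 : 0 ≤ ∫ r in t..1, FW u φ l n r :=
        intervalIntegral.integral_nonneg ht'.2 fun r hr =>
          a5 r ⟨hs.1.le.trans (ht'.1.trans hr.1), hr.2⟩
      have e5 : cc - en n * (∫ r in t..1, FW u φ l n r) - cc
          = -(en n * ∫ r in t..1, FW u φ l n r) := by ring
      rw [e5, norm_neg, Real.norm_eq_abs, abs_of_nonneg (mul_nonneg hε.le e4)]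
      refine mul_le_mul_of_nonneg_left ?_ hε.le
      linarith
    have h9 := intervalIntegral.norm_integral_le_of_norm_le_const hbd
    rw [Real.norm_eq_abs] at h9
    refine h9.trans ?_
    have e6 : |1 - s| ≤ 1 := by rw [abs_of_nonneg (by linarith [hs.2])]; linarith [hs.1]
    have e7 : 0 ≤ en n * ∫ t in s..1, FW u φ l n t :=
      mul_nonneg hε.le (intervalIntegral.integral_nonneg hs.2.le fun r hr =>
        a5 r ⟨hs.1.le.trans hr.1, hr.2⟩)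
    calc en n * (∫ t in s..1, FW u φ l n t) * |1 - s|
        ≤ en n * (∫ t in s..1, FW u φ l n t) * 1 := mul_le_mul_of_nonneg_left e6 e7
      _ = _ := mul_one _
  refine ⟨main.mono fun n hn => hn.1, ?_⟩
  rw [tendsto_iff_norm_sub_tendsto_zero]
  refine squeeze_zero' (Eventually.of_forall fun n => norm_nonneg _)
    (main.mono fun n hn => ?_) (hSt.grad l hl s hs)
  rw [Real.norm_eq_abs]
  exact hn.2

end metric

end Vale.Agent.P233.H671.Nw

namespace Vale.Agent.P233.H994.Nw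

open Vale.Agent.P233.PA (en OutA)
open Vale.Agent.P233.PC

section sep

variable {M : Type u} [MeasurableSpace M] {m : Measure M} {C : Calc m}

end sep

section rep

variable {M : Type u} [MeasurableSpace M] {m : Measure M}
variable {E : Type*} [NormedAddCommGroup E]

end rep

section level

variable {M : Type u} [MetricSpace M] [SecondCountableTopology M] [MeasurableSpace M]
  [BorelSpace M] {m : Measure M} {K N κ : ℝ} {P : ℝ → (M →ₘ[m] ℝ) → (M →ₘ[m] ℝ)} {p : M} {s₀ C₀ : ℝ}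
variable {E : Type} [NormedAddCommGroup E] [InnerProductSpace ℝ E]
variable {Gr : (M →ₘ[m] ℝ) → M → E} {V : (M →ₘ[m] ℝ) → (M →ₘ[m] ℝ) → M → E}
  {D : (M →ₘ[m] ℝ) → (M →ₘ[m] ℝ)} {HO : (M →ₘ[m] ℝ) → M → E →L[ℝ] E} {e : ℕ → M →ₘ[m] ℝ}
variable {u : ℕ → ℝ → M →ₘ[m] ℝ} {φ : (M →ₘ[m] ℝ) → ℕ → ℝ → M →ₘ[m] ℝ}

theorem jρ_spec (hC : IsGamma (sob m)) (hL : LevB m Gr V D κ u φ) {l : M →ₘ[m] ℝ}
    (hl : l ∈ (sob m).TestI) :
    ∀ᶠ n in atTop, ∀ t ∈ Icc (0 : ℝ) 1, ∀ᵐ x ∂m, jρ u φ l n (t, x) = rn u φ l n t x := by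
  filter_upwards [hL.mem l hl, hL.fld l hl l hl] with n h1 h2
  exact jr_spec (exists_joint_fun (fun t ht =>
    hC.memLp _ (hC.test_A ((h1 t ht).2.2.1).1).1) fun t ht => (h2 t ht).2.2)

theorem jV_spec [CompleteSpace E] (hC : IsGamma (sob m)) (hU : IsHU (sob m) Gr V)
    (hL : LevB m Gr V D κ u φ) {l h : M →ₘ[m] ℝ}
    (hl : l ∈ (sob m).TestI) (hh : h ∈ (sob m).TestI) :
    ∀ᶠ n in atTop, ∀ t ∈ Icc (0 : ℝ) 1, ∀ᵐ x ∂m, jV V u φ l h n (t, x) = V (tn u φ l n t) h x := by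
  filter_upwards [hL.mem l hl, hL.fld l hl h hh] with n h1 h2
  exact jr_spec (exists_joint (zero_le_one (α := ℝ)) (fun t ht =>
    hU.mem _ (h1 t ht).2.1.1 _ hh.1) fun t ht => (h2 t ht).1)

end level

end Vale.Agent.P233.H994.Nw

namespace Vale.Agent.P233.H994.Nw

open Vale.Agent.P233.PA (en OutA)
open Vale.Agent.P233.PC

section abstract

variable {M : Type u} [MeasurableSpace M] {m : Measure M}

end abstract

/-- the hypotheses of block C6b -/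
structure Ctx {M : Type u} [MetricSpace M] [MeasurableSpace M] (m : Measure M) (K N κ : ℝ)
    (P : ℝ → (M →ₘ[m] ℝ) → (M →ₘ[m] ℝ)) (p : M) (s₀ C₀ : ℝ)
    {E : Type} [NormedAddCommGroup E] [InnerProductSpace ℝ E]
    (Gr : (M →ₘ[m] ℝ) → M → E) (V : (M →ₘ[m] ℝ) → (M →ₘ[m] ℝ) → M → E)
    (D : (M →ₘ[m] ℝ) → (M →ₘ[m] ℝ))
    (HO : (M →ₘ[m] ℝ) → M → E →L[ℝ] E) (e : ℕ → M →ₘ[m] ℝ)
    (u : ℕ → ℝ → M →ₘ[m] ℝ) (φ : (M →ₘ[m] ℝ) → ℕ → ℝ → M →ₘ[m] ℝ) (U : Ultrafilter ℕ)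
    (ψ ρ : ℝ → M →ₘ[m] ℝ) (R : ℝ → ℝ → (M →ₘ[m] ℝ) → (M →ₘ[m] ℝ)) (Y : ℝ → M → M) : Prop where
  hyp : CHyp M m K N P p s₀ C₀
  hE : EHyp m K N Gr V D HO e
  hA : OutA m K N P p s₀ C₀ u φ
  hB : LevB m Gr V D κ u φ
  hU : (U : Filter ℕ) ≤ atTop
  hO : LimOf P U u φ ρ R
  hLim : Lim m K N p s₀ C₀ ψ ρ R
  hM : Maps ρ R Y
  hF : RFlow m K N p s₀ C₀ Y
  hS : Strong p s₀ C₀ U u φ Y

section metric

variable {M : Type u} [MetricSpace M] [CompleteSpace M] [SecondCountableTopology M]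
  [MeasurableSpace M] [BorelSpace M] {m : Measure M} {K N κ : ℝ}
  {P : ℝ → (M →ₘ[m] ℝ) → (M →ₘ[m] ℝ)} {p : M} {s₀ C₀ : ℝ}
variable {E : Type} [NormedAddCommGroup E] [InnerProductSpace ℝ E] [CompleteSpace E]
variable {Gr : (M →ₘ[m] ℝ) → M → E} {V : (M →ₘ[m] ℝ) → (M →ₘ[m] ℝ) → M → E}
  {D : (M →ₘ[m] ℝ) → (M →ₘ[m] ℝ)} {HO : (M →ₘ[m] ℝ) → M → E →L[ℝ] E} {e : ℕ → M →ₘ[m] ℝ}
variable {u : ℕ → ℝ → M →ₘ[m] ℝ} {φ : (M →ₘ[m] ℝ) → ℕ → ℝ → M →ₘ[m] ℝ} {U : Ultrafilter ℕ}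
variable {ψ ρ : ℝ → M →ₘ[m] ℝ} {R : ℝ → ℝ → (M →ₘ[m] ℝ) → (M →ₘ[m] ℝ)} {Y : ℝ → M → M}

variable (c : Ctx m K N κ P p s₀ C₀ Gr V D HO e u φ U ψ ρ R Y)

include c

theorem Ctx.hC : IsGamma (sob m) := std_gamma c.hyp.std

theorem Ctx.bei : (sob m).BEi K := std_bei c.hyp.std

theorem Ctx.zero : (0 : M →ₘ[m] ℝ) ∈ (sob m).TestI := c.hC.testI_zero c.bei

theorem Ctx.e2 (i : ℕ) : MemLp (e i) 2 m :=
  c.hC.memLp _ (c.hC.tW (c.hE.stat.testI i).1)

theorem Ctx.sep (g : M →ₘ[m] ℝ) (hg : MemLp g 2 m) (h : ∀ i, I (e i * g) = 0) : g = 0 :=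
  sep_of_dense c.hC.toIsDir (fun i => c.hC.tW (c.hE.stat.testI i).1) c.hE.stat.denseW g hg h

theorem Ctx.top {l : M →ₘ[m] ℝ} (hl : l ∈ (sob m).TestI) : MemLp l ∞ m :=
  (c.hC.test_A hl.1).2

theorem Ctx.lf {l : M →ₘ[m] ℝ} (hl : l ∈ (sob m).TestI) :
    ∀ᶠ n in (U : Filter ℕ), ∀ t ∈ Icc (0 : ℝ) 1, H183.Lf m P u φ l n t :=
  c.hU (H183.lf c.hC c.hyp.heat c.zero c.hA hl)

theorem Ctx.L2i {l : M →ₘ[m] ℝ} (hl : l ∈ (sob m).TestI) : L2i m (ex l - 1) :=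
  H183.ex_L2i c.hC.toIsDir (c.hC.test_A hl.1)

/-- the density in space-time -/
theorem Ctx.exists_rho [SFinite m] : ∃ ρ0 : ℝ × M → ℝ, StronglyMeasurable ρ0 ∧ (∀ z, 0 ≤ ρ0 z) ∧
    (∀ᵐ t ∂((volume : Measure ℝ).restrict (Ioc 0 1)), ∀ᵐ x ∂m, ρ0 (t, x) = ρ t x) ∧
    ∀ s ∈ Ioo (0 : ℝ) 1, ∃ k : ℝ, 0 ≤ k ∧ WStar U (ms m s) k (fun n => jρ u φ 0 n) ρ0 := by
  have hspec := c.hU (jρ_spec c.hC c.hB c.zero)
  obtain ⟨f0, h1, h2, h3⟩ := exists_glued (U := U) (m := m) c.e2 c.sep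
    (f := fun n z => jρ u φ 0 n z - 1)
    (fun n => (jρ_meas 0 n).sub stronglyMeasurable_const) (F := fun n t => rn u φ 0 n t - 1)
    (F0 := fun t => ρ t - 1) (fun s hs => by
      obtain ⟨B, hB⟩ := rn_sq c.hA c.zero (c.top c.zero) hs
      refine ⟨B, ?_⟩
      filter_upwards [c.hU hB, hspec, c.lf c.zero] with n a1 a2 a3 t ht
      have ht' : t ∈ Icc s 1 := ⟨ht.1.le, ht.2⟩
      have ht0 : t ∈ Icc (0 : ℝ) 1 := ⟨hs.1.le.trans ht.1.le, ht.2⟩
      refine ⟨?_, c.hC.memLp _ (a3 t ht0).F1.1, a1 t ht'⟩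
      filter_upwards [a2 t ht0, sub_ae (rn u φ 0 n t) 1, one_ae (M := M) (m := m)] with x b1 b2 b3
      rw [b1, b2, b3])
    (fun t ht => by
      obtain ⟨B, hB⟩ := c.hLim.ρ_L2 t ht
      exact (hB t ⟨le_rfl, ht.2⟩).1)
    (fun i t ht => c.hO.ρ_lim t ht (e i) (c.e2 i))
    (fun i s hs δ hδ => by
      obtain ⟨η, hη, h⟩ := H719.rn_equi c.hyp c.hA c.zero hs.1 hs.2.le (c.e2 i) hδ
      exact ⟨η, hη, c.hU h⟩)
  have hsl : ∀ᵐ t ∂((volume : Measure ℝ).restrict (Ioc 0 1)), ∀ᵐ x ∂m,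
      max (f0 (t, x) + 1) 0 = ρ t x := by
    filter_upwards [h2, ae_restrict_mem measurableSet_Ioc] with t a1 a2
    filter_upwards [a1, nonneg_iff_ae.1 (c.hLim.ρ_nonneg t a2), sub_ae (ρ t) 1,
      one_ae (M := M) (m := m)] with x b1 b2 b3 b4
    rw [b1, b3, b4, sub_add_cancel]
    exact max_eq_left b2
  have hm : StronglyMeasurable fun z : ℝ × M => max (f0 z + 1) 0 :=
    (h1.add stronglyMeasurable_const).sup stronglyMeasurable_const
  refine ⟨fun z => max (f0 z + 1) 0, hm, fun z => le_max_right _ _, hsl, fun s hs => ?_⟩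
  obtain ⟨k, hk0, hk⟩ := rn_bd c.hyp.std.hN c.hA c.hyp.hC0 c.zero (c.top c.zero) hs
  set k' := max k (cK K C₀ * s ^ (-N)) with hk'
  have e0 : ∀ᵐ z ∂(ms m s), f0 z = max (f0 z + 1) 0 - 1 := by
    refine ae_ms' (measurableSet_eq_fun h1.measurable (hm.measurable.sub_const 1)) ?_
    filter_upwards [ae_Ioc_mono hs.1.le hsl, ae_Ioc_mono hs.1.le h2] with t a1 a2
    filter_upwards [a1, a2, sub_ae (ρ t) 1, one_ae (M := M) (m := m)] with x b1 b2 b3 b4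
    rw [b1, b2, b3, b4]
  refine ⟨k', hk0.trans (le_max_left _ _), wstar_of_weak (fun n =>
    (jρ_meas 0 n).aestronglyMeasurable) hm.aestronglyMeasurable ?_ ?_ ?_ ?_ ?_⟩
  · filter_upwards [c.hU hk, hspec] with n a1 a2
    refine ae_ms ?_ fun t ht => ?_
    · exact (measurableSet_le measurable_const (jρ_meas 0 n).measurable).inter
        (measurableSet_le (jρ_meas 0 n).measurable measurable_const)
    · have ht' : t ∈ Icc s 1 := ⟨ht.1.le, ht.2⟩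
      have ht0 : t ∈ Icc (0 : ℝ) 1 := ⟨hs.1.le.trans ht.1.le, ht.2⟩
      filter_upwards [a1 t ht', a2 t ht0, rn_pos (u := u) (φ := φ) 0 n t] with x b1 b2 b3
      rw [b2]
      exact ⟨b3.le, b1.trans (le_max_left _ _)⟩
  · refine ae_ms' ?_ ?_
    · exact (measurableSet_le measurable_const hm.measurable).inter
        (measurableSet_le hm.measurable measurable_const)
    · filter_upwards [ae_Ioc_mono hs.1.le hsl, ae_restrict_mem measurableSet_Ioc] with t a1 a2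
      have ht : t ∈ Ioc (0 : ℝ) 1 := ⟨hs.1.trans a2.1, a2.2⟩
      filter_upwards [a1, c.hLim.ρ_le t ht] with x b1 b2
      refine ⟨le_max_right _ _, ?_⟩
      rw [b1]
      refine b2.trans (le_trans ?_ (le_max_right _ _))
      refine mul_le_mul_of_nonneg_left ?_ (Real.exp_pos _).le
      exact Real.rpow_le_rpow_of_nonpos hs.1 a2.1.le (neg_nonpos.2 c.hyp.std.hN.le)
  · obtain ⟨B, hB⟩ := (h3 s hs).2.1
    exact hB.mono fun n hn => hn.1
  · exact (h3 s hs).1.ae_eq e0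
  · intro g hg
    have := (h3 s hs).2.2 g hg
    rwa [integral_congr_ae (g := fun z => g z * (max (f0 z + 1) 0 - 1))
      (by filter_upwards [e0] with z hz; rw [← hz])] at this

end metric

end Vale.Agent.P233.H994.Nw

namespace Vale.Agent.P233.H994.Nw

open Vale.Agent.P233.PA (en OutA)
open Vale.Agent.P233.PC

section metric

variable {M : Type u} [MetricSpace M] [CompleteSpace M] [SecondCountableTopology M]
  [MeasurableSpace M] [BorelSpace M] {m : Measure M} {K N κ : ℝ}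
  {P : ℝ → (M →ₘ[m] ℝ) → (M →ₘ[m] ℝ)} {p : M} {s₀ C₀ : ℝ}
variable {E : Type} [NormedAddCommGroup E] [InnerProductSpace ℝ E] [CompleteSpace E]
variable {Gr : (M →ₘ[m] ℝ) → M → E} {V : (M →ₘ[m] ℝ) → (M →ₘ[m] ℝ) → M → E}
  {D : (M →ₘ[m] ℝ) → (M →ₘ[m] ℝ)} {HO : (M →ₘ[m] ℝ) → M → E →L[ℝ] E} {e : ℕ → M →ₘ[m] ℝ}
variable {u : ℕ → ℝ → M →ₘ[m] ℝ} {φ : (M →ₘ[m] ℝ) → ℕ → ℝ → M →ₘ[m] ℝ} {U : Ultrafilter ℕ}
variable {ψ ρ : ℝ → M →ₘ[m] ℝ} {R : ℝ → ℝ → (M →ₘ[m] ℝ) → (M →ₘ[m] ℝ)} {Y : ℝ → M → M}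

variable (c : Ctx m K N κ P p s₀ C₀ Gr V D HO e u φ U ψ ρ R Y)

include c

theorem Ctx.w_up {l : M →ₘ[m] ℝ} (hl : l ∈ (sob m).TestI) : ∀ᶠ n in (U : Filter ℕ),
    ∀ t ∈ Icc (0 : ℝ) 1, I (rn u φ 0 n t * (wn φ l n t - 1) ^ 2) ≤ I ((ex l - 1) ^ 2) := by
  filter_upwards [c.lf hl, c.hU (c.hB.b8 l hl)] with n hn h2 t ht
  have h2 := h2.2 t ht
  have h3 : 0 ≤ en n * ∫ s in t..1, I (rn u φ 0 n s *
      (sob m).Γ (wn φ l n s - 1) (wn φ l n s - 1)) := by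
    refine mul_nonneg (en_pos n).le (intervalIntegral.integral_nonneg ht.2 fun s hs => ?_)
    have hs' : s ∈ Icc (0 : ℝ) 1 := ⟨ht.1.trans hs.1, hs.2⟩
    refine I_nonneg ?_
    have h4 : 0 ≤ (sob m).Γ (wn φ l n s - 1) (wn φ l n s - 1) := c.hC.nonneg _ (hn s hs').wA.1
    have h5 : 0 ≤ rn u φ 0 n s := ex_nonneg _
    rw [nonneg_iff_ae] at h4 h5 ⊢
    filter_upwards [h4, h5, mul_ae (rn u φ 0 n s)
      ((sob m).Γ (wn φ l n s - 1) (wn φ l n s - 1))] with x a1 a2 a3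
    rw [a3]; exact mul_nonneg a2 a1
  linarith

theorem Ctx.wn_bd {l : M →ₘ[m] ℝ} (hl : l ∈ (sob m).TestI) : ∃ b : ℝ, 1 ≤ b ∧
    (∀ᵐ x ∂m, |(ex l - 1 : M →ₘ[m] ℝ) x| ≤ b) ∧ ∀ᶠ n in (U : Filter ℕ),
    ∀ t ∈ Icc (0 : ℝ) 1, ∀ᵐ x ∂m, 0 ≤ wn φ l n t x ∧ wn φ l n t x ≤ b := by
  obtain ⟨a, ha⟩ := mem_top_iff.1 (c.top hl)
  have ha' : ∀ᵐ x ∂m, |l x| ≤ max a 0 := by
    filter_upwards [ha] with x hx using hx.trans (le_max_left _ _)
  refine ⟨Real.exp (max a 0), Real.one_le_exp (le_max_right _ _), ?_, ?_⟩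
  · filter_upwards [ha', ex_ae l, sub_ae (ex l) 1, one_ae (M := M) (m := m)] with x h1 h2 h3 h4
    rw [h3, h2, h4]
    have h5 := abs_le.1 h1
    have h6 : Real.exp (l x) ≤ Real.exp (max a 0) := Real.exp_le_exp.2 h5.2
    have h7 := Real.exp_pos (l x)
    have h8 := Real.one_le_exp (le_max_right a (0 : ℝ))
    rw [abs_le]
    constructor <;> linarith
  · filter_upwards [c.hU (c.hA.same l hl _ (le_max_right _ _) ha')] with n hn t ht
    filter_upwards [hn t ht, ex_ae ((en n)⁻¹ • (φ l n t - φ 0 n t)),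
      smul_ae (φ l n t - φ 0 n t) (en n)⁻¹, sub_ae (φ l n t) (φ 0 n t)] with x h1 h2 h3 h4
    have h5 : wn φ l n t x = Real.exp ((en n)⁻¹ * (φ l n t x - φ 0 n t x)) := by
      unfold wn rh
      rw [h2, h3, h4]
    rw [h5]
    refine ⟨(Real.exp_pos _).le, Real.exp_le_exp.2 ?_⟩
    have h6 := (abs_le.1 h1).2
    have h7 := en_pos n
    rw [inv_mul_le_iff₀ h7]
    linarith [mul_comm (en n) (max a 0)]

/-- slices of the quotient -/
theorem Ctx.jw_spec {l : M →ₘ[m] ℝ} (hl : l ∈ (sob m).TestI) : ∀ᶠ n in (U : Filter ℕ),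
    ∀ t ∈ Icc (0 : ℝ) 1, ∀ᵐ x ∂m, jρ u φ l n (t, x) = rn u φ l n t x ∧
      jρ u φ 0 n (t, x) = rn u φ 0 n t x ∧ 0 < rn u φ 0 n t x ∧ jw u φ l n (t, x) = wn φ l n t x ∧
      rn u φ l n t x = rn u φ 0 n t x * wn φ l n t x := by
  filter_upwards [c.hU (jρ_spec c.hC c.hB hl), c.hU (jρ_spec c.hC c.hB c.zero), c.lf hl]
    with n h1 h2 h3 t ht
  filter_upwards [h1 t ht, h2 t ht, rn_pos (u := u) (φ := φ) 0 n t,
    mul_ae (rn u φ 0 n t) (wn φ l n t)] with x a1 a2 a3 a4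
  have a5 : rn u φ l n t x = rn u φ 0 n t x * wn φ l n t x := by
    rw [(h3 t ht).mul, a4]
  refine ⟨a1, a2, a3, ?_, a5⟩
  unfold jw
  rw [a1, a2, a5, mul_div_cancel_left₀ _ a3.ne']

theorem Ctx.exists_w [SFinite m] {ρ0 : ℝ × M → ℝ} (hρ : Rho m u φ U ρ ρ0) {l : M →ₘ[m] ℝ}
    (hl : l ∈ (sob m).TestI) : ∃ Kb w0, WDat m u φ U Y l Kb w0 := by
  have h1 : (1 : ℝ) ∈ Ioc (0 : ℝ) 1 := ⟨one_pos, le_rfl⟩
  have hk := c.L2i hl
  obtain ⟨b, hb1, hbk, hbn⟩ := c.wn_bd hl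
  -- the weak limit of `ρ^l - ρ^0`
  obtain ⟨r0, m1, m2, m3⟩ := exists_glued (U := U) (m := m) c.e2 c.sep
    (f := fun n z => jρ u φ l n z - jρ u φ 0 n z)
    (fun n => (jρ_meas l n).sub (jρ_meas 0 n)) (F := fun n t => rn u φ l n t - rn u φ 0 n t)
    (F0 := fun t => R t 1 (ex l - 1)) (fun s hs => by
      obtain ⟨B, hB⟩ := rn_sq c.hA hl (c.top hl) hs
      obtain ⟨B', hB'⟩ := rn_sq c.hA c.zero (c.top c.zero) hs
      refine ⟨2 * B + 2 * B', ?_⟩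
      filter_upwards [c.hU hB, c.hU hB', c.jw_spec hl, c.lf hl, c.hU (c.hB.mem l hl)]
        with n a1 a1' a2 a3 a4 t ht
      have ht' : t ∈ Icc s 1 := ⟨ht.1.le, ht.2⟩
      have ht0 : t ∈ Icc (0 : ℝ) 1 := ⟨hs.1.le.trans ht.1.le, ht.2⟩
      have q1 : MemLp (rn u φ l n t - 1 : M →ₘ[m] ℝ) 2 m :=
        c.hC.memLp _ (c.hC.test_A ((a4 t ht0).2.2.1).1).1
      have q2 : MemLp (rn u φ 0 n t - 1 : M →ₘ[m] ℝ) 2 m := c.hC.memLp _ (a3 t ht0).F1.1
      have q3 : rn u φ l n t - rn u φ 0 n t = (rn u φ l n t - 1) - (rn u φ 0 n t - 1) := by abel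
      refine ⟨?_, ?_, ?_⟩
      · filter_upwards [a2 t ht0, sub_ae (rn u φ l n t) (rn u φ 0 n t)] with x b1 b2
        rw [b1.1, b1.2.1, b2]
      · rw [q3]; exact mem_sub q1 q2
      · rw [q3]
        have i1 : MemLp ((rn u φ l n t - 1) - (rn u φ 0 n t - 1) : M →ₘ[m] ℝ) 2 m := mem_sub q1 q2
        have h4 : I (((rn u φ l n t - 1) - (rn u φ 0 n t - 1)) ^ 2)
            ≤ I ((2 : ℝ) • (rn u φ l n t - 1) ^ 2 + (2 : ℝ) • (rn u φ 0 n t - 1) ^ 2) := by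
          refine I_mono (mem_sq i1) (mem_add (mem_smul _ (mem_sq q1)) (mem_smul _ (mem_sq q2))) ?_
          rw [le_iff_ae]
          filter_upwards [sq_ae ((rn u φ l n t - 1) - (rn u φ 0 n t - 1)),
            sq_ae (rn u φ l n t - 1), sq_ae (rn u φ 0 n t - 1),
            sub_ae (rn u φ l n t - 1) (rn u φ 0 n t - 1),
            add_ae ((2 : ℝ) • (rn u φ l n t - 1) ^ 2) ((2 : ℝ) • (rn u φ 0 n t - 1) ^ 2),
            smul_ae ((rn u φ l n t - 1) ^ 2) (2 : ℝ), smul_ae ((rn u φ 0 n t - 1) ^ 2) (2 : ℝ)]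
            with x b1 b2 b3 b4 b5 b6 b7
          rw [b1, b5, b6, b7, b2, b3, b4]
          nlinarith [sq_nonneg ((rn u φ l n t - 1 : M →ₘ[m] ℝ) x
            + (rn u φ 0 n t - 1 : M →ₘ[m] ℝ) x)]
        rw [I_add (mem_smul _ (mem_sq q1)) (mem_smul _ (mem_sq q2)), I_smul, I_smul] at h4
        linarith [a1 t ht', a1' t ht'])
    (fun t ht => (c.hLim.R_mem t ht 1 h1 _ hk).1)
    (fun i t ht => by
      have h3 := c.hO.R_lim t ht 1 h1 (ex l - 1) hk (e i) (c.e2 i)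
      refine h3.congr' ?_
      filter_upwards [c.lf hl] with n hn
      have hn := hn t ⟨ht.1.le, ht.2⟩
      rw [← hn.RE, hn.mul]
      congr 2
      ring)
    (fun i s hs δ hδ => by
      obtain ⟨η, hη, h⟩ := H719.rn_equi c.hyp c.hA hl hs.1 hs.2.le (c.e2 i) (half_pos hδ)
      obtain ⟨η', hη', h'⟩ := H719.rn_equi c.hyp c.hA c.zero hs.1 hs.2.le (c.e2 i) (half_pos hδ)
      refine ⟨min η η', lt_min hη hη', ?_⟩
      filter_upwards [c.hU h, c.hU h', c.lf hl, c.hU (c.hB.mem l hl)] with n a1 a2 a3 a4 x hx y hy hxy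
      have hx0 : x ∈ Icc (0 : ℝ) 1 := ⟨hs.1.le.trans hx.1, hx.2⟩
      have hy0 : y ∈ Icc (0 : ℝ) 1 := ⟨hs.1.le.trans hy.1, hy.2⟩
      have sp : ∀ t ∈ Icc (0 : ℝ) 1, I (e i * (rn u φ l n t - rn u φ 0 n t))
          = I (e i * (rn u φ l n t - 1)) - I (e i * (rn u φ 0 n t - 1)) := by
        intro t ht
        have q1 : MemLp (rn u φ l n t - 1 : M →ₘ[m] ℝ) 2 m :=
          c.hC.memLp _ (c.hC.test_A ((a4 t ht).2.2.1).1).1
        have q2 : MemLp (rn u φ 0 n t - 1 : M →ₘ[m] ℝ) 2 m := c.hC.memLp _ (a3 t ht).F1.1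
        rw [← I_sub (mem_mul_22 (c.e2 i) q1) (mem_mul_22 (c.e2 i) q2)]
        congr 1; ring
      rw [sp x hx0, sp y hy0]
      have b1 := abs_le.1 (a1 x hx y hy (hxy.trans_le (min_le_left _ _)))
      have b2 := abs_le.1 (a2 x hx y hy (hxy.trans_le (min_le_right _ _)))
      rw [abs_le]
      constructor <;> linarith [b1.1, b1.2, b2.1, b2.2])
  -- bound of the limit
  have hR : ∀ᵐ t ∂((volume : Measure ℝ).restrict (Ioc 0 1)), ∀ᵐ x ∂m,
      |r0 (t, x)| ≤ b * ρ0 (t, x) := by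
    filter_upwards [m2, hρ.slice, ae_restrict_mem measurableSet_Ioc] with t a1 a2 ht
    filter_upwards [a1, a2, c.hLim.R_le t ht 1 h1 _ hk b hbk] with x b1 b2 b3
    rw [b1, b2]; exact b3
  set w0 : ℝ × M → ℝ := fun z => 1 + r0 z / ρ0 z with hw0
  have hwm : StronglyMeasurable w0 :=
    ((m1.measurable.div hρ.meas.measurable).const_add 1).stronglyMeasurable
  have hw1 : ∀ s ∈ Ioo (0 : ℝ) 1, ∀ᵐ z ∂(ms m s), |w0 z - 1| ≤ b ∧ ρ0 z * (w0 z - 1) = r0 z := by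
    intro s hs
    have h5 : ∀ᵐ z ∂(ms m s), |r0 z| ≤ b * ρ0 z :=
      ae_ms' (measurableSet_le m1.norm.measurable (hρ.meas.measurable.const_mul b))
        (ae_Ioc_mono hs.1.le hR)
    filter_upwards [h5] with z hz
    simp only [hw0, add_sub_cancel_left]
    rcases eq_or_lt_of_le (hρ.nonneg z) with h0 | h0
    · rw [← h0] at hz ⊢
      rw [mul_zero] at hz
      have : r0 z = 0 := abs_eq_zero.1 (le_antisymm hz (abs_nonneg _))
      rw [this]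
      simp only [zero_div, abs_zero, mul_zero, and_true]
      linarith
    · refine ⟨?_, mul_div_cancel₀ _ h0.ne'⟩
      rw [abs_div, abs_of_pos h0, div_le_iff₀ h0]
      exact hz
  have hflow : ∀ s ∈ Ioo (0 : ℝ) 1, ∀ᵐ z ∂(ms m s), w0 (psi Y z) = Real.exp (l z.2) := by
    intro s hs
    refine ae_ms' (measurableSet_eq_fun (hwm.measurable.comp (psi_meas c.hF.meas))
      (Real.measurable_exp.comp (l.measurable.comp measurable_snd))) ?_
    filter_upwards [ae_Ioc_mono hs.1.le m2, ae_Ioc_mono hs.1.le hρ.slice,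
      ae_restrict_mem measurableSet_Ioc] with t a1 a2 ht
    have ht' : t ∈ Ioc (0 : ℝ) 1 := ⟨hs.1.trans ht.1, ht.2⟩
    filter_upwards [H183.map_ae c.hM ht' a1, H183.map_ae c.hM ht' a2, H183.map_pos c.hM ht',
      c.hM.comp t ht' 1 h1 _ hk, sub_ae (ex l) 1, one_ae (M := M) (m := m), ex_ae l]
      with x b1 b2 b3 b4 b5 b6 b7
    simp only [psi, hw0]
    rw [b1, b2, b4, c.hM.one, b5, b6, b7, mul_div_cancel_left₀ _ b3.ne']
    ring
  -- bounds of the quotients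
  have hbn' : ∀ s ∈ Ioo (0 : ℝ) 1, ∀ᶠ n in (U : Filter ℕ), ∀ᵐ z ∂(ms m s),
      0 ≤ jw u φ l n z ∧ jw u φ l n z ≤ b := by
    intro s hs
    filter_upwards [hbn, c.jw_spec hl] with n a1 a2
    refine ae_ms ((measurableSet_le measurable_const (jw_meas l n).measurable).inter
      (measurableSet_le (jw_meas l n).measurable measurable_const)) fun t ht => ?_
    have ht0 : t ∈ Icc (0 : ℝ) 1 := ⟨hs.1.le.trans ht.1.le, ht.2⟩
    filter_upwards [a1 t ht0, a2 t ht0] with x b1 b2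
    rw [b2.2.2.2.1]; exact b1
  refine ⟨b + 1, w0, hwm, fun s hs => ?_, fun s hs => ?_, hflow, fun s hs g hg => ?_⟩
  · filter_upwards [hw1 s hs] with z hz
    have := abs_le.1 hz.1
    rw [abs_le]; constructor <;> linarith [this.1, this.2]
  · filter_upwards [hbn' s hs] with n hn
    filter_upwards [hn] with z hz
    rw [abs_of_nonneg hz.1]; linarith [hz.2]
  -- strong convergence
  obtain ⟨k, hk0, hst⟩ := hρ.star s hs
  have hprod : ∀ᶠ n in (U : Filter ℕ), ∀ᵐ z ∂(ms m s),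
      jρ u φ 0 n z * (jw u φ l n z - 1) = jρ u φ l n z - jρ u φ 0 n z ∧ 0 ≤ jρ u φ 0 n z := by
    filter_upwards [c.jw_spec hl] with n a2
    refine ae_ms ?_ fun t ht => ?_
    · refine (measurableSet_eq_fun ((jρ_meas 0 n).measurable.mul
        ((jw_meas l n).measurable.sub_const 1)) ((jρ_meas l n).measurable.sub
        (jρ_meas 0 n).measurable)).inter (measurableSet_le measurable_const (jρ_meas 0 n).measurable)
    · have ht0 : t ∈ Icc (0 : ℝ) 1 := ⟨hs.1.le.trans ht.1.le, ht.2⟩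
      filter_upwards [a2 t ht0] with x b2
      obtain ⟨b1, b2, b3, b4, b5⟩ := b2
      rw [b1, b2, b4, b5]
      exact ⟨by ring, b3.le⟩
  have hmem0 : MemLp (fun z => ρ0 z • (w0 z - 1)) 2 (ms m s) := by
    refine (m3 s hs).1.ae_eq ?_
    filter_upwards [hw1 s hs] with z hz
    rw [smul_eq_mul, hz.2]
  have hW : WLim U (ms m s) (fun n => jρ u φ 0 n) ρ0 (fun n z => jw u φ l n z - 1)
      (fun z => w0 z - 1) := by
    refine ⟨(hwm.sub stronglyMeasurable_const).aestronglyMeasurable, hmem0, fun Φ hΦ => ?_⟩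
    have h5 := (m3 s hs).2.2 Φ hΦ
    have h6 : ∫ z, ⟪ρ0 z • (w0 z - 1), Φ z⟫_ℝ ∂(ms m s) = ∫ z, Φ z * r0 z ∂(ms m s) := by
      refine integral_congr_ae ?_
      filter_upwards [hw1 s hs] with z hz
      rw [smul_eq_mul, hz.2, inner_re, mul_comm]
    rw [h6]
    refine h5.congr' ?_
    filter_upwards [hprod] with n hn
    refine integral_congr_ae ?_
    filter_upwards [hn] with z hz
    rw [smul_eq_mul, hz.1, inner_re, mul_comm]
  -- the energies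
  have hEn : ∀ᶠ n in (U : Filter ℕ),
      EBd (ms m s) ((1 - s) * I ((ex l - 1) ^ 2)) (jρ u φ 0 n) (fun z => jw u φ l n z - 1) := by
    filter_upwards [c.w_up hl, c.jw_spec hl, c.lf hl] with n a1 a2 a3
    have hmeas : Measurable fun z => jρ u φ 0 n z * ‖jw u φ l n z - 1‖ ^ 2 :=
      (jρ_meas 0 n).measurable.mul (((jw_meas l n).measurable.sub_const 1).norm.pow_const 2)
    have key := int_ms_le (m := m) (s := s) hmeas hs.2.le
      (e := fun _ => I ((ex l - 1) ^ 2)) intervalIntegrable_const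
      (fun t ht => by
        have ht0 : t ∈ Icc (0 : ℝ) 1 := ⟨hs.1.le.trans ht.1.le, ht.2⟩
        filter_upwards [a2 t ht0] with x b2
        obtain ⟨b1, b2, b3, b4, b5⟩ := b2
        rw [b2]
        positivity) (fun t ht => by
        have ht0 : t ∈ Icc (0 : ℝ) 1 := ⟨hs.1.le.trans ht.1.le, ht.2⟩
        have e1 : (fun x => jρ u φ 0 n (t, x) * ‖jw u φ l n (t, x) - 1‖ ^ 2)
            =ᵐ[m] fun x => (rn u φ 0 n t * (wn φ l n t - 1) ^ 2 : M →ₘ[m] ℝ) x := by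
          filter_upwards [a2 t ht0, mul_ae (rn u φ 0 n t) ((wn φ l n t - 1) ^ 2),
            sq_ae (wn φ l n t - 1), sub_ae (wn φ l n t) 1, one_ae (M := M) (m := m)]
            with x b2 c1 c2 c3 c4
          obtain ⟨b1, b2, b3, b4, b5⟩ := b2
          rw [c1, c2, c3, c4, b2, b4, Real.norm_eq_abs, sq_abs]
        have e2 : MemLp (rn u φ 0 n t * (wn φ l n t - 1) ^ 2 : M →ₘ[m] ℝ) 1 m :=
          mem_mul_top (a3 t ht0).F (mem_sq (a3 t ht0).w.1)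
        exact ⟨(int_of_mem e2).congr e1.symm, (integral_congr_ae e1).trans_le (a1 t ht0)⟩)
    refine ⟨((jw_meas l n).sub stronglyMeasurable_const).aestronglyMeasurable, key.1,
      key.2.trans (le_of_eq ?_)⟩
    rw [intervalIntegral.integral_const, smul_eq_mul]
  have hlimE : ∫ z, ρ0 z * ‖w0 z - 1‖ ^ 2 ∂(ms m s) = (1 - s) * I ((ex l - 1) ^ 2) := by
    have h7 := psi_int c.hM c.hF.meas hs.1.le hρ.meas.measurable hρ.slice
      (F := fun z => ‖w0 z - 1‖ ^ 2)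
      ((hwm.sub stronglyMeasurable_const).norm.measurable.pow_const 2).aestronglyMeasurable
      (Eventually.of_forall hρ.nonneg)
    simp only [smul_eq_mul] at h7
    rw [← h7]
    have h8 : ∀ᵐ z ∂(ms m s), ‖w0 (psi Y z) - 1‖ ^ 2 = ((ex l - 1) ^ 2 : M →ₘ[m] ℝ) z.2 := by
      have h9 : ∀ᵐ x ∂m, ((ex l - 1) ^ 2 : M →ₘ[m] ℝ) x = (Real.exp (l x) - 1) ^ 2 := by
        filter_upwards [sq_ae (ex l - 1), sub_ae (ex l) 1, ex_ae l, one_ae (M := M) (m := m)]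
          with x b1 b2 b3 b4
        rw [b1, b2, b3, b4]
      filter_upwards [hflow s hs, ms_snd h9] with z a1 a2
      rw [a1, a2, Real.norm_eq_abs, sq_abs]
    rw [integral_congr_ae h8]
    have h10 : Integrable (fun z : ℝ × M => ((ex l - 1) ^ 2 : M →ₘ[m] ℝ) z.2) (ms m s) :=
      memLp_one_iff_integrable.1 (memLp_snd (mem_sq hk.1))
    rw [int_ms h10 hs.2.le]
    simp only [intervalIntegral.integral_const, smul_eq_mul]
    rfl
  have hK1 : ∀ᶠ n in (U : Filter ℕ), ∀ᵐ z ∂(ms m s), |jw u φ l n z - 1| ≤ b + 1 := by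
    filter_upwards [hbn' s hs] with n hn
    filter_upwards [hn] with z hz
    rw [abs_le]; constructor <;> linarith [hz.1, hz.2]
  have hK2 : ∀ᵐ z ∂(ms m s), |w0 z - 1| ≤ b + 1 := by
    filter_upwards [hw1 s hs] with z hz using hz.1.trans (by linarith)
  have := hW.diff_tendsto hst hEn (fun δ hδ => by
    filter_upwards [hEn] with n hn
    rw [hlimE]
    linarith [hn.le]) (fun n => ((jw_meas l n).sub stronglyMeasurable_const).aestronglyMeasurable)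
    hK1 hK2 hg
  refine this.congr fun n => integral_congr_ae (ae_of_all _ fun z => ?_)
  simp only
  ring

end metric

end Vale.Agent.P233.H994.Nw

namespace Vale.Agent.P233.H994.Nw

open Vale.Agent.P233.PA (en OutA)
open Vale.Agent.P233.PC

section metric

variable {M : Type u} [MetricSpace M] [CompleteSpace M] [SecondCountableTopology M]
  [MeasurableSpace M] [BorelSpace M] {m : Measure M} {K N κ : ℝ}
  {P : ℝ → (M →ₘ[m] ℝ) → (M →ₘ[m] ℝ)} {p : M} {s₀ C₀ : ℝ}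
variable {E : Type} [NormedAddCommGroup E] [InnerProductSpace ℝ E] [CompleteSpace E]
variable {Gr : (M →ₘ[m] ℝ) → M → E} {V : (M →ₘ[m] ℝ) → (M →ₘ[m] ℝ) → M → E}
  {D : (M →ₘ[m] ℝ) → (M →ₘ[m] ℝ)} {HO : (M →ₘ[m] ℝ) → M → E →L[ℝ] E} {e : ℕ → M →ₘ[m] ℝ}
variable {u : ℕ → ℝ → M →ₘ[m] ℝ} {φ : (M →ₘ[m] ℝ) → ℕ → ℝ → M →ₘ[m] ℝ} {U : Ultrafilter ℕ}
variable {ψ ρ : ℝ → M →ₘ[m] ℝ} {R : ℝ → ℝ → (M →ₘ[m] ℝ) → (M →ₘ[m] ℝ)} {Y : ℝ → M → M}

variable (c : Ctx m K N κ P p s₀ C₀ Gr V D HO e u φ U ψ ρ R Y)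

include c

theorem Ctx.gradI {h : M →ₘ[m] ℝ} (hh : h ∈ (sob m).TestI) : StronglyMeasurable (Gr h) :=
  c.hE.stat.gmeas h (c.hC.tW hh.1)

theorem Ctx.gr_bd {h : M →ₘ[m] ℝ} (hh : h ∈ (sob m).TestI) :
    ∃ L : ℝ, 0 ≤ L ∧ ∀ᵐ x ∂m, ‖Gr h x‖ ≤ L := by
  obtain ⟨k, hk⟩ := mem_top_iff.1 (c.hC.test_Γ_top hh.1)
  refine ⟨√|k|, Real.sqrt_nonneg _, ?_⟩
  filter_upwards [hk, c.hE.stat.grad.norm_sq (c.hC.tW hh.1)] with x h1 h2
  refine Real.le_sqrt_of_sq_le ?_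
  rw [h2]
  exact (le_abs_self _).trans (h1.trans (le_abs_self _))

theorem Ctx.gr2 {h : M →ₘ[m] ℝ} (hh : h ∈ (sob m).TestI) : MemLp (Gr h) 2 m :=
  c.hE.stat.grad.mem h (c.hC.tW hh.1)

/-- slices of the joint representatives of the Hessians, for all test functions at once -/
theorem Ctx.jV_all [SigmaFinite m] {l : M →ₘ[m] ℝ} (hl : l ∈ (sob m).TestI) :
    ∀ᶠ n in (U : Filter ℕ), ∀ h ∈ (sob m).TestI, ∀ t ∈ Icc (0 : ℝ) 1,
      ∀ᵐ x ∂m, jV V u φ l h n (t, x) = V (tn u φ l n t) h x := by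
  filter_upwards [c.hU (c.hB.mem l hl), c.hU (c.hB.reg l hl)] with n h1 h2 h hh
  refine jr_spec (exists_joint (zero_le_one (α := ℝ)) (fun t ht =>
    c.hE.hu.mem _ (h1 t ht).2.1.1 _ hh.1) fun t ht => ?_)
  exact (H134.blk_B0c M m (sob m) K E Gr V c.hC c.bei c.hE.stat.grad c.hE.hu (en n) 0 1
    (φ l n) (u n) h2 h hh t ht).1

theorem Ctx.jΛ_meas (n : ℕ) : Measurable (jΛ Gr V e u φ n) := by
  unfold jΛ
  refine Measurable.ennreal_toReal (Measurable.iSup fun i => ?_)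
  have h1 : Measurable fun z : ℝ × M => ‖jV V u φ 0 (e i) n z‖ := (jr_meas _).norm.measurable
  have h2 : Measurable fun z : ℝ × M => ‖Gr (e i) z.2‖ :=
    (c.gradI (c.hE.stat.testI i)).norm.measurable.comp measurable_snd
  exact (h1.div h2).ennreal_ofReal

/-- slices of `jΛ` -/
theorem Ctx.jΛ_spec [SigmaFinite m] : ∀ᶠ n in (U : Filter ℕ), ∀ t ∈ Icc (0 : ℝ) 1,
    (∀ᵐ x ∂m, jΛ Gr V e u φ n (t, x) ≤ D (tn u φ 0 n t) x) ∧
    ∀ h ∈ (sob m).TestI, ∀ᵐ x ∂m, ‖jV V u φ 0 h n (t, x)‖ ≤ jΛ Gr V e u φ n (t, x) * ‖Gr h x‖ := by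
  filter_upwards [c.jV_all c.zero, c.hU (c.hB.mem 0 c.zero)] with n h1 h2 t ht
  have hθ := (h2 t ht).2.1.1
  have key : ∀ᵐ x ∂m, (∀ i, ‖jV V u φ 0 (e i) n (t, x)‖
      ≤ jΛ Gr V e u φ n (t, x) * ‖Gr (e i) x‖) ∧ jΛ Gr V e u φ n (t, x) ≤ D (tn u φ 0 n t) x := by
    filter_upwards [ae_all_iff.2 fun i => h1 (e i) (c.hE.stat.testI i) t ht,
      ae_all_iff.2 fun i => c.hE.hd.norm _ hθ (e i) (c.hE.stat.testI i).1,
      nonneg_iff_ae.1 (c.hE.hd.nonneg _ hθ)] with x a1 a2 a3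
    have b1 : ∀ i, ‖jV V u φ 0 (e i) n (t, x)‖ / ‖Gr (e i) x‖ ≤ D (tn u φ 0 n t) x := by
      intro i
      rw [a1 i]
      exact div_le_of_le_mul₀ (norm_nonneg _) a3 (a2 i)
    have b2 : (⨆ i, ENNReal.ofReal (‖jV V u φ 0 (e i) n (t, x)‖ / ‖Gr (e i) x‖))
        ≤ ENNReal.ofReal (D (tn u φ 0 n t) x) := iSup_le fun i => ENNReal.ofReal_le_ofReal (b1 i)
    have b3 : (⨆ i, ENNReal.ofReal (‖jV V u φ 0 (e i) n (t, x)‖ / ‖Gr (e i) x‖)) ≠ ∞ :=
      ne_top_of_le_ne_top ENNReal.ofReal_ne_top b2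
    refine ⟨fun i => ?_, ENNReal.toReal_le_of_le_ofReal a3 b2⟩
    have b4 : ‖jV V u φ 0 (e i) n (t, x)‖ / ‖Gr (e i) x‖ ≤ jΛ Gr V e u φ n (t, x) := by
      unfold jΛ
      rw [← ENNReal.ofReal_le_iff_le_toReal b3]
      exact le_iSup (fun i => ENNReal.ofReal (‖jV V u φ 0 (e i) n (t, x)‖ / ‖Gr (e i) x‖)) i
    rcases eq_or_lt_of_le (norm_nonneg (Gr (e i) x)) with h0 | h0
    · rw [← h0, mul_zero, a1 i]
      have := a2 i
      rw [← h0, mul_zero] at this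
      exact this
    · exact (div_le_iff₀ h0).1 b4
  refine ⟨key.mono fun x hx => hx.2, fun h hh => ?_⟩
  have h3 := H671.V_bd c.hC c.bei c.hE.hu c.hE.stat hθ hh.1
    (L := fun x => jΛ Gr V e u φ n (t, x)) (fun i => by
      filter_upwards [key, h1 (e i) (c.hE.stat.testI i) t ht] with x a1 a2
      rw [← a2]; exact a1.1 i)
  filter_upwards [h3, h1 h hh t ht] with x a1 a2
  rw [a2]; exact a1

/-- the integrated Hessian bound -/
theorem Ctx.hess_int {l : M →ₘ[m] ℝ} (hl : l ∈ (sob m).TestI) {s : ℝ} (hs : s ∈ Ioo (0 : ℝ) 1) :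
    ∃ C : ℝ, ∀ᶠ n in (U : Filter ℕ), ∃ ee : ℝ → ℝ, IntervalIntegrable ee volume s 1 ∧
      ∫ t in s..1, ee t ≤ C ∧ ∀ t ∈ Icc s 1,
        MemLp (rn u φ l n t * D (tn u φ l n t) ^ 2 : M →ₘ[m] ℝ) 1 m ∧
        I (rn u φ l n t * D (tn u φ l n t) ^ 2) ≤ ee t := by
  obtain ⟨C, hC⟩ := c.hB.b3 l hl s hs
  refine ⟨C, ?_⟩
  filter_upwards [c.hU hC, c.lf hl, c.hU (c.hB.mem l hl)] with n h1 h2 h3
  obtain ⟨ee, a1, a2, a3⟩ := h1
  refine ⟨ee, ?_, a2, fun t ht => ?_⟩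
  · refine ContinuousOn.intervalIntegrable ?_
    rw [uIcc_of_le hs.2.le]; exact a1
  · have ht0 : t ∈ Icc (0 : ℝ) 1 := ⟨hs.1.le.trans ht.1, ht.2⟩
    refine ⟨mem_mul_top (h2 t ht0).Fl (mem_sq (c.hE.hd.mem _ (h3 t ht0).2.1.1)), ?_⟩
    have nn : ∀ f : M →ₘ[m] ℝ, 0 ≤ I (rn u φ l n t * f ^ 2) := fun f => by
      refine I_nonneg ?_
      rw [nonneg_iff_ae]
      filter_upwards [mul_ae (rn u φ l n t) (f ^ 2), sq_ae f,
        nonneg_iff_ae.1 (h2 t ht0).Fl0] with x b1 b2 b3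
      rw [b1, b2]; exact mul_nonneg b3 (sq_nonneg _)
    have b4 := a3 t ht
    have b5 := mul_nonneg (sq_nonneg (en n)) (nn (D (LL (en n) (φ l n) (u n) t)))
    have b6 := mul_nonneg (sq_nonneg (en n)) (nn ((sob m).lap (LL (en n) (φ l n) (u n) t)))
    linarith

/-- energy bound for fields that are dominated by the Hessian bound -/
theorem Ctx.ebd_of [SigmaFinite m] {l : M →ₘ[m] ℝ} (hl : l ∈ (sob m).TestI) {s : ℝ}
    (hs : s ∈ Ioo (0 : ℝ) 1) {F' : Type*} [NormedAddCommGroup F'] {G : ℕ → ℝ × M → F'}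
    (hG : ∀ n, StronglyMeasurable (G n)) {L : ℝ} (hL : 0 ≤ L)
    (h : ∀ᶠ n in (U : Filter ℕ), ∀ t ∈ Icc (0 : ℝ) 1,
      ∀ᵐ x ∂m, ‖G n (t, x)‖ ≤ L * D (tn u φ l n t) x) :
    ∃ C : ℝ, ∀ᶠ n in (U : Filter ℕ),
      Integrable (fun z => jρ u φ l n z * ‖G n z‖ ^ 2) (ms m s) ∧
        ∫ z, jρ u φ l n z * ‖G n z‖ ^ 2 ∂(ms m s) ≤ C := by
  obtain ⟨C, hC⟩ := c.hess_int hl hs
  refine ⟨L ^ 2 * C, ?_⟩
  filter_upwards [hC, c.hU (jρ_spec c.hC c.hB hl), h, c.lf hl] with n h1 h2 h3 h4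
  obtain ⟨ee, a1, a2, a3⟩ := h1
  have hm : Measurable fun z => jρ u φ l n z * ‖G n z‖ ^ 2 :=
    (jr_meas _).measurable.mul ((hG n).norm.measurable.pow_const 2)
  have key := int_ms_le (m := m) (s := s) hm hs.2.le (e := fun t => L ^ 2 * ee t)
    (a1.const_mul _) (fun t ht => by
      have ht0 : t ∈ Icc (0 : ℝ) 1 := ⟨hs.1.le.trans ht.1.le, ht.2⟩
      filter_upwards [h2 t ht0, nonneg_iff_ae.1 (h4 t ht0).Fl0] with x b1 b2
      rw [b1]; positivity) (fun t ht => by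
      have ht0 : t ∈ Icc (0 : ℝ) 1 := ⟨hs.1.le.trans ht.1.le, ht.2⟩
      have ht1 : t ∈ Icc s 1 := ⟨ht.1.le, ht.2⟩
      obtain ⟨c1, c2⟩ := a3 t ht1
      have e1 : ∀ᵐ x ∂m, 0 ≤ jρ u φ l n (t, x) * ‖G n (t, x)‖ ^ 2 ∧
          jρ u φ l n (t, x) * ‖G n (t, x)‖ ^ 2
          ≤ L ^ 2 * (rn u φ l n t * D (tn u φ l n t) ^ 2 : M →ₘ[m] ℝ) x := by
        filter_upwards [h2 t ht0, nonneg_iff_ae.1 (h4 t ht0).Fl0, h3 t ht0,
          mul_ae (rn u φ l n t) (D (tn u φ l n t) ^ 2), sq_ae (D (tn u φ l n t))]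
          with x b1 b2 b3 b4 b5
        rw [b4, b5, b1]
        refine ⟨by positivity, ?_⟩
        have b6 := pow_le_pow_left₀ (norm_nonneg _) b3 2
        calc rn u φ l n t x * ‖G n (t, x)‖ ^ 2
            ≤ rn u φ l n t x * (L * D (tn u φ l n t) x) ^ 2 := mul_le_mul_of_nonneg_left b6 b2
          _ = _ := by ring
      have i1 : Integrable (fun x => L ^ 2 * (rn u φ l n t * D (tn u φ l n t) ^ 2 : M →ₘ[m] ℝ) x) m :=
        (int_of_mem c1).const_mul _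
      have i2 : Integrable (fun x => jρ u φ l n (t, x) * ‖G n (t, x)‖ ^ 2) m := by
        refine i1.mono' ?_ ?_
        · exact (hm.comp measurable_prodMk_left).aestronglyMeasurable
        · filter_upwards [e1] with x hx
          rw [Real.norm_of_nonneg hx.1]; exact hx.2
      refine ⟨i2, ?_⟩
      calc ∫ x, jρ u φ l n (t, x) * ‖G n (t, x)‖ ^ 2 ∂m
          ≤ ∫ x, L ^ 2 * (rn u φ l n t * D (tn u φ l n t) ^ 2 : M →ₘ[m] ℝ) x ∂m :=
            integral_mono_ae i2 i1 (e1.mono fun x hx => hx.2)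
        _ = L ^ 2 * I (rn u φ l n t * D (tn u φ l n t) ^ 2) := integral_const_mul _ _
        _ ≤ _ := mul_le_mul_of_nonneg_left c2 (sq_nonneg L))
  refine ⟨key.1, key.2.trans ?_⟩
  rw [intervalIntegral.integral_const_mul]
  exact mul_le_mul_of_nonneg_left a2 (sq_nonneg L)

theorem Ctx.ebdV [SigmaFinite m] {l h : M →ₘ[m] ℝ} (hl : l ∈ (sob m).TestI)
    (hh : h ∈ (sob m).TestI) {s : ℝ} (hs : s ∈ Ioo (0 : ℝ) 1) :
    ∃ C : ℝ, ∀ᶠ n in (U : Filter ℕ), EBd (ms m s) C (jρ u φ l n) (jV V u φ l h n) := by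
  obtain ⟨L, hL0, hL⟩ := c.gr_bd hh
  obtain ⟨C, hC⟩ := c.ebd_of hl hs (G := fun n => jV V u φ l h n) (fun n => jr_meas _) hL0 (by
    filter_upwards [c.jV_all hl, c.hU (c.hB.mem l hl)] with n h1 h2 t ht
    filter_upwards [h1 h hh t ht, c.hE.hd.norm _ (h2 t ht).2.1.1 h hh.1, hL,
      nonneg_iff_ae.1 (c.hE.hd.nonneg _ (h2 t ht).2.1.1)] with x a1 a2 a3 a4
    rw [a1]
    calc ‖V (tn u φ l n t) h x‖ ≤ D (tn u φ l n t) x * ‖Gr h x‖ := a2
      _ ≤ D (tn u φ l n t) x * L := mul_le_mul_of_nonneg_left a3 a4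
      _ = _ := mul_comm _ _)
  exact ⟨C, hC.mono fun n hn => ⟨(jr_meas _).aestronglyMeasurable, hn.1, hn.2⟩⟩

theorem Ctx.ebdΛ [SigmaFinite m] {s : ℝ} (hs : s ∈ Ioo (0 : ℝ) 1) :
    ∃ C : ℝ, ∀ᶠ n in (U : Filter ℕ), EBd (ms m s) C (jρ u φ 0 n) (jΛ Gr V e u φ n) := by
  obtain ⟨C, hC⟩ := c.ebd_of c.zero hs (G := fun n => jΛ Gr V e u φ n)
    (fun n => (c.jΛ_meas n).stronglyMeasurable) zero_le_one (by
    filter_upwards [c.jΛ_spec] with n h1 t ht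
    filter_upwards [(h1 t ht).1] with x a1
    rw [Real.norm_of_nonneg (jΛ_nonneg _ _), one_mul]
    exact a1)
  exact ⟨C, hC.mono fun n hn => ⟨(c.jΛ_meas n).aestronglyMeasurable, hn.1, hn.2⟩⟩

/-- **the limit tensor on `(s,1] × M`** -/
theorem Ctx.exists_H [SigmaFinite m] {ρ0 : ℝ × M → ℝ} (hρ : Rho m u φ U ρ ρ0) {s : ℝ}
    (hs : s ∈ Ioo (0 : ℝ) 1) : ∃ H Λ, HDat m Gr V e u φ U ρ0 s H Λ := by
  obtain ⟨k, hk0, hst⟩ := hρ.star s hs
  obtain ⟨C, hC⟩ := c.ebdΛ hs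
  choose! L hL0 hL using fun (h : M →ₘ[m] ℝ) (hh : h ∈ (sob m).TestI) => c.gr_bd hh
  obtain ⟨-, H, Λ, h1, h2, h3, h4, h5, h6⟩ := exists_tensor (U := U) (ν := ms m s) (C := C) hk0 hst
    (J := {h : M →ₘ[m] ℝ // h ∈ (sob m).TestI}) (X := fun h z => Gr h.1 z.2)
    (L := fun h => L h.1)
    (fun h => asm_snd (c.gradI h.2).aestronglyMeasurable) (fun h => ms_snd (hL h.1 h.2))
    (A := fun n h => jV V u φ 0 h.1 n) (fun n h => (jr_meas _).aestronglyMeasurable)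
    (Λ := fun n => jΛ Gr V e u φ n) hC (Eventually.of_forall fun n =>
      Eventually.of_forall fun z => jΛ_nonneg _ _) (fun h => by
      filter_upwards [c.jΛ_spec] with n hn
      refine ae_ms (measurableSet_le (jr_meas _).norm.measurable ((c.jΛ_meas n).mul
        ((c.gradI h.2).norm.measurable.comp measurable_snd))) fun t ht => ?_
      have ht0 : t ∈ Icc (0 : ℝ) 1 := ⟨hs.1.le.trans ht.1.le, ht.2⟩
      exact (hn t ht0).2 h.1 h.2)
  classical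
  refine ⟨fun h => if hh : h ∈ (sob m).TestI then H ⟨h, hh⟩ else 0, Λ, ?_, h1, h3, ?_⟩
  · intro h hh
    rw [dif_pos hh]
    exact h4 ⟨h, hh⟩
  · intro h hh
    rw [dif_pos hh]
    filter_upwards [h5 ⟨h, hh⟩] with z hz _ using hz

end metric

end Vale.Agent.P233.H994.Nw

namespace Vale.Agent.P233.H994.Nw

open Vale.Agent.P233.PA (en OutA)
open Vale.Agent.P233.PC

section abstract

variable {X : Type*} [MeasurableSpace X] {m : Measure X} [SFinite m] {U : Ultrafilter ℕ}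
  {E : Type*} [NormedAddCommGroup E] [InnerProductSpace ℝ E]
  {ρ : ℕ → ℝ × X → ℝ} {ρ0 : ℝ × X → ℝ} {F : ℕ → ℝ × X → E}

end abstract

section metric

variable {M : Type u} [MetricSpace M] [CompleteSpace M] [SecondCountableTopology M]
  [MeasurableSpace M] [BorelSpace M] {m : Measure M} {K N κ : ℝ}
  {P : ℝ → (M →ₘ[m] ℝ) → (M →ₘ[m] ℝ)} {p : M} {s₀ C₀ : ℝ}
variable {E : Type} [NormedAddCommGroup E] [InnerProductSpace ℝ E] [CompleteSpace E]
variable {Gr : (M →ₘ[m] ℝ) → M → E} {V : (M →ₘ[m] ℝ) → (M →ₘ[m] ℝ) → M → E}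
  {D : (M →ₘ[m] ℝ) → (M →ₘ[m] ℝ)} {HO : (M →ₘ[m] ℝ) → M → E →L[ℝ] E} {e : ℕ → M →ₘ[m] ℝ}
variable {u : ℕ → ℝ → M →ₘ[m] ℝ} {φ : (M →ₘ[m] ℝ) → ℕ → ℝ → M →ₘ[m] ℝ} {U : Ultrafilter ℕ}
variable {ψ ρ : ℝ → M →ₘ[m] ℝ} {R : ℝ → ℝ → (M →ₘ[m] ℝ) → (M →ₘ[m] ℝ)} {Y : ℝ → M → M}

variable (c : Ctx m K N κ P p s₀ C₀ Gr V D HO e u φ U ψ ρ R Y)

include c

/-- **the glued limit tensor** -/
theorem Ctx.exists_Hglue [SigmaFinite m] {ρ0 : ℝ × M → ℝ} (hρ : Rho m u φ U ρ ρ0) :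
    ∃ (H : (M →ₘ[m] ℝ) → ℝ × M → E) (Λ : ℝ × M → ℝ),
      (∀ h ∈ (sob m).TestI, StronglyMeasurable (H h)) ∧ Measurable Λ ∧
      ∀ s ∈ Ioo (0 : ℝ) 1, HDat m Gr V e u φ U ρ0 s H Λ := by
  classical
  choose! H' Λ' hd using fun (s : ℝ) (hs : s ∈ Ioo (0 : ℝ) 1) => c.exists_H hρ hs
  let Hm : (M →ₘ[m] ℝ) → ℕ → ℝ × M → E := fun h k =>
    if hh : h ∈ (sob m).TestI then ((hd (sk k) (sk_mem k)).wl h hh).meas.mk _ else 0
  have hHm : ∀ h k, StronglyMeasurable (Hm h k) := by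
    intro h k
    simp only [Hm]
    split_ifs with hh
    · exact AEStronglyMeasurable.stronglyMeasurable_mk _
    · exact stronglyMeasurable_const
  have hHe : ∀ h ∈ (sob m).TestI, ∀ k, ∀ᵐ z ∂(ms m (sk k)), Hm h k z = H' (sk k) h z := by
    intro h hh k
    simp only [Hm, dif_pos hh]
    exact (AEStronglyMeasurable.ae_eq_mk _).symm
  let Λm : ℕ → ℝ × M → ℝ := fun k z => max ((hd (sk k) (sk_mem k)).wΛ.meas.mk _ z) 0
  have hΛm : ∀ k, StronglyMeasurable (Λm k) := fun k =>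
    (AEStronglyMeasurable.stronglyMeasurable_mk _).sup stronglyMeasurable_const
  have hΛe : ∀ k, ∀ᵐ z ∂(ms m (sk k)), Λm k z = Λ' (sk k) z := by
    intro k
    filter_upwards [(hd (sk k) (sk_mem k)).wΛ.meas.ae_eq_mk] with z hz
    simp only [Λm]
    rw [← hz]
    exact max_eq_left ((hd (sk k) (sk_mem k)).nn z)
  have g1 := fun h (hh : h ∈ (sob m).TestI) => wlim_glue (F0 := fun s => H' s h)
    (fun s hs => (hd s hs).wl h hh) (hHm h) (hHe h hh)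
  have g2 := wlim_glue (F0 := fun s => Λ' s) (fun s hs => (hd s hs).wΛ) hΛm hΛe
  refine ⟨fun h z => Hm h (kk z.1) z, fun z => Λm (kk z.1) z, fun h hh => (g1 h hh).1,
    g2.1.measurable, fun s hs => ⟨fun h hh => ((g1 h hh).2 s hs).1, (g2.2 s hs).1,
      fun z => le_max_right _ _, fun h hh => ?_⟩⟩
  filter_upwards [((g1 h hh).2 s hs).2, (g2.2 s hs).2, (hd s hs).bd h hh] with z a1 a2 a3 a4
  rw [a1 a4.ne', a2 a4.ne']
  exact a3 a4

/-- the Hessians take their values in the tangent spaces -/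
theorem Ctx.jV_mem [SigmaFinite m] {l h : M →ₘ[m] ℝ} (hl : l ∈ (sob m).TestI)
    (hh : h ∈ (sob m).TestI) : ∀ᶠ n in (U : Filter ℕ), ∀ s ∈ Ioo (0 : ℝ) 1, ∀ᵐ z ∂(ms m s),
      jV V u φ l h n z ∈ (Submodule.span ℝ (range fun j => Gr (e j) z.2)).topologicalClosure := by
  filter_upwards [c.jV_all hl, c.hU (c.hB.mem l hl)] with n h1 h2 s hs
  have h3 : ∀ᵐ z ∂(ms m s), ∀ r : ℕ, ∃ j, ‖jV V u φ l h n z - Gr (e j) z.2‖ < 1 / ((r : ℝ) + 1) := by
    refine ae_ms ?_ fun t ht => ?_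
    · have : {z : ℝ × M | ∀ r : ℕ, ∃ j, ‖jV V u φ l h n z - Gr (e j) z.2‖ < 1 / ((r : ℝ) + 1)}
          = ⋂ r : ℕ, ⋃ j, {z : ℝ × M | ‖jV V u φ l h n z - Gr (e j) z.2‖ < 1 / ((r : ℝ) + 1)} := by
        ext z; simp
      rw [this]
      refine MeasurableSet.iInter fun r => MeasurableSet.iUnion fun j => ?_
      exact measurableSet_lt ((jr_meas _).sub ((c.gradI
        (c.hE.stat.testI j)).comp_measurable measurable_snd)).norm.measurable measurable_const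
    · have ht0 : t ∈ Icc (0 : ℝ) 1 := ⟨hs.1.le.trans ht.1.le, ht.2⟩
      filter_upwards [h1 h hh t ht0, H671.V_mem c.hC c.hE.hu c.hE.stat (h2 t ht0).2.1.1 hh.1,
        H671.ae_dense c.hC c.bei c.hE.stat] with x a1 a2 a3 r
      have a4 := a3 _ a2
      obtain ⟨y, ⟨j, hj⟩, hy⟩ := Metric.mem_closure_iff.1 a4 (1 / ((r : ℝ) + 1)) (by positivity)
      refine ⟨j, ?_⟩
      rw [a1, ← dist_eq_norm]
      rwa [← hj] at hy
  filter_upwards [h3] with z hz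
  have h4 : jV V u φ l h n z ∈ closure (range fun j => Gr (e j) z.2) := by
    rw [Metric.mem_closure_iff]
    intro ε hε
    obtain ⟨r, hr⟩ := exists_nat_one_div_lt hε
    obtain ⟨j, hj⟩ := hz r
    exact ⟨_, ⟨j, rfl⟩, by rw [dist_eq_norm]; exact hj.trans hr⟩
  exact closure_mono Submodule.subset_span h4

variable [SigmaFinite m] {ρ0 : ℝ × M → ℝ} (hρ : Rho m u φ U ρ ρ0)
variable {H : (M →ₘ[m] ℝ) → ℝ × M → E} {Λ : ℝ × M → ℝ} {s : ℝ} (hs : s ∈ Ioo (0 : ℝ) 1)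
variable (hD : HDat m Gr V e u φ U ρ0 s H Λ)

include hρ hs hD

theorem Ctx.Λ_ebd : ∃ C, EBd (ms m s) C ρ0 Λ := by
  obtain ⟨k, hk0, hst⟩ := hρ.star s hs
  obtain ⟨C, hC⟩ := c.ebdΛ hs
  exact ⟨C, hD.wΛ.ebd hst hC⟩

theorem Ctx.rV_mem {h : M →ₘ[m] ℝ} (hh : h ∈ (sob m).TestI) :
    ∀ᶠ n in (U : Filter ℕ), MemLp (fun z => jρ u φ 0 n z • jV V u φ 0 h n z) 2 (ms m s) := by
  obtain ⟨k, hk0, hst⟩ := hρ.star s hs
  obtain ⟨C, hC⟩ := c.ebdV c.zero hh hs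
  filter_upwards [hC, hst.bd] with n h1 h2
  exact h1.memLp (hst.meas n) h2

theorem Ctx.H_lin {h h' : M →ₘ[m] ℝ} (hh : h ∈ (sob m).TestI) (hh' : h' ∈ (sob m).TestI) (a : ℝ) :
    ∀ᵐ z ∂(ms m s), ρ0 z ≠ 0 → H (h + a • h') z = H h z + a • H h' z := by
  have hs' := c.hC.testI_add c.bei hh (c.hC.testI_smul c.bei a hh')
  have w1 := hD.wl _ hs'
  have w2 := (hD.wl h' hh').bsmul (c := fun _ => a) (c1 := |a|) aestronglyMeasurable_const
    (ae_of_all _ fun _ => le_rfl)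
  have w3 := (hD.wl h hh).add w2 (c.rV_mem hρ hs hD hh) (by
    filter_upwards [c.rV_mem hρ hs hD hh'] with n hn
    refine (hn.const_smul a).ae_eq (ae_of_all _ fun z => ?_)
    simp only [Pi.smul_apply, smul_comm a])
  have w4 : WLim U (ms m s) (fun n => jρ u φ 0 n) ρ0 (fun n => jV V u φ 0 (h + a • h') n)
      (fun z => H h z + a • H h' z) := by
    refine w3.congr ?_
    filter_upwards [c.jV_all c.zero, c.hU (c.hB.mem 0 c.zero)] with n h1 h2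
    have h3 : ∀ᵐ z ∂(ms m s), jV V u φ 0 (h + a • h') n z
        = jV V u φ 0 h n z + a • jV V u φ 0 h' n z := by
      refine ae_ms (StronglyMeasurable.measurableSet_eq_fun (jr_meas _)
        ((jr_meas _).add ((jr_meas _).const_smul a))) fun t ht => ?_
      have ht0 : t ∈ Icc (0 : ℝ) 1 := ⟨hs.1.le.trans ht.1.le, ht.2⟩
      filter_upwards [h1 _ hs' t ht0, h1 _ hh t ht0, h1 _ hh' t ht0,
        c.hE.hu.lin_a c.hC c.bei c.hE.stat.grad a hh.1 hh'.1 (h2 t ht0).2.1.1] with x b1 b2 b3 b4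
      rw [b1, b2, b3, b4]
    filter_upwards [h3] with z hz
    rw [hz]
  exact w1.unique w4

theorem Ctx.H_sym {h h' : M →ₘ[m] ℝ} (hh : h ∈ (sob m).TestI) (hh' : h' ∈ (sob m).TestI) :
    ∀ᵐ z ∂(ms m s), ρ0 z ≠ 0 → ⟪H h z, Gr h' z.2⟫_ℝ = ⟪H h' z, Gr h z.2⟫_ℝ := by
  refine (hD.wl h hh).symm (hD.wl h' hh') (X := fun z => Gr h z.2) (X' := fun z => Gr h' z.2)
    (memLp_snd (c.gr2 hh)) (memLp_snd (c.gr2 hh')) ?_
  filter_upwards [c.jV_all c.zero, c.hU (c.hB.mem 0 c.zero)] with n h1 h2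
  refine ae_ms (measurableSet_eq_fun
    ((jr_meas _).inner ((c.gradI hh').comp_measurable measurable_snd)).measurable
    ((jr_meas _).inner ((c.gradI hh).comp_measurable measurable_snd)).measurable) fun t ht => ?_
  have ht0 : t ∈ Icc (0 : ℝ) 1 := ⟨hs.1.le.trans ht.1.le, ht.2⟩
  have hθ := (h2 t ht0).2.1.1
  filter_upwards [h1 _ hh t ht0, h1 _ hh' t ht0, c.hE.hu.inner _ hθ _ hh.1 _ hh'.1,
    c.hE.hu.inner _ hθ _ hh'.1 _ hh.1, eq_iff_ae.1 (c.hC.hess_symm c.bei hθ hh.1 hh'.1)]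
    with x b1 b2 b3 b4 b5
  rw [b1, b2, b3, b4, b5]

theorem Ctx.H_span {h : M →ₘ[m] ℝ} (hh : h ∈ (sob m).TestI) :
    ∀ᵐ z ∂(ms m s), ρ0 z ≠ 0 →
      H h z ∈ (Submodule.span ℝ (range fun j => Gr (e j) z.2)).topologicalClosure := by
  let S : ℝ × M → Submodule ℝ E :=
    fun z => (Submodule.span ℝ (range fun j => Gr (e j) z.2)).topologicalClosure
  have hS : ∀ z, IsClosed (S z : Set E) := fun z => Submodule.isClosed_topologicalClosure _
  have h1 := c.rV_mem hρ hs hD hh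
  have h2 : ∀ᶠ n in (U : Filter ℕ), ∀ᵐ z ∂(ms m s), jV V u φ 0 h n z ∈ S z :=
    (c.jV_mem c.zero hh).mono fun n hn => hn s hs
  exact WLim.mem_closed (S := S) hS (hD.wl h hh) h1 h2

end metric

end Vale.Agent.P233.H994.Nw

namespace Vale.Agent.P233.H994.Nw

open Vale.Agent.P233.PA (en OutA)
open Vale.Agent.P233.PC

section metric

variable {M : Type u} [MetricSpace M] [CompleteSpace M] [SecondCountableTopology M]
  [MeasurableSpace M] [BorelSpace M] {m : Measure M} {K N κ : ℝ}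
  {P : ℝ → (M →ₘ[m] ℝ) → (M →ₘ[m] ℝ)} {p : M} {s₀ C₀ : ℝ}
variable {E : Type} [NormedAddCommGroup E] [InnerProductSpace ℝ E] [CompleteSpace E]
variable {Gr : (M →ₘ[m] ℝ) → M → E} {V : (M →ₘ[m] ℝ) → (M →ₘ[m] ℝ) → M → E}
  {D : (M →ₘ[m] ℝ) → (M →ₘ[m] ℝ)} {HO : (M →ₘ[m] ℝ) → M → E →L[ℝ] E} {e : ℕ → M →ₘ[m] ℝ}
variable {u : ℕ → ℝ → M →ₘ[m] ℝ} {φ : (M →ₘ[m] ℝ) → ℕ → ℝ → M →ₘ[m] ℝ} {U : Ultrafilter ℕ}
variable {ψ ρ : ℝ → M →ₘ[m] ℝ} {R : ℝ → ℝ → (M →ₘ[m] ℝ) → (M →ₘ[m] ℝ)} {Y : ℝ → M → M}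

variable (c : Ctx m K N κ P p s₀ C₀ Gr V D HO e u φ U ψ ρ R Y)

include c

/-- bounds of the densities in space-time -/
theorem Ctx.jρ_bd [SigmaFinite m] {l : M →ₘ[m] ℝ} (hl : l ∈ (sob m).TestI) {s : ℝ}
    (hs : s ∈ Ioo (0 : ℝ) 1) : ∃ k : ℝ, 0 ≤ k ∧ ∀ᶠ n in (U : Filter ℕ), ∀ᵐ z ∂(ms m s),
      0 ≤ jρ u φ l n z ∧ jρ u φ l n z ≤ k := by
  obtain ⟨k, hk0, hk⟩ := rn_bd c.hyp.std.hN c.hA c.hyp.hC0 hl (c.top hl) hs
  refine ⟨k, hk0, ?_⟩
  filter_upwards [c.hU hk, c.hU (jρ_spec c.hC c.hB hl)] with n a1 a2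
  refine ae_ms ?_ fun t ht => ?_
  · exact (measurableSet_le measurable_const (jρ_meas l n).measurable).inter
      (measurableSet_le (jρ_meas l n).measurable measurable_const)
  · have ht' : t ∈ Icc s 1 := ⟨ht.1.le, ht.2⟩
    have ht0 : t ∈ Icc (0 : ℝ) 1 := ⟨hs.1.le.trans ht.1.le, ht.2⟩
    filter_upwards [a1 t ht', a2 t ht0, rn_pos (u := u) (φ := φ) l n t] with x b1 b2 b3
    rw [b2]
    exact ⟨b3.le, b1⟩

/-- `L²` bound of `ρ^l V θ^l h` -/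
theorem Ctx.rV_bd [SigmaFinite m] {l h : M →ₘ[m] ℝ} (hl : l ∈ (sob m).TestI)
    (hh : h ∈ (sob m).TestI) {s : ℝ} (hs : s ∈ Ioo (0 : ℝ) 1) :
    ∃ B : ℝ, ∀ᶠ n in (U : Filter ℕ), MemLp (fun z => jρ u φ l n z • jV V u φ l h n z) 2 (ms m s) ∧
      ∫ z, ‖jρ u φ l n z • jV V u φ l h n z‖ ^ 2 ∂(ms m s) ≤ B := by
  obtain ⟨k, hk0, hk⟩ := c.jρ_bd hl hs
  obtain ⟨C, hC⟩ := c.ebdV hl hh hs
  refine ⟨k * C, ?_⟩
  filter_upwards [hk, hC] with n h1 h2
  exact ⟨h2.memLp (jρ_meas l n).aestronglyMeasurable h1,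
    h2.sq_le (jρ_meas l n).aestronglyMeasurable h1 hk0⟩

/-- `ρ^l = ρ^0 w` in space-time -/
theorem Ctx.jw_mul [SigmaFinite m] {l : M →ₘ[m] ℝ} (hl : l ∈ (sob m).TestI) {s : ℝ}
    (hs : s ∈ Ioo (0 : ℝ) 1) : ∀ᶠ n in (U : Filter ℕ), ∀ᵐ z ∂(ms m s),
      jρ u φ l n z = jw u φ l n z * jρ u φ 0 n z := by
  filter_upwards [c.jw_spec hl] with n a2
  refine ae_ms (measurableSet_eq_fun (jρ_meas l n).measurable
    ((jw_meas l n).measurable.mul (jρ_meas 0 n).measurable)) fun t ht => ?_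
  have ht0 : t ∈ Icc (0 : ℝ) 1 := ⟨hs.1.le.trans ht.1.le, ht.2⟩
  filter_upwards [a2 t ht0] with x b
  obtain ⟨b1, b2, b3, b4, b5⟩ := b
  rw [b1, b2, b4, b5, mul_comm]

/-- the Hessians of `θ^l` and of `θ^0` have the same limit -/
theorem Ctx.T1 [SigmaFinite m] {l h : M →ₘ[m] ℝ} (hl : l ∈ (sob m).TestI)
    (hh : h ∈ (sob m).TestI) {s : ℝ} (hs : s ∈ Ioo (0 : ℝ) 1) {Kb : ℝ} {w0 : ℝ × M → ℝ}
    (hw : WDat m u φ U Y l Kb w0) {Φ : ℝ × M → E} (hΦ : MemLp Φ 2 (ms m s)) :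
    (∀ᶠ n in (U : Filter ℕ),
      MemLp (fun z => jρ u φ l n z • (jV V u φ l h n z - jV V u φ 0 h n z)) 2 (ms m s)) ∧
    Tendsto (fun n => ∫ z, ⟪jρ u φ l n z • (jV V u φ l h n z - jV V u φ 0 h n z), Φ z⟫_ℝ ∂(ms m s))
      U (𝓝 0) := by
  obtain ⟨B1, hB1⟩ := c.rV_bd hl hh hs
  obtain ⟨B2, hB2⟩ := c.rV_bd c.zero hh hs
  have hF : ∀ᶠ n in (U : Filter ℕ),
      MemLp (fun z => jρ u φ l n z • (jV V u φ l h n z - jV V u φ 0 h n z)) 2 (ms m s) ∧
      ∫ z, ‖jρ u φ l n z • (jV V u φ l h n z - jV V u φ 0 h n z)‖ ^ 2 ∂(ms m s)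
        ≤ 2 * B1 + 2 * Kb ^ 2 * B2 ∧
      ∀ᵐ z ∂(ms m s), jρ u φ l n z • (jV V u φ l h n z - jV V u φ 0 h n z)
        ∈ (Submodule.span ℝ (range fun j => Gr (e j) z.2)).topologicalClosure := by
    filter_upwards [hB1, hB2, hw.bdn s hs, c.jw_mul hl hs, c.jV_mem hl hh, c.jV_mem c.zero hh]
      with n h1 h2 h3 h4 h5 h6
    have e1 : ∀ᵐ z ∂(ms m s), jρ u φ l n z • (jV V u φ l h n z - jV V u φ 0 h n z)
        = jρ u φ l n z • jV V u φ l h n z - jw u φ l n z • (jρ u φ 0 n z • jV V u φ 0 h n z) := by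
      filter_upwards [h4] with z hz
      rw [smul_sub, smul_smul, ← hz]
    have m2 : MemLp (fun z => jw u φ l n z • (jρ u φ 0 n z • jV V u φ 0 h n z)) 2 (ms m s) :=
      memLp_bdd_smul h2.1 (jw_meas l n).aestronglyMeasurable h3
    have m3 : MemLp (fun z => jρ u φ l n z • (jV V u φ l h n z - jV V u φ 0 h n z)) 2 (ms m s) :=
      (h1.1.sub m2).ae_eq (e1.mono fun z hz => hz.symm)
    refine ⟨m3, ?_, ?_⟩
    · have i1 := (memLp_two_iff_integrable_sq_norm h1.1.1).1 h1.1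
      have i2 := (memLp_two_iff_integrable_sq_norm h2.1.1).1 h2.1
      have i3 := (memLp_two_iff_integrable_sq_norm m3.1).1 m3
      calc ∫ z, ‖jρ u φ l n z • (jV V u φ l h n z - jV V u φ 0 h n z)‖ ^ 2 ∂(ms m s)
          ≤ ∫ z, (2 * ‖jρ u φ l n z • jV V u φ l h n z‖ ^ 2
              + 2 * Kb ^ 2 * ‖jρ u φ 0 n z • jV V u φ 0 h n z‖ ^ 2) ∂(ms m s) := by
            refine integral_mono_ae i3 ((i1.const_mul _).add (i2.const_mul _)) ?_
            filter_upwards [e1, h3] with z a1 a2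
            show ‖jρ u φ l n z • (jV V u φ l h n z - jV V u φ 0 h n z)‖ ^ 2 ≤ _
            rw [a1]
            have k1 : ‖jw u φ l n z • (jρ u φ 0 n z • jV V u φ 0 h n z)‖ ^ 2
                ≤ Kb ^ 2 * ‖jρ u φ 0 n z • jV V u φ 0 h n z‖ ^ 2 := by
              rw [norm_smul, mul_pow]
              refine mul_le_mul_of_nonneg_right ?_ (by positivity)
              exact pow_le_pow_left₀ (norm_nonneg _) a2 2
            have k2 := norm_sub_le (jρ u φ l n z • jV V u φ l h n z)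
              (jw u φ l n z • (jρ u φ 0 n z • jV V u φ 0 h n z))
            have k3 := pow_le_pow_left₀ (norm_nonneg _) k2 2
            nlinarith [sq_nonneg (‖jρ u φ l n z • jV V u φ l h n z‖
              - ‖jw u φ l n z • (jρ u φ 0 n z • jV V u φ 0 h n z)‖)]
        _ = 2 * ∫ z, ‖jρ u φ l n z • jV V u φ l h n z‖ ^ 2 ∂(ms m s)
            + 2 * Kb ^ 2 * ∫ z, ‖jρ u φ 0 n z • jV V u φ 0 h n z‖ ^ 2 ∂(ms m s) := by
            rw [integral_add (i1.const_mul _) (i2.const_mul _), integral_const_mul,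
              integral_const_mul]
        _ ≤ _ := by
            have := mul_le_mul_of_nonneg_left h2.2 (by positivity : 0 ≤ 2 * Kb ^ 2)
            linarith [h1.2]
    · filter_upwards [h5 s hs, h6 s hs] with z a1 a2
      exact Submodule.smul_mem _ _ (Submodule.sub_mem _ a1 a2)
  refine ⟨hF.mono fun n hn => hn.1, ?_⟩
  refine H131.weak_zero_stat c.hC c.hE.stat hF (fun a b ha hab hb i j => ?_) hΦ
  have hi := c.hE.stat.testI i
  have hj := c.hE.stat.testI j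
  obtain ⟨g, hg1, hg2⟩ := H671.Nw.hess_diff c.hyp.std c.hB c.hU c.hS hl hh hi hj hs
  refine squeeze_zero_norm' ?_ hg2
  filter_upwards [hF, hg1, c.jV_all hl, c.jV_all c.zero, c.hU (jρ_spec c.hC c.hB hl),
    c.hU (c.hB.mem l hl), c.hU (c.hB.mem 0 c.zero)] with n h1 h2 h3 h4 h5 h6 h7
  obtain ⟨Lj, hLj⟩ := mem_top_iff.1 (c.top hj)
  obtain ⟨Li, hLi0, hLi⟩ := c.gr_bd hi
  have hGi : MemLp (fun z : ℝ × M => Gr (e i) z.2) 2 (ms m s) := memLp_snd (c.gr2 hi)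
  have k0 : Integrable (fun z : ℝ × M => ⟪jρ u φ l n z • (jV V u φ l h n z - jV V u φ 0 h n z),
      Gr (e i) z.2⟫_ℝ) (ms m s) := int_inner_of_memLp h1.1 hGi
  have k1 : Integrable (fun z : ℝ × M => e j z.2 *
      ⟪jρ u φ l n z • (jV V u φ l h n z - jV V u φ 0 h n z), Gr (e i) z.2⟫_ℝ) (ms m s) :=
    k0.bdd_mul (asm_snd (e j).aestronglyMeasurable) (ms_snd hLj)
  have k2 : Integrable (fun z : ℝ × M => (Ioc a b).indicator (fun _ => (1 : ℝ)) z.1 * (e j z.2 *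
      ⟪jρ u φ l n z • (jV V u φ l h n z - jV V u φ 0 h n z), Gr (e i) z.2⟫_ℝ)) (ms m s) := by
    refine k1.bdd_mul (c := 1) ?_ (ae_of_all _ fun z => by
      by_cases hz : z.1 ∈ Ioc a b <;> simp [hz])
    exact ((measurable_const.indicator measurableSet_Ioc).comp measurable_fst).aestronglyMeasurable
  have k3 : ∀ t ∈ Ioc s 1, ∫ x, e j x *
      ⟪jρ u φ l n (t, x) • (jV V u φ l h n (t, x) - jV V u φ 0 h n (t, x)), Gr (e i) x⟫_ℝ ∂m
      = I (e j * rn u φ l n t * ((sob m).hess (tn u φ l n t) h (e i)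
        - (sob m).hess (tn u φ 0 n t) h (e i))) := by
    intro t ht
    have ht0 : t ∈ Icc (0 : ℝ) 1 := ⟨hs.1.le.trans ht.1.le, ht.2⟩
    unfold I
    refine integral_congr_ae ?_
    filter_upwards [h3 h hh t ht0, h4 h hh t ht0, h5 t ht0,
      c.hE.hu.inner _ (h6 t ht0).2.1.1 _ hh.1 _ hi.1, c.hE.hu.inner _ (h7 t ht0).2.1.1 _ hh.1 _ hi.1,
      mul_ae (e j * rn u φ l n t) ((sob m).hess (tn u φ l n t) h (e i)
        - (sob m).hess (tn u φ 0 n t) h (e i)), mul_ae (e j) (rn u φ l n t),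
      sub_ae ((sob m).hess (tn u φ l n t) h (e i)) ((sob m).hess (tn u φ 0 n t) h (e i))]
      with x b1 b2 b3 b4 b5 b6 b7 b8
    rw [b6, b7, b8, b1, b2, b3, real_inner_smul_left, inner_sub_left, b4, b5]
    ring
  have k4 := int_tensor (m := m) (f := fun z => e j z.2 *
      ⟪jρ u φ l n z • (jV V u φ l h n z - jV V u φ 0 h n z), Gr (e i) z.2⟫_ℝ) ha hab hb k2 k3
  rw [k4]
  have k5 : IntervalIntegrable (g n) volume a b := by
    refine h2.1.mono_set ?_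
    rw [uIcc_of_le hab, uIcc_of_le hs.2.le]
    exact Icc_subset_Icc ha hb
  refine (intervalIntegral.norm_integral_le_of_norm_le hab (g := g n) ?_ k5).trans ?_
  · refine Eventually.of_forall fun t ht => ?_
    exact h2.2 t ⟨ha.trans ht.1.le, ht.2.trans hb⟩
  · refine intervalIntegral.integral_mono_interval ha hab hb ?_ h2.1
    refine (ae_restrict_iff' measurableSet_Ioc).2 (Eventually.of_forall fun t ht => ?_)
    exact (abs_nonneg _).trans (h2.2 t ⟨ht.1.le, ht.2⟩)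

/-- **convergence for all final densities** -/
theorem Ctx.conv [SigmaFinite m] {ρ0 : ℝ × M → ℝ} (hρ : Rho m u φ U ρ ρ0)
    {H : (M →ₘ[m] ℝ) → ℝ × M → E} {Λ : ℝ × M → ℝ} {s : ℝ} (hs : s ∈ Ioo (0 : ℝ) 1)
    (hD : HDat m Gr V e u φ U ρ0 s H Λ) {l h : M →ₘ[m] ℝ} (hl : l ∈ (sob m).TestI)
    (hh : h ∈ (sob m).TestI) {Φ : ℝ → M → E}
    (hΦm : StronglyMeasurable (fun z : ℝ × M => Φ z.1 z.2))
    (hΦ : MemLp (fun z : ℝ × M => Φ z.1 z.2) 2 (ms m s)) :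
    Tendsto (fun n => ∫ t in s..1, I (rn u φ l n t * ipE m (V (tn u φ l n t) h) (Φ t))) U
      (𝓝 (∫ t in s..1, ∫ x, Real.exp (l x) * ⟪H h (t, Y t x), Φ t (Y t x)⟫_ℝ ∂m)) := by
  obtain ⟨Kb, w0, hw⟩ := c.exists_w hρ hl
  obtain ⟨k, hk0, hst⟩ := hρ.star s hs
  obtain ⟨C, hC⟩ := c.ebdV c.zero hh hs
  obtain ⟨B1, hB1⟩ := c.rV_bd hl hh hs
  obtain ⟨t1, t2⟩ := c.T1 hl hh hs hw hΦ
  have hW := (hD.wl h hh).mul_weight hst hC (w := fun n => jw u φ l n) (w0 := w0) (K' := Kb)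
    (fun n => (jw_meas l n).aestronglyMeasurable) hw.meas.aestronglyMeasurable
    (hw.bdn s hs) (hw.bd s hs) (hw.strong s hs)
  have h1 := hW.lim _ hΦ
  -- the limit
  have hlim : ∫ z, ⟪ρ0 z • (w0 z • H h z), Φ z.1 z.2⟫_ℝ ∂(ms m s)
      = ∫ t in s..1, ∫ x, Real.exp (l x) * ⟪H h (t, Y t x), Φ t (Y t x)⟫_ℝ ∂m := by
    have e1 : ∀ z : ℝ × M, ⟪ρ0 z • (w0 z • H h z), Φ z.1 z.2⟫_ℝ
        = ρ0 z • (w0 z * ⟪H h z, Φ z.1 z.2⟫_ℝ) := by
      intro z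
      rw [real_inner_smul_left, real_inner_smul_left, smul_eq_mul]
    have i1 : Integrable (fun z : ℝ × M => ρ0 z • (w0 z * ⟪H h z, Φ z.1 z.2⟫_ℝ)) (ms m s) := by
      have := int_inner_of_memLp hW.mem hΦ
      simpa only [e1] using this
    have hFm : AEStronglyMeasurable (fun z : ℝ × M => w0 z * ⟪H h z, Φ z.1 z.2⟫_ℝ) (ms m s) :=
      hw.meas.aestronglyMeasurable.mul ((hD.wl h hh).meas.inner hΦm.aestronglyMeasurable)
    have i2 := psi_integrable c.hM c.hF.meas hs.1.le hρ.meas.measurable hρ.slice hFm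
      (Eventually.of_forall hρ.nonneg) i1
    have i3 := psi_int c.hM c.hF.meas hs.1.le hρ.meas.measurable hρ.slice hFm
      (Eventually.of_forall hρ.nonneg)
    simp only [e1]
    rw [← i3, int_ms i2 hs.2.le]
    have e2 := ms_ae (hw.flow s hs)
    rw [intervalIntegral.integral_of_le hs.2.le, intervalIntegral.integral_of_le hs.2.le]
    refine integral_congr_ae ?_
    filter_upwards [e2] with t ht
    refine integral_congr_ae ?_
    filter_upwards [ht] with x hx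
    rw [hx]
    rfl
  rw [← hlim]
  -- the levels
  have h3 := h1.add t2
  rw [add_zero] at h3
  refine h3.congr' ?_
  filter_upwards [t1, hB1, c.jw_mul hl hs, hC, hst.bd, hw.bdn s hs, c.jV_all hl,
    c.hU (jρ_spec c.hC c.hB hl), c.hU (c.hB.mem l hl)] with n a1 a2 a3 a4 a5 a6 a7 a8 a9
  have m1 : MemLp (fun z => jρ u φ 0 n z • (jw u φ l n z • jV V u φ 0 h n z)) 2 (ms m s) := by
    have := memLp_bdd_smul (a4.memLp (hst.meas n) a5) (jw_meas l n).aestronglyMeasurable a6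
    refine this.ae_eq (ae_of_all _ fun z => ?_)
    simp only [smul_comm (jw u φ l n z)]
  rw [← integral_add (int_inner_of_memLp m1 hΦ) (int_inner_of_memLp a1 hΦ)]
  have e1 : ∀ᵐ z ∂(ms m s), ⟪jρ u φ 0 n z • (jw u φ l n z • jV V u φ 0 h n z), Φ z.1 z.2⟫_ℝ
      + ⟪jρ u φ l n z • (jV V u φ l h n z - jV V u φ 0 h n z), Φ z.1 z.2⟫_ℝ
      = ⟪jρ u φ l n z • jV V u φ l h n z, Φ z.1 z.2⟫_ℝ := by
    filter_upwards [a3] with z hz
    rw [← inner_add_left, smul_sub, smul_smul, mul_comm (jρ u φ 0 n z), ← hz]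
    congr 1
    abel
  rw [integral_congr_ae e1, int_ms (int_inner_of_memLp a2.1 hΦ) hs.2.le,
    intervalIntegral.integral_of_le hs.2.le, intervalIntegral.integral_of_le hs.2.le]
  refine setIntegral_congr_fun measurableSet_Ioc fun t ht => ?_
  have ht0 : t ∈ Icc (0 : ℝ) 1 := ⟨hs.1.le.trans ht.1.le, ht.2⟩
  show ∫ x, ⟪jρ u φ l n (t, x) • jV V u φ l h n (t, x), Φ t x⟫_ℝ ∂m
    = I (rn u φ l n t * ipE m (V (tn u φ l n t) h) (Φ t))
  have hΦt : AEStronglyMeasurable (Φ t) m :=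
    (hΦm.comp_measurable (measurable_prodMk_left (x := t))).aestronglyMeasurable
  unfold I
  refine integral_congr_ae ?_
  filter_upwards [a7 h hh t ht0, a8 t ht0,
    mul_ae (rn u φ l n t) (ipE m (V (tn u φ l n t) h) (Φ t)),
    ipE_ae (c.hE.hu.mem _ (a9 t ht0).2.1.1 _ hh.1).1 hΦt] with x b1 b2 b3 b4
  rw [b3, b4, b1, b2, real_inner_smul_left]

end metric

end Vale.Agent.P233.H994.Nw

namespace Vale.Agent.P233.H994.Nw

open Vale.Agent.P233.PA (en OutA)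
open Vale.Agent.P233.PC

theorem blk_C6b : Blk_C6b.{u} := by
  intro M _ _ _ _ _ m K N κ P p s₀ C₀ hyp E _ _ _ Gr V D HO e hE u φ hA hB U hU φ₀ L B R₀ c' ρ R Y
    hP hO hLim hMu hM hF hS
  have c : Ctx m K N κ P p s₀ C₀ Gr V D HO e u φ U (fun t => cl m (φ₀ t)) ρ R Y :=
    ⟨hyp, hE, hA, hB, hU, hO, hLim, hM, hF, hS⟩
  haveI : SigmaFinite m := std_sigma hyp.std
  obtain ⟨ρ0, r1, r2, r3, r4⟩ := c.exists_rho
  have hρ : Rho m u φ U ρ ρ0 := ⟨r1, r2, r3, r4⟩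
  obtain ⟨H, Λ, h1, h2, h3⟩ := c.exists_Hglue hρ
  refine ⟨fun h t y => H h (t, y), fun t y => max (Λ (t, y)) 0, ?_⟩
  have hΛ : ∀ z, max (Λ z) 0 = Λ z := fun z => max_eq_left ((h3 (sk 0) (sk_mem 0)).nn z)
  -- from space-time to the flow
  have flow : ∀ Q : ℝ × M → Prop, (∀ s ∈ Ioo (0 : ℝ) 1, ∀ᵐ z ∂(ms m s), ρ0 z ≠ 0 → Q z) →
      ∀ᵐ t ∂((volume : Measure ℝ).restrict (Ioc 0 1)), ∀ᵐ x ∂m, Q (t, Y t x) := by
    intro Q hQ
    refine ae_Ioc_of fun k => ?_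
    have hs := sk_mem k
    have h5 := psi_ae hM hF.meas hs.1.le hρ.meas.measurable hρ.slice (Q := Q) (by
      filter_upwards [hQ _ hs] with z hz h0 using hz h0.ne')
    exact ms_ae h5
  constructor
  · intro h hh
    exact h1 h hh
  · exact (h2.max measurable_const)
  · intro t y
    exact le_max_right _ _
  · intro s hs
    obtain ⟨C, hC⟩ := c.Λ_ebd hρ hs (h3 s hs)
    have i1 := psi_integrable hM hF.meas hs.1.le hρ.meas.measurable hρ.slice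
      (F := fun z => ‖Λ z‖ ^ 2) (h2.norm.pow_const 2).aestronglyMeasurable
      (Eventually.of_forall hρ.nonneg) hC.int
    have i2 := i1.lintegral_lt_top
    have i3 : Measurable fun z : ℝ × M => ENNReal.ofReal (‖Λ (psi Y z)‖ ^ 2) :=
      (((h2.comp (psi_meas hF.meas)).norm.pow_const 2)).ennreal_ofReal
    rw [lintegral_prod _ i3.aemeasurable] at i2
    refine lt_of_le_of_lt (le_of_eq ?_) i2
    refine lintegral_congr fun t => lintegral_congr fun x => ?_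
    simp only [hΛ, Real.norm_eq_abs, sq_abs]
    rfl
  · intro h hh
    have := flow (fun z => ‖H h z‖ ≤ Λ z * ‖Gr h z.2‖) fun s hs => by
      filter_upwards [(h3 s hs).bd h hh] with z hz h0
      exact hz (lt_of_le_of_ne (hρ.nonneg z) (Ne.symm h0))
    filter_upwards [this] with t ht
    filter_upwards [ht] with x hx
    rw [hΛ]; exact hx
  · intro h hh h' hh' a
    exact flow (fun z => H (h + a • h') z = H h z + a • H h' z) fun s hs =>
      c.H_lin hρ hs (h3 s hs) hh hh' a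
  · intro h hh h' hh'
    exact flow (fun z => ⟪H h z, Gr h' z.2⟫_ℝ = ⟪H h' z, Gr h z.2⟫_ℝ) fun s hs =>
      c.H_sym hρ hs (h3 s hs) hh hh'
  · intro h hh
    exact flow (fun z => H h z
      ∈ (Submodule.span ℝ (range fun j => Gr (e j) z.2)).topologicalClosure) fun s hs =>
      c.H_span hρ hs (h3 s hs) hh
  · intro l hl h hh s hs Φ hΦm hΦ
    exact c.conv hρ hs (h3 s hs) hl hh hΦm hΦ

end Vale.Agent.P233.H994.Nw
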