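import Vale.Agent.P233.H326.GAll

/-! P233, local form. The blocks C5 and C6a of the limit of the entropic flows do not use the
sectional curvature bound. The proofs are those of `P233/H183/BlkC6a`, `P233/H719/TU4`, `TU5`,
`C5Lim`, `BlkC5`, for the weaker structure `LevB` below. -/

set_option linter.all false

open MeasureTheory Filter Topology Set
open scoped ENNReal NNReal InnerProductSpace

universe u

namespace Vale.Agent.P233

open Vale.Agent.P233.PC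
open Vale.Agent.P233.PA (en OutA PotLim)

section

variable {M : Type u} [MetricSpace M] [MeasurableSpace M]

/-- Output of part B without the Riccati inequality: it needs no sectional curvature bound. -/
structure LevB (m : Measure M) {E : Type} [NormedAddCommGroup E] [InnerProductSpace ℝ E]
    (Gr : (M →ₘ[m] ℝ) → M → E) (V : (M →ₘ[m] ℝ) → (M →ₘ[m] ℝ) → M → E)
    (D : (M →ₘ[m] ℝ) → (M →ₘ[m] ℝ)) (κ : ℝ)
    (u : ℕ → ℝ → M →ₘ[m] ℝ) (φ : (M →ₘ[m] ℝ) → ℕ → ℝ → M →ₘ[m] ℝ) : Prop where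
  /-- B0, B0r, B0c -/
  reg : ∀ l ∈ (sob m).TestI, ∀ᶠ n in atTop, (sob m).Reg (en n) 0 1 (φ l n) (u n)
  mem : ∀ l ∈ (sob m).TestI, ∀ᶠ n in atTop, ∀ t ∈ Icc (0 : ℝ) 1,
    LL (en n) (φ l n) (u n) t ∈ (sob m).TestI ∧ tn u φ l n t ∈ (sob m).TestI ∧
      rn u φ l n t - 1 ∈ (sob m).TestI ∧ wn φ l n t - 1 ∈ (sob m).TestI ∧
      rn u φ l n t = wn φ l n t * rn u φ 0 n t
  fld : ∀ l ∈ (sob m).TestI, ∀ h ∈ (sob m).TestI, ∀ᶠ n in atTop, ∀ t ∈ Icc (0 : ℝ) 1,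
    Tendsto (fun s => eLpNorm (fun x => V (tn u φ l n s) h x - V (tn u φ l n t) h x) 2 m)
      (𝓝[Icc 0 1] t) (𝓝 0) ∧
    Tendsto (fun s => eLpNorm (fun x => V h (tn u φ l n s) x - V h (tn u φ l n t) x) 2 m)
      (𝓝[Icc 0 1] t) (𝓝 0) ∧
    Tendsto (fun s => I ((rn u φ l n s - rn u φ l n t) ^ 2)) (𝓝[Icc 0 1] t) (𝓝 0)
  /-- B2 -/
  b2 : ∀ l ∈ (sob m).TestI, ∀ s ∈ Ioo (0 : ℝ) 1, ∃ c : ℝ, ∀ᶠ n in atTop, ∀ t ∈ Icc s 1,
    en n * (sob m).EV (en n) (φ l n) (u n) t ≤ c ∧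
    |(sob m).EA (en n) (φ l n) (u n) t - (sob m).EB (en n) (φ l n) (u n) t| ≤ c * en n ∧
    (sob m).EA (en n) (φ l n) (u n) t ≤ c ∧
    |(sob m).EA (en n) (φ l n) (u n) t - (sob m).EA (en n) (φ l n) (u n) 1| ≤ c * en n
  /-- B3 -/
  b3 : ∀ l ∈ (sob m).TestI, ∀ s ∈ Ioo (0 : ℝ) 1, ∃ c : ℝ, ∀ᶠ n in atTop, ∃ e : ℝ → ℝ,
    ContinuousOn e (Icc s 1) ∧ ∫ t in s..1, e t ≤ c ∧ ∀ t ∈ Icc s 1,
      I (rn u φ l n t * D (tn u φ l n t) ^ 2)
        + en n ^ 2 * I (rn u φ l n t * D (LL (en n) (φ l n) (u n) t) ^ 2)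
        + en n ^ 2 * I (rn u φ l n t * (sob m).lap (LL (en n) (φ l n) (u n) t) ^ 2) ≤ e t
  /-- B4 -/
  b4 : ∀ l ∈ (sob m).TestI, ∀ s ∈ Ioo (0 : ℝ) 1, ∃ c : ℝ, ∀ᶠ n in atTop,
    ∫ t in s..1, en n ^ 2 * (sob m).EV4 (en n) (φ l n) (u n) t ≤ c
  /-- B6 -/
  b6 : ∀ l ∈ (sob m).TestI, ∀ h ∈ (sob m).TestI, ∀ s ∈ Ioo (0 : ℝ) 1, ∃ e : ℕ → ℝ,
    Tendsto e atTop (𝓝 0) ∧ ∀ᶠ n in atTop,
      ContinuousOn ((sob m).FR V κ (en n) (φ l n) (u n) h) (Icc s 1) ∧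
      ContinuousOn ((sob m).SS (en n) (φ l n) (u n) h) (Icc s 1) ∧
      True
  /-- B7 -/
  b7 : ∀ l ∈ (sob m).TestI, ∀ b ∈ (sob m).Test, ∀ s ∈ Ioo (0 : ℝ) 1, ∃ e : ℕ → ℝ,
    Tendsto e atTop (𝓝 0) ∧ ∀ᶠ n in atTop,
      ContinuousOn (fun t => I (rn u φ l n t * (sob m).hess b (tn u φ l n t) (tn u φ l n t)))
        (Icc s 1) ∧ ∀ a c, s ≤ a → a ≤ c → c ≤ 1 →
      |I (rn u φ l n c * (sob m).Γ b (tn u φ l n c)) - I (rn u φ l n a * (sob m).Γ b (tn u φ l n a))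
        - ∫ t in a..c, I (rn u φ l n t * (sob m).hess b (tn u φ l n t) (tn u φ l n t))| ≤ e n
  /-- B8a -/
  b8 : ∀ l ∈ (sob m).TestI, ∀ᶠ n in atTop,
    ContinuousOn (fun t => I (rn u φ 0 n t * (sob m).Γ (wn φ l n t - 1) (wn φ l n t - 1)))
      (Icc 0 1) ∧ ∀ s ∈ Icc (0 : ℝ) 1,
    I ((ex l - 1) ^ 2) - I (rn u φ 0 n s * (wn φ l n s - 1) ^ 2)
      = en n * ∫ t in s..1, I (rn u φ 0 n t * (sob m).Γ (wn φ l n t - 1) (wn φ l n t - 1))
  /-- B8b -/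
  b8b : ∀ l ∈ (sob m).TestI, ∀ h ∈ (sob m).TestI, ∀ β ∈ (sob m).TestI, ∀ s ∈ Ioo (0 : ℝ) 1,
    ∃ c : ℝ, ∀ᶠ n in atTop, ∀ t ∈ Icc s 1,
      |I (β * rn u φ l n t * ((sob m).hess (tn u φ l n t) h h - (sob m).hess (tn u φ 0 n t) h h))|
        ≤ c * √(en n * I (rn u φ 0 n t * (sob m).Γ (wn φ l n t - 1) (wn φ l n t - 1)))

/-- The Riccati inequality of part B for one function `h`. -/
def RicB (m : Measure M) {E : Type} [NormedAddCommGroup E] [InnerProductSpace ℝ E]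
    (V : (M →ₘ[m] ℝ) → (M →ₘ[m] ℝ) → M → E) (κ : ℝ)
    (u : ℕ → ℝ → M →ₘ[m] ℝ) (φ : (M →ₘ[m] ℝ) → ℕ → ℝ → M →ₘ[m] ℝ) (h : M →ₘ[m] ℝ) : Prop :=
  ∀ l ∈ (sob m).TestI, ∀ s ∈ Ioo (0 : ℝ) 1, ∃ e : ℕ → ℝ,
    Tendsto e atTop (𝓝 0) ∧ ∀ᶠ n in atTop, ∀ a b, s ≤ a → a ≤ b → b ≤ 1 →
        (sob m).SS (en n) (φ l n) (u n) h b - (sob m).SS (en n) (φ l n) (u n) h a
          ≤ (∫ t in a..b, (sob m).FR V κ (en n) (φ l n) (u n) h t) + e n

end

/-- C6a: strong convergence. -/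
def Blk_C6a : Prop :=
  ∀ (M : Type u) [MetricSpace M] [CompleteSpace M] [SecondCountableTopology M] [MeasurableSpace M]
    [BorelSpace M] (m : Measure M) (K N κ : ℝ) (P : ℝ → (M →ₘ[m] ℝ) → (M →ₘ[m] ℝ))
    (p : M) (s₀ C₀ : ℝ), CHyp M m K N P p s₀ C₀ →
    ∀ (E : Type) [NormedAddCommGroup E] [InnerProductSpace ℝ E] [CompleteSpace E]
    (Gr : (M →ₘ[m] ℝ) → M → E) (V : (M →ₘ[m] ℝ) → (M →ₘ[m] ℝ) → M → E)
    (D : (M →ₘ[m] ℝ) → (M →ₘ[m] ℝ))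
    (HO : (M →ₘ[m] ℝ) → M → E →L[ℝ] E) (e : ℕ → M →ₘ[m] ℝ), EHyp m K N Gr V D HO e →
    ∀ (u : ℕ → ℝ → M →ₘ[m] ℝ) (φ : (M →ₘ[m] ℝ) → ℕ → ℝ → M →ₘ[m] ℝ),
      OutA m K N P p s₀ C₀ u φ → LevB m Gr V D κ u φ →
    ∀ (U : Ultrafilter ℕ), (U : Filter ℕ) ≤ atTop →
    ∀ (φ₀ : ℝ → M → ℝ) (L B R₀ c : ℝ) (ρ : ℝ → M →ₘ[m] ℝ)
      (R : ℝ → ℝ → (M →ₘ[m] ℝ) → (M →ₘ[m] ℝ)) (Y : ℝ → M → M),
      PotLim m N p s₀ C₀ U (φ 0) u φ₀ L B R₀ c → LimOf P U u φ ρ R →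
      Lim m K N p s₀ C₀ (fun t => cl m (φ₀ t)) ρ R → Mult ρ R → Maps ρ R Y →
      Strong p s₀ C₀ U u φ Y

/-- C5: second derivative along the flow. -/
def Blk_C5 : Prop :=
  ∀ (M : Type u) [MetricSpace M] [CompleteSpace M] [SecondCountableTopology M] [MeasurableSpace M]
    [BorelSpace M] (m : Measure M) (K N κ : ℝ) (P : ℝ → (M →ₘ[m] ℝ) → (M →ₘ[m] ℝ))
    (p : M) (s₀ C₀ : ℝ), CHyp M m K N P p s₀ C₀ →
    ∀ (E : Type) [NormedAddCommGroup E] [InnerProductSpace ℝ E] [CompleteSpace E]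
    (Gr : (M →ₘ[m] ℝ) → M → E) (V : (M →ₘ[m] ℝ) → (M →ₘ[m] ℝ) → M → E)
    (D : (M →ₘ[m] ℝ) → (M →ₘ[m] ℝ))
    (HO : (M →ₘ[m] ℝ) → M → E →L[ℝ] E) (e : ℕ → M →ₘ[m] ℝ), EHyp m K N Gr V D HO e →
    ∀ (u : ℕ → ℝ → M →ₘ[m] ℝ) (φ : (M →ₘ[m] ℝ) → ℕ → ℝ → M →ₘ[m] ℝ),
      OutA m K N P p s₀ C₀ u φ → LevB m Gr V D κ u φ →
    ∀ (U : Ultrafilter ℕ), (U : Filter ℕ) ≤ atTop →
    ∀ (φ₀ : ℝ → M → ℝ) (L B R₀ c : ℝ) (ρ : ℝ → M →ₘ[m] ℝ)
      (R : ℝ → ℝ → (M →ₘ[m] ℝ) → (M →ₘ[m] ℝ)) (Y : ℝ → M → M),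
      PotLim m N p s₀ C₀ U (φ 0) u φ₀ L B R₀ c → LimOf P U u φ ρ R →
      Lim m K N p s₀ C₀ (fun t => cl m (φ₀ t)) ρ R → Maps ρ R Y → RFlow m K N p s₀ C₀ Y →
      Strong p s₀ C₀ U u φ Y → Second m Gr HO p s₀ C₀ Y

/-- C6b: the weak limits of the Hessians of `θ`. -/
def Blk_C6b : Prop :=
  ∀ (M : Type u) [MetricSpace M] [CompleteSpace M] [SecondCountableTopology M] [MeasurableSpace M]
    [BorelSpace M] (m : Measure M) (K N κ : ℝ) (P : ℝ → (M →ₘ[m] ℝ) → (M →ₘ[m] ℝ))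
    (p : M) (s₀ C₀ : ℝ), CHyp M m K N P p s₀ C₀ →
    ∀ (E : Type) [NormedAddCommGroup E] [InnerProductSpace ℝ E] [CompleteSpace E]
    (Gr : (M →ₘ[m] ℝ) → M → E) (V : (M →ₘ[m] ℝ) → (M →ₘ[m] ℝ) → M → E)
    (D : (M →ₘ[m] ℝ) → (M →ₘ[m] ℝ))
    (HO : (M →ₘ[m] ℝ) → M → E →L[ℝ] E) (e : ℕ → M →ₘ[m] ℝ), EHyp m K N Gr V D HO e →
    ∀ (u : ℕ → ℝ → M →ₘ[m] ℝ) (φ : (M →ₘ[m] ℝ) → ℕ → ℝ → M →ₘ[m] ℝ),
      OutA m K N P p s₀ C₀ u φ → LevB m Gr V D κ u φ →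
    ∀ (U : Ultrafilter ℕ), (U : Filter ℕ) ≤ atTop →
    ∀ (φ₀ : ℝ → M → ℝ) (L B R₀ c : ℝ) (ρ : ℝ → M →ₘ[m] ℝ)
      (R : ℝ → ℝ → (M →ₘ[m] ℝ) → (M →ₘ[m] ℝ)) (Y : ℝ → M → M),
      PotLim m N p s₀ C₀ U (φ 0) u φ₀ L B R₀ c → LimOf P U u φ ρ R →
      Lim m K N p s₀ C₀ (fun t => cl m (φ₀ t)) ρ R → Mult ρ R → Maps ρ R Y →
      RFlow m K N p s₀ C₀ Y → Strong p s₀ C₀ U u φ Y →
      ∃ Hs Λ, HLim m U Gr V u φ Y e Hs Λ

end Vale.Agent.P233

namespace Vale.Agent.P233.H183.Nw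

open Vale.Agent.P233.PC
open Vale.Agent.P233.PA (en OutA PotLim)

section level

variable {M : Type u} [MeasurableSpace M] {m : Measure M} {C : Calc m} {κ K : ℝ}
  {P : ℝ → (M →ₘ[m] ℝ) → (M →ₘ[m] ℝ)} {ε : ℝ} {a l : M →ₘ[m] ℝ} {φ φ' u : ℝ → M →ₘ[m] ℝ} {t : ℝ}

end level

section real

end real

section metric

variable {M : Type u} [MetricSpace M] [SecondCountableTopology M] [MeasurableSpace M]
  [BorelSpace M] {m : Measure M} {K N : ℝ} {P : ℝ → (M →ₘ[m] ℝ) → (M →ₘ[m] ℝ)} {p : M} {s₀ C₀ : ℝ}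

variable {u : ℕ → ℝ → M →ₘ[m] ℝ} {φ : (M →ₘ[m] ℝ) → ℕ → ℝ → M →ₘ[m] ℝ} {U : Ultrafilter ℕ}
  {ψ ρ : ℝ → M →ₘ[m] ℝ} {R : ℝ → ℝ → (M →ₘ[m] ℝ) → (M →ₘ[m] ℝ)} {Y : ℝ → M → M} {t : ℝ}

/-- determinism: the variance of the weight at time `t` tends to the one at time `1` -/
theorem w_lim0 {κ : ℝ} {E : Type} [NormedAddCommGroup E] [InnerProductSpace ℝ E]
    {Gr : (M →ₘ[m] ℝ) → M → E} {V : (M →ₘ[m] ℝ) → (M →ₘ[m] ℝ) → M → E}
    {D : (M →ₘ[m] ℝ) → (M →ₘ[m] ℝ)}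
    (hC : IsGamma (sob m)) (hP : Heat (sob m) K P) (h0 : (0 : M →ₘ[m] ℝ) ∈ (sob m).TestI)
    (hU : (U : Filter ℕ) ≤ atTop)
    (hL : OutA m K N P p s₀ C₀ u φ) (hBl : LevB m Gr V D κ u φ) (hO : LimOf P U u φ ρ R)
    (hLim : Lim m K N p s₀ C₀ ψ ρ R) (hM : Maps ρ R Y) (ht : t ∈ Ioc (0 : ℝ) 1)
    {l : M →ₘ[m] ℝ} (hl : l ∈ (sob m).TestI) :
    Tendsto (fun n => I (rn u φ 0 n t * (wn φ l n t - 1) ^ 2)) U (𝓝 (I ((ex l - 1) ^ 2))) := by
  have h1 : (1 : ℝ) ∈ Ioc (0 : ℝ) 1 := ⟨one_pos, le_rfl⟩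
  have htI : t ∈ Icc (0 : ℝ) 1 := ⟨ht.1.le, ht.2⟩
  have hkk : L2i m (ex l - 1) := ex_L2i hC.toIsDir (hC.test_A hl.1)
  have hf : ∀ᶠ n in U, ∀ t ∈ Icc (0 : ℝ) 1, Lf m P u φ l n t := (lf hC hP h0 hL hl).filter_mono hU
  have hf0 : ∀ᶠ n in U, Lf m P u φ 0 n t :=
    ((lf hC hP h0 hL h0).filter_mono hU).mono fun n hn => hn t htI
  have hup : ∀ᶠ n in U, I (rn u φ 0 n t * (wn φ l n t - 1) ^ 2) ≤ I ((ex l - 1) ^ 2) := by
    filter_upwards [hf, (hBl.b8 l hl).filter_mono hU] with n hn h2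
    have h2 := h2.2 t htI
    have h3 : 0 ≤ en n * ∫ s in t..1, I (rn u φ 0 n s *
        (sob m).Γ (wn φ l n s - 1) (wn φ l n s - 1)) := by
      refine mul_nonneg (en_pos n).le (intervalIntegral.integral_nonneg ht.2 fun s hs => ?_)
      have hs' : s ∈ Icc (0 : ℝ) 1 := ⟨ht.1.le.trans hs.1, hs.2⟩
      refine I_nonneg ?_
      have h4 : 0 ≤ (sob m).Γ (wn φ l n s - 1) (wn φ l n s - 1) := hC.nonneg _ (hn s hs').wA.1
      have h5 : 0 ≤ rn u φ 0 n s := ex_nonneg _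
      rw [nonneg_iff_ae] at h4 h5 ⊢
      filter_upwards [h4, h5, mul_ae (rn u φ 0 n s)
        ((sob m).Γ (wn φ l n s - 1) (wn φ l n s - 1))] with x a1 a2 a3
      rw [a3]; exact mul_nonneg a2 a1
    linarith
  refine squeeze_sup hup fun δ hδ => ?_
  obtain ⟨g, hg, hgδ⟩ := exists_inv hLim hM ht hkk hδ
  refine ⟨fun n => 2 * I (g * RE P (en n) (φ 0 n) (u n) t 1 (ex l - 1))
    - I (g ^ 2 * rn u φ 0 n t), 2 * ∫ x, (ex l - 1 : M →ₘ[m] ℝ) x * g (Y t x) ∂m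
    - ∫ x, g (Y t x) ^ 2 ∂m, ?_, ?_, hgδ⟩
  · filter_upwards [hf] with n hn
    have hn := hn t htI
    have h2 : 0 ≤ I (rn u φ 0 n t * (wn φ l n t - 1 - g) ^ 2) := by
      refine I_nonneg ?_
      have h5 := hn.F0
      rw [nonneg_iff_ae] at h5 ⊢
      filter_upwards [h5, mul_ae (rn u φ 0 n t) ((wn φ l n t - 1 - g) ^ 2),
        sq_ae (wn φ l n t - 1 - g)] with x a1 a2 a3
      rw [a2, a3]; exact mul_nonneg a1 (sq_nonneg _)
    rw [expand_sq hn.F hn.w hg, hn.RE] at h2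
    linarith
  · refine Tendsto.sub ?_ ?_
    · have h3 := hO.R_lim t ht 1 h1 (ex l - 1) hkk g hg.1
      rw [R_pair hLim hM ht hkk hg] at h3
      exact h3.const_mul 2
    · rw [← comp_sq_eq hLim hM ht g]
      exact rn_lim hC hf0 hO hLim ht (L2i.sq hg).1 (L2i.sq hg).2

/-- strong convergence of the velocities, locally, at every time -/
theorem v_lim {κ : ℝ} {E : Type} [NormedAddCommGroup E] [InnerProductSpace ℝ E]
    {Gr : (M →ₘ[m] ℝ) → M → E} {V : (M →ₘ[m] ℝ) → (M →ₘ[m] ℝ) → M → E}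
    {D : (M →ₘ[m] ℝ) → (M →ₘ[m] ℝ)}
    (hC : IsGamma (sob m)) (hP : Heat (sob m) K P) (h0 : (0 : M →ₘ[m] ℝ) ∈ (sob m).TestI)
    (hL : OutA m K N P p s₀ C₀ u φ) (hBl : LevB m Gr V D κ u φ) (ht : t ∈ Ioc (0 : ℝ) 1)
    {l : M →ₘ[m] ℝ} (hl : l ∈ (sob m).TestI) {χ : M →ₘ[m] ℝ} (hχ : MemLp χ 1 m) (hχ0 : 0 ≤ χ) :
    Tendsto (fun n => I (χ * rn u φ l n t *
      (sob m).Γ (tn u φ l n t - zc m p s₀ C₀ t) (tn u φ l n t - zc m p s₀ C₀ t))) atTop (𝓝 0) := by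
  have hD := hC.toIsDir
  have htI : t ∈ Icc (0 : ℝ) 1 := ⟨ht.1.le, ht.2⟩
  have hlt : MemLp l ∞ m := (hC.test_A hl.1).2
  obtain ⟨c₁, hc₁, hdens⟩ := dens_bd hL hl hlt ht
  obtain ⟨DU, DU', hU1⟩ := hL.levU
  obtain ⟨B, hB⟩ := mem_top_iff.1 hlt
  obtain ⟨DF, DF', hF1⟩ := hL.levF l hl (Real.exp |B|) (Real.one_le_exp (abs_nonneg _)) (by
    filter_upwards [hB] with x hx
    rw [Real.log_exp]
    exact (le_abs_self _).trans (hx.trans (le_abs_self _)))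
  obtain ⟨hzA, hzt⟩ := hL.ulim.mem t htI
  obtain ⟨Z, hZ⟩ := mem_top_iff.1 hzt
  set z : M →ₘ[m] ℝ := zc m p s₀ C₀ t with hz
  have hzA : z ∈ (sob m).A := hzA
  have hZ : ∀ᵐ x ∂m, |(sob m).Γ z z x| ≤ Z := hZ
  have hs : t / 2 ∈ Ioo (0 : ℝ) 1 := ⟨half_pos ht.1, by linarith [ht.1, ht.2]⟩
  obtain ⟨c₂, hc₂⟩ := hBl.b2 l hl (t / 2) hs
  have hts : t ∈ Icc (t / 2) 1 := ⟨by linarith [ht.1], ht.2⟩
  obtain ⟨ζ, hζ, hex⟩ := H715.exists_cuts hC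
  -- the pointwise inequalities
  have key : ∀ᶠ n in atTop, 0 ≤ rn u φ l n t * (sob m).Γ (tn u φ l n t - z) (tn u φ l n t - z) ∧
      MemLp (rn u φ l n t * (sob m).Γ (tn u φ l n t - z) (tn u φ l n t - z) : M →ₘ[m] ℝ) 1 m ∧
      MemLp ((sob m).Γ (u n t - z) (u n t - z)) 1 m ∧
      MemLp (rn u φ l n t * (sob m).Γ (LL (en n) (φ l n) (u n) t) (LL (en n) (φ l n) (u n) t)
        : M →ₘ[m] ℝ) 1 m ∧
      0 ≤ rn u φ l n t * (sob m).Γ (LL (en n) (φ l n) (u n) t) (LL (en n) (φ l n) (u n) t) ∧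
      ∀ᵐ x ∂m, (rn u φ l n t * (sob m).Γ (tn u φ l n t - z) (tn u φ l n t - z)) x
          ≤ c₁ * (4 * (DU ^ 2 + Z) + (DF ^ 2 + DU ^ 2)) ∧
        (rn u φ l n t * (sob m).Γ (tn u φ l n t - z) (tn u φ l n t - z)) x
          ≤ 2 * c₁ * (sob m).Γ (u n t - z) (u n t - z) x + en n ^ 2 / 2 *
            (rn u φ l n t * (sob m).Γ (LL (en n) (φ l n) (u n) t) (LL (en n) (φ l n) (u n) t)) x := by
    filter_upwards [lf hC hP h0 hL hl, hU1, hF1, hdens] with n hn hUn hFn hdn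
    have hn := hn t htI
    have hε := en_pos n
    have uW := hn.uA.1
    have φW := hn.φA.1
    have zW := hzA.1
    have hLW : LL (en n) (φ l n) (u n) t ∈ (sob m).W := hD.smul_mem _ _ (hD.sub_mem φW uW)
    have huz : u n t - z ∈ (sob m).W := hD.sub_mem uW zW
    have e1 : tn u φ l n t - z = (u n t - z) + (en n / 2) • LL (en n) (φ l n) (u n) t := by
      have e2 : (en n / 2) • LL (en n) (φ l n) (u n) t = (2 : ℝ)⁻¹ • (φ l n t - u n t) := by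
        unfold LL
        rw [smul_smul]; congr 1
        field_simp
      rw [e2]
      unfold tn th
      have e4 : (2 : ℝ)⁻¹ • (φ l n t + u n t) = u n t + (2 : ℝ)⁻¹ • (φ l n t - u n t) := by
        module
      rw [e4]; abel
    have hTW : tn u φ l n t - z ∈ (sob m).W := by
      rw [e1]; exact hD.add_mem _ huz _ (hD.smul_mem _ _ hLW)
    have hdW : φ l n t - u n t ∈ (sob m).W := hD.sub_mem φW uW
    have g1 : ∀ᵐ x ∂m, (sob m).Γ (tn u φ l n t - z) (tn u φ l n t - z) x ≤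
        2 * (sob m).Γ (u n t - z) (u n t - z) x + en n ^ 2 / 2 *
          (sob m).Γ (LL (en n) (φ l n) (u n) t) (LL (en n) (φ l n) (u n) t) x := by
      rw [e1]
      filter_upwards [Γ_add_le' hD huz (hD.smul_mem (en n / 2) _ hLW),
        Γ_smul_smul hD hLW (en n / 2)] with x a1 a2
      rw [a2] at a1
      linarith
    have g2 : ∀ᵐ x ∂m, (sob m).Γ (u n t - z) (u n t - z) x ≤ 2 * DU ^ 2 + 2 * Z := by
      have h1 := Γ_add_le' hD uW (hD.neg_mem zW)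
      have h2 : (sob m).Γ (-z) (-z) = (sob m).Γ z z := by
        rw [hD.Γ_neg_left zW (hD.neg_mem zW), hD.Γ_neg_right zW zW, neg_neg]
      rw [← sub_eq_add_neg, h2] at h1
      filter_upwards [h1, hUn.lip t htI, hZ] with x a1 a2 a3
      linarith [le_abs_self ((sob m).Γ z z x)]
    have g3 : ∀ᵐ x ∂m, en n ^ 2 * (sob m).Γ (LL (en n) (φ l n) (u n) t)
        (LL (en n) (φ l n) (u n) t) x ≤ 2 * DF ^ 2 + 2 * DU ^ 2 := by
      have h1 := Γ_add_le' hD φW (hD.neg_mem uW)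
      have h2 : (sob m).Γ (-u n t) (-u n t) = (sob m).Γ (u n t) (u n t) := by
        rw [hD.Γ_neg_left uW (hD.neg_mem uW), hD.Γ_neg_right uW uW, neg_neg]
      rw [← sub_eq_add_neg, h2] at h1
      filter_upwards [h1, hUn.lip t htI, hFn.lip t htI, Γ_smul_smul hD hdW (en n)⁻¹]
        with x a1 a2 a3 a4
      have a5 : (sob m).Γ (LL (en n) (φ l n) (u n) t) (LL (en n) (φ l n) (u n) t) x
          = (en n)⁻¹ ^ 2 * (sob m).Γ (φ l n t - u n t) (φ l n t - u n t) x := a4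
      rw [a5]
      have a6 : en n ^ 2 * ((en n)⁻¹ ^ 2 * (sob m).Γ (φ l n t - u n t) (φ l n t - u n t) x)
          = (sob m).Γ (φ l n t - u n t) (φ l n t - u n t) x := by field_simp
      rw [a6]
      linarith
    have n1 := nonneg_iff_ae.1 (hC.nonneg _ hTW)
    have n2 := nonneg_iff_ae.1 (hC.nonneg _ hLW)
    have n3 := nonneg_iff_ae.1 hn.Fl0
    have n4 := nonneg_iff_ae.1 (hC.nonneg _ huz)
    refine ⟨?_, mem_mul_top hn.Fl (hC.mem1 _ hTW), hC.mem1 _ huz, mem_mul_top hn.Fl (hC.mem1 _ hLW),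
      ?_, ?_⟩
    · rw [nonneg_iff_ae]
      filter_upwards [n1, n3, mul_ae (rn u φ l n t) ((sob m).Γ (tn u φ l n t - z)
        (tn u φ l n t - z))] with x a1 a2 a3
      rw [a3]; exact mul_nonneg a2 a1
    · rw [nonneg_iff_ae]
      filter_upwards [n2, n3, mul_ae (rn u φ l n t) ((sob m).Γ (LL (en n) (φ l n) (u n) t)
        (LL (en n) (φ l n) (u n) t))] with x a1 a2 a3
      rw [a3]; exact mul_nonneg a2 a1
    · filter_upwards [n1, n2, n3, n4, g1, g2, g3, hdn, mul_ae (rn u φ l n t)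
        ((sob m).Γ (tn u φ l n t - z) (tn u φ l n t - z)), mul_ae (rn u φ l n t)
        ((sob m).Γ (LL (en n) (φ l n) (u n) t) (LL (en n) (φ l n) (u n) t))]
        with x a1 a2 a3 a4 a5 a6 a7 a8 a9 a10
      rw [a9, a10]
      rw [abs_of_nonneg a3] at a8
      constructor
      · have b1 : (sob m).Γ (tn u φ l n t - z) (tn u φ l n t - z) x
            ≤ 4 * (DU ^ 2 + Z) + (DF ^ 2 + DU ^ 2) := by linarith
        exact mul_le_mul a8 b1 a1 hc₁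
      · calc rn u φ l n t x * (sob m).Γ (tn u φ l n t - z) (tn u φ l n t - z) x
            ≤ rn u φ l n t x * (2 * (sob m).Γ (u n t - z) (u n t - z) x + en n ^ 2 / 2 *
              (sob m).Γ (LL (en n) (φ l n) (u n) t) (LL (en n) (φ l n) (u n) t) x) := by gcongr
          _ = 2 * rn u φ l n t x * (sob m).Γ (u n t - z) (u n t - z) x + en n ^ 2 / 2 *
              (rn u φ l n t x *
                (sob m).Γ (LL (en n) (φ l n) (u n) t) (LL (en n) (φ l n) (u n) t) x) := by ring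
          _ ≤ _ := by gcongr
  have hgoal : Tendsto (fun n => I (χ * (rn u φ l n t *
      (sob m).Γ (tn u φ l n t - z) (tn u φ l n t - z)))) atTop (𝓝 0) := by
    refine H715.tendsto_weight (L := c₁ * (4 * (DU ^ 2 + Z) + (DF ^ 2 + DU ^ 2))) (ζ := ζ) ?_
      (fun k => hC.memLp _ (hζ k).1.1) hex (fun k => ?_) hχ0 hχ
    · filter_upwards [key] with n hn
      filter_upwards [nonneg_iff_ae.1 hn.1, hn.2.2.2.2.2] with x a1 a2
      exact ⟨a1, a2.1⟩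
    · obtain ⟨b, hb⟩ := mem_top_iff.1 (hζ k).1.2
      have hζ2 : MemLp (ζ k ^ 2 : M →ₘ[m] ℝ) ∞ m := by
        rw [sq]; exact mem_mul_top (hζ k).1.2 (hζ k).1.2
      have hζ1 : MemLp (ζ k ^ 2 : M →ₘ[m] ℝ) 1 m := mem_sq (hC.memLp _ (hζ k).1.1)
      have hζ0 : 0 ≤ ζ k ^ 2 := by
        rw [nonneg_iff_ae]
        filter_upwards [sq_ae (ζ k)] with x hx
        rw [hx]; positivity
      have hlim : Tendsto (fun n => 2 * c₁ * I (ζ k ^ 2 * (sob m).Γ (u n t - z) (u n t - z))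
          + b ^ 2 / 2 * (en n * |c₂|)) atTop (𝓝 0) := by
        have h1 := (hL.ulim.grad t ht (ζ k ^ 2) hζ0 hζ1).const_mul (2 * c₁)
        have h2 := (en_lim.mul_const |c₂|).const_mul (b ^ 2 / 2)
        have h3 := h1.add h2
        rw [mul_zero, zero_mul, mul_zero, add_zero] at h3
        exact h3
      refine squeeze_zero' ?_ ?_ hlim
      · filter_upwards [key] with n hn
        refine I_nonneg ?_
        rw [nonneg_iff_ae]
        filter_upwards [nonneg_iff_ae.1 hn.1, nonneg_iff_ae.1 hζ0, mul_ae (ζ k ^ 2)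
          (rn u φ l n t * (sob m).Γ (tn u φ l n t - z) (tn u φ l n t - z))] with x a1 a2 a3
        rw [a3]; exact mul_nonneg a2 a1
      · filter_upwards [key, hc₂] with n hn hcn
        obtain ⟨k1, k2, k3, k4, k5, k6⟩ := hn
        have hεEV := (hcn t hts).1
        have hε := en_pos n
        have q1 : I (ζ k ^ 2 * (rn u φ l n t * (sob m).Γ (tn u φ l n t - z) (tn u φ l n t - z)))
            ≤ I ((2 * c₁) • (ζ k ^ 2 * (sob m).Γ (u n t - z) (u n t - z))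
              + (b ^ 2 / 2 * en n ^ 2) • (rn u φ l n t * (sob m).Γ (LL (en n) (φ l n) (u n) t)
                (LL (en n) (φ l n) (u n) t))) := by
          refine I_mono (mem_mul_top hζ2 k2)
            (mem_add (mem_smul _ (mem_mul_top hζ2 k3)) (mem_smul _ k4)) ?_
          rw [le_iff_ae]
          filter_upwards [k6, hb, nonneg_iff_ae.1 k5, sq_ae (ζ k), mul_ae (ζ k ^ 2)
            (rn u φ l n t * (sob m).Γ (tn u φ l n t - z) (tn u φ l n t - z)),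
            add_ae ((2 * c₁) • (ζ k ^ 2 * (sob m).Γ (u n t - z) (u n t - z)))
              ((b ^ 2 / 2 * en n ^ 2) • (rn u φ l n t * (sob m).Γ (LL (en n) (φ l n) (u n) t)
                (LL (en n) (φ l n) (u n) t))),
            smul_ae (ζ k ^ 2 * (sob m).Γ (u n t - z) (u n t - z)) (2 * c₁),
            smul_ae (rn u φ l n t * (sob m).Γ (LL (en n) (φ l n) (u n) t)
                (LL (en n) (φ l n) (u n) t)) (b ^ 2 / 2 * en n ^ 2),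
            mul_ae (ζ k ^ 2) ((sob m).Γ (u n t - z) (u n t - z))]
            with x a1 a2 a3 a4 a5 a6 a7 a8 a9
          rw [a5, a6, a7, a8, a9, a4]
          have b1 : ζ k x ^ 2 ≤ b ^ 2 := sq_le_sq' (abs_le.1 a2).1 (abs_le.1 a2).2
          have b2 : 0 ≤ ζ k x ^ 2 := sq_nonneg _
          calc ζ k x ^ 2 * (rn u φ l n t * (sob m).Γ (tn u φ l n t - z) (tn u φ l n t - z)
                : M →ₘ[m] ℝ) x
              ≤ ζ k x ^ 2 * (2 * c₁ * (sob m).Γ (u n t - z) (u n t - z) x + en n ^ 2 / 2 *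
                (rn u φ l n t * (sob m).Γ (LL (en n) (φ l n) (u n) t)
                  (LL (en n) (φ l n) (u n) t) : M →ₘ[m] ℝ) x) := by gcongr; exact a1.2
            _ = 2 * c₁ * (ζ k x ^ 2 * (sob m).Γ (u n t - z) (u n t - z) x) + ζ k x ^ 2 / 2 *
                en n ^ 2 * (rn u φ l n t * (sob m).Γ (LL (en n) (φ l n) (u n) t)
                  (LL (en n) (φ l n) (u n) t) : M →ₘ[m] ℝ) x := by ring
            _ ≤ _ := by
              have a3' : 0 ≤ (rn u φ l n t * (sob m).Γ (LL (en n) (φ l n) (u n) t)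
                  (LL (en n) (φ l n) (u n) t) : M →ₘ[m] ℝ) x := a3
              gcongr
        refine q1.trans ?_
        rw [I_add (mem_smul _ (mem_mul_top hζ2 k3)) (mem_smul _ k4), I_smul, I_smul]
        have q2 : I (rn u φ l n t * (sob m).Γ (LL (en n) (φ l n) (u n) t)
            (LL (en n) (φ l n) (u n) t)) = (sob m).EV (en n) (φ l n) (u n) t := rfl
        rw [q2]
        have q3 : b ^ 2 / 2 * en n ^ 2 * (sob m).EV (en n) (φ l n) (u n) t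
            = b ^ 2 / 2 * (en n * (en n * (sob m).EV (en n) (φ l n) (u n) t)) := by ring
        rw [q3]
        gcongr
        exact hεEV.trans (le_abs_self _)
  refine hgoal.congr fun n => ?_
  rw [mul_assoc]

theorem blk_C6a : Blk_C6a.{u} := by
  intro M _ _ _ _ _ m K N κ P p s₀ C₀ hyp E _ _ _ Gr V D HO e hE u φ hL hBl U hU φ₀ L B R₀ c ρ R Y
    hPL hO hLim hMu hM
  have hC := std_gamma hyp.std
  have hB := std_bei hyp.std
  have hP := hyp.heat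
  have h0 : (0 : M →ₘ[m] ℝ) ∈ (sob m).TestI := hC.testI_zero hB
  have h1 : (1 : ℝ) ∈ Ioc (0 : ℝ) 1 := ⟨one_pos, le_rfl⟩
  have hf : ∀ l ∈ (sob m).TestI, ∀ᶠ n in U, ∀ t ∈ Icc (0 : ℝ) 1, Lf m P u φ l n t :=
    fun l hl => (lf hC hP h0 hL hl).filter_mono hU
  constructor
  · intro l hl s hs
    have hs' : s ∈ Ioc (0 : ℝ) 1 := ⟨hs.1, hs.2.le⟩
    have h2 := w_lim0 hC hP h0 hU hL hBl hO hLim hM hs' hl
    have h4 : ∀ᶠ n in U, I ((ex l - 1) ^ 2) - I (rn u φ 0 n s * (wn φ l n s - 1) ^ 2)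
        = en n * ∫ t in s..1, I (rn u φ 0 n t * (sob m).Γ (wn φ l n t - 1) (wn φ l n t - 1)) := by
      filter_upwards [(hBl.b8 l hl).filter_mono hU] with n hn
      exact hn.2 s ⟨hs.1.le, hs.2.le⟩
    have h5 := (tendsto_const_nhds (x := I ((ex l - 1 : M →ₘ[m] ℝ) ^ 2)) (f := (U : Filter ℕ))).sub h2
    rw [sub_self] at h5
    exact h5.congr' h4
  · intro l hl t ht k hk
    have htI : t ∈ Icc (0 : ℝ) 1 := ⟨ht.1.le, ht.2⟩
    have hkk : L2i m (ex l - 1) := ex_L2i hC.toIsDir (hC.test_A hl.1)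
    have e1 : ∀ᶠ n in U, I (rn u φ 0 n t * (wn φ l n t - 1) ^ 2)
          - 2 * I (k * RE P (en n) (φ 0 n) (u n) t 1 (ex l - 1)) + I (k ^ 2 * rn u φ 0 n t)
        = I (rn u φ 0 n t * (wn φ l n t - 1 - k) ^ 2) := by
      filter_upwards [hf l hl] with n hn
      have hn := hn t htI
      rw [expand_sq hn.F hn.w hk, hn.RE]
    have h2 := w_lim0 hC hP h0 hU hL hBl hO hLim hM ht hl
    have h3 := hO.R_lim t ht 1 h1 (ex l - 1) hkk k hk.1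
    rw [R_pair hLim hM ht hkk hk] at h3
    have h4 := rn_lim hC ((hf 0 h0).mono fun n hn => hn t htI) hO hLim ht (L2i.sq hk).1 (L2i.sq hk).2
    rw [comp_sq_eq hLim hM ht k] at h4
    have h5 := (h2.sub (h3.const_mul 2)).add h4
    have e2 : ∫ x, (Real.exp (l x) - 1 - k (Y t x)) ^ 2 ∂m = I ((ex l - 1) ^ 2)
        - 2 * ∫ x, (ex l - 1 : M →ₘ[m] ℝ) x * k (Y t x) ∂m + ∫ x, k (Y t x) ^ 2 ∂m := by
      have i1 : MemLp (fun x => (ex l - 1 : M →ₘ[m] ℝ) x) 2 m := hkk.1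
      have i2 := comp_sq_int hLim hM ht hk
      have j1 : Integrable (fun x => (ex l - 1 : M →ₘ[m] ℝ) x ^ 2) m := i1.integrable_sq
      have j2 : Integrable (fun x => k (Y t x) ^ 2) m := i2.integrable_sq
      have j3 : Integrable (fun x => (ex l - 1 : M →ₘ[m] ℝ) x * k (Y t x)) m := i1.integrable_mul i2
      have e3 : I ((ex l - 1) ^ 2) = ∫ x, (ex l - 1 : M →ₘ[m] ℝ) x ^ 2 ∂m :=
        integral_congr_ae (sq_ae _)
      have j4 : Integrable (fun x => (ex l - 1 : M →ₘ[m] ℝ) x ^ 2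
          - 2 * ((ex l - 1 : M →ₘ[m] ℝ) x * k (Y t x))) m := j1.sub (j3.const_mul 2)
      rw [e3, ← integral_const_mul, ← integral_sub j1 (j3.const_mul 2), ← integral_add j4 j2]
      refine integral_congr_ae ?_
      filter_upwards [sub_ae (ex l) (1 : M →ₘ[m] ℝ), ex_ae l, one_ae (M := M) (m := m)]
        with x a1 a2 a3
      rw [a1, a2, a3]; ring
    rw [e2]
    exact h5.congr' e1
  · intro l hl t ht b hb
    have htI : t ∈ Icc (0 : ℝ) 1 := ⟨ht.1.le, ht.2⟩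
    have hkk : L2i m (ex l - 1) := ex_L2i hC.toIsDir (hC.test_A hl.1)
    have hlt : MemLp l ∞ m := (hC.test_A hl.1).2
    obtain ⟨c₁, hc₁, hdens⟩ := dens_bd hL hl hlt ht
    obtain ⟨B, hB⟩ := mem_top_iff.1 hlt
    have hexl : ∀ᵐ x ∂m, |Real.exp (l x)| ≤ Real.exp |B| := by
      filter_upwards [hB] with x hx
      rw [abs_of_pos (Real.exp_pos _)]
      exact Real.exp_le_exp.2 ((le_abs_self _).trans (hx.trans (le_abs_self _)))
    have hexm : AEStronglyMeasurable (fun x => Real.exp (l x)) m :=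
      Real.continuous_exp.comp_aestronglyMeasurable l.aestronglyMeasurable
    have hint : ∀ b : M →ₘ[m] ℝ, MemLp b 1 m → Integrable (fun x => b (Y t x) * Real.exp (l x)) m :=
      fun b hb => (comp_int hLim hM ht hb).mul_bdd (c := Real.exp |B|) hexm (by
        filter_upwards [hexl] with x hx
        rw [Real.norm_eq_abs]; exact hx)
    set c₂ : ℝ := Real.exp |B| * (|cK K C₀| * t ^ (-N)) with hc₂
    refine tendsto_of_trunc (T := fun n b => I (b * rn u φ l n t))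
      (T' := fun b => ∫ x, b (Y t x) * Real.exp (l x) ∂m) (c := max c₁ c₂) hb ?_ ?_ ?_
    · filter_upwards [hdens.filter_mono hU] with n hn b' hb'
      refine (I_abs_le hn hb hb').trans ?_
      have h0 : 0 ≤ ∫ x, |b x - b' x| ∂m := integral_nonneg fun _ => abs_nonneg _
      gcongr
      exact le_max_left _ _
    · intro b' hb'
      have h0 : 0 ≤ ∫ x, |b x - b' x| ∂m := integral_nonneg fun _ => abs_nonneg _
      have hbb : Integrable (fun x => |b x - b' x|) m := ((int_of_mem hb).sub (int_of_mem hb')).abs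
      have h2 : |(∫ x, b (Y t x) * Real.exp (l x) ∂m) - ∫ x, b' (Y t x) * Real.exp (l x) ∂m|
          ≤ Real.exp |B| * ∫ x, |b (Y t x) - b' (Y t x)| ∂m := by
        rw [← integral_sub (hint b hb) (hint b' hb'), ← integral_const_mul]
        refine (abs_integral_le_integral_abs).trans (integral_mono_ae ?_ ?_ ?_)
        · exact ((hint b hb).sub (hint b' hb')).abs
        · exact (((comp_int hLim hM ht hb).sub (comp_int hLim hM ht hb')).abs).const_mul _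
        · filter_upwards [hexl] with x hx
          rw [← sub_mul, abs_mul, mul_comm]
          gcongr
      have h3 : ∫ x, |b (Y t x) - b' (Y t x)| ∂m = ∫ x, ρ t x * |b x - b' x| ∂m :=
        map_int hM ht (hLim.ρ_nonneg t ht) hbb.aestronglyMeasurable
      have h4 : ∫ x, ρ t x * |b x - b' x| ∂m ≤ (|cK K C₀| * t ^ (-N)) * ∫ x, |b x - b' x| ∂m := by
        rw [← integral_const_mul]
        have ht0 := ht.1
        refine integral_mono_of_nonneg ?_ (hbb.const_mul _) ?_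
        · filter_upwards [nonneg_iff_ae.1 (hLim.ρ_nonneg t ht)] with x hx
          exact mul_nonneg hx (abs_nonneg _)
        · filter_upwards [hLim.ρ_le t ht] with x hx
          have : cK K C₀ * t ^ (-N) ≤ |cK K C₀| * t ^ (-N) := by gcongr; exact le_abs_self _
          gcongr
          exact hx.trans this
      calc _ ≤ Real.exp |B| * ∫ x, |b (Y t x) - b' (Y t x)| ∂m := h2
        _ ≤ Real.exp |B| * ((|cK K C₀| * t ^ (-N)) * ∫ x, |b x - b' x| ∂m) := by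
            rw [h3]; gcongr
        _ = c₂ * ∫ x, |b x - b' x| ∂m := by rw [hc₂]; ring
        _ ≤ max c₁ c₂ * ∫ x, |b x - b' x| ∂m := by gcongr; exact le_max_right _ _
    · intro b hb1 hbt
      have hb2 := mem2_of_1_top hb1 hbt
      have e1 : ∀ᶠ n in U, I (b * rn u φ 0 n t)
          + I (b * RE P (en n) (φ 0 n) (u n) t 1 (ex l - 1)) = I (b * rn u φ l n t) := by
        filter_upwards [hf l hl] with n hn
        have hn := hn t htI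
        have e2 : rn u φ l n t = rn u φ 0 n t + rn u φ 0 n t * (wn φ l n t - 1) := by
          rw [hn.mul]; ring
        rw [e2, hn.RE, mul_add, I_add (mem_top_mul hb1 hn.F)]
        rw [← hn.RE]
        exact mem_mul_22 hb2 (mem_mul_top hn.F hn.w.1)
      have h3 := hO.R_lim t ht 1 h1 (ex l - 1) hkk b hb2
      rw [R_pair hLim hM ht hkk ⟨hb2, hbt⟩] at h3
      have h4 := rn_lim hC ((hf 0 h0).mono fun n hn => hn t htI) hO hLim ht hb1 hbt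
      have h5 := h4.add h3
      have e2 : ∫ x, b (Y t x) * Real.exp (l x) ∂m = I (b * ρ t)
          + ∫ x, (ex l - 1 : M →ₘ[m] ℝ) x * b (Y t x) ∂m := by
        rw [← map_int_class hM ht (hLim.ρ_nonneg t ht) b, ← integral_add (comp_int hLim hM ht hb1)]
        · refine integral_congr_ae ?_
          filter_upwards [sub_ae (ex l) (1 : M →ₘ[m] ℝ), ex_ae l, one_ae (M := M) (m := m)]
            with x a1 a2 a3
          rw [a1, a2, a3]; ring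
        · have i1 : MemLp (fun x => (ex l - 1 : M →ₘ[m] ℝ) x) 2 m := hkk.1
          exact i1.integrable_mul (comp_sq_int hLim hM ht ⟨hb2, hbt⟩)
      rw [e2]
      exact h5.congr' e1
  · intro l hl t ht χ hχ hχ0
    exact (v_lim hC hP h0 hL hBl ht hl hχ hχ0).mono_left hU

end metric

end Vale.Agent.P233.H183.Nw

namespace Vale.Agent.P233.H719.Nw

open Vale.Agent.P233.PA (en OutA PotLim)
open Vale.Agent.P233.PC

section gen

variable {M : Type u} [MeasurableSpace M] {m : Measure M} {C : Calc m}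

end gen

section metric

variable {M : Type u} [MetricSpace M] [SecondCountableTopology M] [MeasurableSpace M]
  [BorelSpace M] {m : Measure M} {K N : ℝ} {P : ℝ → (M →ₘ[m] ℝ) → (M →ₘ[m] ℝ)} {p : M} {s₀ C₀ : ℝ}
variable {u : ℕ → ℝ → M →ₘ[m] ℝ} {φ : (M →ₘ[m] ℝ) → ℕ → ℝ → M →ₘ[m] ℝ} {l : M →ₘ[m] ℝ}
variable {E : Type} [NormedAddCommGroup E] [InnerProductSpace ℝ E]
  {Gr : (M →ₘ[m] ℝ) → M → E} {V : (M →ₘ[m] ℝ) → (M →ₘ[m] ℝ) → M → E}
  {D : (M →ₘ[m] ℝ) → (M →ₘ[m] ℝ)} {κ : ℝ}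

/-- (TU2): `E |∇(φ^l - u)|² ≤ c ε` -/
theorem drift_small (hyp : CHyp M m K N P p s₀ C₀) (hA : OutA m K N P p s₀ C₀ u φ)
    (hB : LevB m Gr V D κ u φ) (hl : l ∈ (sob m).TestI) {s : ℝ} (hs : s ∈ Ioo (0 : ℝ) 1) :
    ∃ c : ℝ, 0 ≤ c ∧ ∀ᶠ n in atTop, ∀ t ∈ Icc s 1,
      I (rn u φ l n t * (sob m).Γ (φ l n t - u n t) (φ l n t - u n t)) ≤ c * en n := by
  have hC := std_gamma hyp.std
  obtain ⟨c, hc⟩ := hB.b2 l hl s hs
  refine ⟨|c|, abs_nonneg c, ?_⟩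
  filter_upwards [hc, pair_of hA hl] with n h1 hp t ht
  have ht0 : t ∈ Icc (0 : ℝ) 1 := ⟨hs.1.le.trans ht.1, ht.2⟩
  have hd : φ l n t - u n t ∈ (sob m).W := hC.sub_mem (hC.test_A (hp.φ_mem t ht0).1).1
    (hC.test_A (hp.u_mem t ht0).1).1
  have hε := en_pos n
  have e1 : (sob m).Γ (LL (en n) (φ l n) (u n) t) (LL (en n) (φ l n) (u n) t)
      = ((en n)⁻¹ * (en n)⁻¹) • (sob m).Γ (φ l n t - u n t) (φ l n t - u n t) := by
    unfold LL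
    rw [hC.smul_left _ _ hd _ (hC.smul_mem _ _ hd), hC.Γ_smul_right _ hd hd, smul_smul]
  have h2 := (h1 t ht).1
  have e2 : (sob m).EV (en n) (φ l n) (u n) t = ((en n)⁻¹ * (en n)⁻¹) *
      I (rn u φ l n t * (sob m).Γ (φ l n t - u n t) (φ l n t - u n t)) := by
    unfold Calc.EV
    rw [e1, mul_smul_comm, I_smul]
    rfl
  rw [e2] at h2
  have h3 : I (rn u φ l n t * (sob m).Γ (φ l n t - u n t) (φ l n t - u n t))
      = en n * (en n * ((en n)⁻¹ * (en n)⁻¹ *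
        I (rn u φ l n t * (sob m).Γ (φ l n t - u n t) (φ l n t - u n t)))) := by
    field_simp
  rw [h3]
  calc _ ≤ en n * c := mul_le_mul_of_nonneg_left h2 hε.le
    _ ≤ en n * |c| := mul_le_mul_of_nonneg_left (le_abs_self _) hε.le
    _ = |c| * en n := mul_comm _ _

/-- **(TU6)**: `∇θ_n(t) → ∇z_t` against `A ρ_n(t)`, `A ∈ L¹`, uniformly on `[s,1]`. -/
theorem tu6 (hyp : CHyp M m K N P p s₀ C₀) (hA : OutA m K N P p s₀ C₀ u φ)
    (hB : LevB m Gr V D κ u φ) (hl : l ∈ (sob m).TestI) {s : ℝ} (hs : s ∈ Ioo (0 : ℝ) 1)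
    {A : M →ₘ[m] ℝ} (hA0 : 0 ≤ A) (hA1 : MemLp A 1 m) {δ : ℝ} (hδ : 0 < δ) :
    ∀ᶠ n in atTop, ∀ t ∈ Icc s 1, I (A * rn u φ l n t * (sob m).Γ
      (tn u φ l n t - zc m p s₀ C₀ t) (tn u φ l n t - zc m p s₀ C₀ t)) ≤ δ := by
  have hC := std_gamma hyp.std
  obtain ⟨B, hB0, hBd⟩ := dens_bd hyp hA hl hs.1
  obtain ⟨L, hL0, hu, hz⟩ := z_bd hyp hA
  obtain ⟨L', hL'0, hφ⟩ := φ_bd hyp hA hl
  obtain ⟨c, hc0, hc⟩ := drift_small hyp hA hB hl hs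
  set G : ℝ := 2 * L' ^ 2 + 2 * L ^ 2 with hG
  have hG0 : 0 ≤ G := by positivity
  obtain ⟨k, A2, hk, hA20, hA21, hA2δ, hle⟩ := exists_trunc hA0 hA1
    (δ := δ / (8 * (B * G + 1))) (by positivity)
  have h1 := tu6_u hyp hA hs.1 hA0 hA1 (δ := δ / (8 * (B + 1))) (by positivity)
  have h2 : ∀ᶠ n in atTop, k * (c * en n) < δ / 8 := by
    have : Tendsto (fun n => k * (c * en n)) atTop (𝓝 0) := by
      simpa using (en_lim.const_mul c).const_mul k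
    exact (tendsto_order.1 this).2 _ (by positivity)
  filter_upwards [h1, h2, hBd, hu, hφ, hc, pair_of hA hl] with n a1 a2 a3 a4 a5 a6 hp t ht
  have ht0 : t ∈ Icc (0 : ℝ) 1 := ⟨hs.1.le.trans ht.1, ht.2⟩
  have uW := (hC.test_A (hp.u_mem t ht0).1).1
  have φW := (hC.test_A (hp.φ_mem t ht0).1).1
  have zW := zc_W hA ht0
  have r0 : 0 ≤ rn u φ l n t := rh_nonneg
  have rB := a3 t ht
  have rt : MemLp (rn u φ l n t) ∞ m := mem_top_iff.2 ⟨B, by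
    filter_upwards [rB, nonneg_iff_ae.1 r0] with x b1 b2
    rwa [abs_of_nonneg b2]⟩
  -- `θ - z = (u - z) - g`, `g = -(φ - u)/2`
  set g : M →ₘ[m] ℝ := (-(2 : ℝ)⁻¹) • (φ l n t - u n t) with hg
  have dW : φ l n t - u n t ∈ (sob m).W := hC.sub_mem φW uW
  have gW : g ∈ (sob m).W := hC.smul_mem _ _ dW
  have e1 : tn u φ l n t - zc m p s₀ C₀ t = (u n t - zc m p s₀ C₀ t) - g := by
    unfold tn th
    rw [hg, neg_smul, sub_neg_eq_add, smul_sub, smul_add]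
    have h3 : (2 : ℝ)⁻¹ • u n t + (2 : ℝ)⁻¹ • u n t = u n t := by
      rw [← add_smul]; norm_num
    calc (2 : ℝ)⁻¹ • φ l n t + (2 : ℝ)⁻¹ • u n t - zc m p s₀ C₀ t
        = ((2 : ℝ)⁻¹ • u n t + (2 : ℝ)⁻¹ • u n t) - zc m p s₀ C₀ t
          + ((2 : ℝ)⁻¹ • φ l n t - (2 : ℝ)⁻¹ • u n t) := by abel
      _ = u n t - zc m p s₀ C₀ t + ((2 : ℝ)⁻¹ • φ l n t - (2 : ℝ)⁻¹ • u n t) := by rw [h3]
  have gΓ : (sob m).Γ g g = (4 : ℝ)⁻¹ • (sob m).Γ (φ l n t - u n t) (φ l n t - u n t) := by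
    rw [hg, hC.smul_left _ _ dW _ (hC.smul_mem _ _ dW), hC.Γ_smul_right _ dW dW, smul_smul]
    norm_num
  have dG : ∀ᵐ x ∂m, (sob m).Γ (φ l n t - u n t) (φ l n t - u n t) x ≤ G := by
    filter_upwards [hC.toIsDir.Γ_sub_le φW uW, a5 t ht0, a4 t ht0] with x b1 b2 b3
    rw [hG]; linarith
  have gG : ∀ᵐ x ∂m, (sob m).Γ g g x ≤ G := by
    filter_upwards [dG, hC.Γ_nonneg_ae dW,
      smul_ae ((sob m).Γ (φ l n t - u n t) (φ l n t - u n t)) (4 : ℝ)⁻¹] with x b1 b2 b3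
    rw [gΓ, b3]; linarith
  have gt : MemLp ((sob m).Γ g g) ∞ m := mem_top_iff.2 ⟨G, by
    filter_upwards [gG, hC.Γ_nonneg_ae gW] with x b1 b2
    rwa [abs_of_nonneg b2]⟩
  have uz : ∀ᵐ x ∂m, (sob m).Γ (u n t - zc m p s₀ C₀ t) (u n t - zc m p s₀ C₀ t) x
      ≤ 4 * L ^ 2 := by
    filter_upwards [hC.toIsDir.Γ_sub_le uW zW, a4 t ht0, hz t ht0] with x b1 b2 b3
    linarith
  have uzt : MemLp ((sob m).Γ (u n t - zc m p s₀ C₀ t) (u n t - zc m p s₀ C₀ t)) ∞ m :=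
    mem_top_iff.2 ⟨4 * L ^ 2, by
      filter_upwards [uz, hC.Γ_nonneg_ae (hC.sub_mem uW zW)] with x b1 b2
      rwa [abs_of_nonneg b2]⟩
  have Ar1 : MemLp (A * rn u φ l n t : M →ₘ[m] ℝ) 1 m := mem_top_mul hA1 rt
  have Ar0 : 0 ≤ A * rn u φ l n t := mul_nonneg hA0 r0
  have key := I_w_sub_le hC Ar0 Ar1 (hC.sub_mem uW zW) gW uzt gt
  rw [← e1] at key
  -- first term
  have k1 : I (A * rn u φ l n t * (sob m).Γ (u n t - zc m p s₀ C₀ t) (u n t - zc m p s₀ C₀ t))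
      ≤ B * I (A * (sob m).Γ (u n t - zc m p s₀ C₀ t) (u n t - zc m p s₀ C₀ t)) := by
    rw [← I_smul]
    refine I_mono (mem_top_mul Ar1 uzt) (mem_smul _ (mem_top_mul hA1 uzt)) (le_iff_ae.2 ?_)
    filter_upwards [mul_ae (A * rn u φ l n t) ((sob m).Γ (u n t - zc m p s₀ C₀ t)
        (u n t - zc m p s₀ C₀ t)), mul_ae A (rn u φ l n t),
      smul_ae (A * (sob m).Γ (u n t - zc m p s₀ C₀ t) (u n t - zc m p s₀ C₀ t)) B,
      mul_ae A ((sob m).Γ (u n t - zc m p s₀ C₀ t) (u n t - zc m p s₀ C₀ t)), rB,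
      nonneg_iff_ae.1 hA0, hC.Γ_nonneg_ae (hC.sub_mem uW zW)] with x b1 b2 b3 b4 b5 b6 b7
    rw [b1, b2, b3, b4]
    nlinarith [mul_le_mul_of_nonneg_right b5 (mul_nonneg b6 b7)]
  have k2 : B * I (A * (sob m).Γ (u n t - zc m p s₀ C₀ t) (u n t - zc m p s₀ C₀ t)) ≤ δ / 8 := by
    refine (mul_le_mul_of_nonneg_left (a1 t ht) hB0).trans ?_
    calc B * (δ / (8 * (B + 1))) ≤ (B + 1) * (δ / (8 * (B + 1))) :=
          mul_le_mul_of_nonneg_right (by linarith) (by positivity)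
      _ = δ / 8 := by
          have : B + 1 ≠ 0 := by positivity
          field_simp
  -- second term
  have k3 := I_trunc_le (r := rn u φ l n t) (Q := (sob m).Γ g g) (B := B) (G := G) hA0 hA1 hA21
    hA20 hk hle r0 hB0 rB (hC.nonneg _ gW) gG (hC.mem1 _ gW)
  have k4 : I (rn u φ l n t * (sob m).Γ g g) ≤ c * en n := by
    have h5 := a6 t ht
    rw [gΓ, mul_smul_comm, I_smul]
    have h6 : 0 ≤ I (rn u φ l n t * (sob m).Γ (φ l n t - u n t) (φ l n t - u n t)) :=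
      I_nonneg (mul_nonneg r0 (hC.nonneg _ dW))
    linarith
  have k5 : k * I (rn u φ l n t * (sob m).Γ g g) ≤ δ / 8 :=
    (mul_le_mul_of_nonneg_left k4 hk).trans a2.le
  have k6 : B * G * I A2 ≤ δ / 8 := by
    have hBG : 0 ≤ B * G := mul_nonneg hB0 hG0
    calc B * G * I A2 ≤ B * G * (δ / (8 * (B * G + 1))) := mul_le_mul_of_nonneg_left hA2δ hBG
      _ ≤ (B * G + 1) * (δ / (8 * (B * G + 1))) :=
          mul_le_mul_of_nonneg_right (by linarith) (by positivity)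
      _ = δ / 8 := by
          have : B * G + 1 ≠ 0 := by positivity
          field_simp
  linarith

/-- the energies `E |∇θ|²` are bounded on `[s,1]` -/
theorem energy_tn (hyp : CHyp M m K N P p s₀ C₀) (hA : OutA m K N P p s₀ C₀ u φ)
    (hB : LevB m Gr V D κ u φ) (hl : l ∈ (sob m).TestI) {s : ℝ} (hs : s ∈ Ioo (0 : ℝ) 1) :
    ∃ c : ℝ, 0 ≤ c ∧ ∀ᶠ n in atTop, ∀ t ∈ Icc s 1,
      I (rn u φ l n t * (sob m).Γ (tn u φ l n t) (tn u φ l n t)) ≤ c := by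
  have hC := std_gamma hyp.std
  obtain ⟨B, hB0, hBd⟩ := dens_bd hyp hA hl hs.1
  obtain ⟨c, hc⟩ := hB.b2 l hl s hs
  refine ⟨2 * |c|, by positivity, ?_⟩
  filter_upwards [hc, pair_of hA hl, hBd] with n h1 hp h3 t ht
  have ht0 : t ∈ Icc (0 : ℝ) 1 := ⟨hs.1.le.trans ht.1, ht.2⟩
  have uW := (hC.test_A (hp.u_mem t ht0).1).1
  have φW := (hC.test_A (hp.φ_mem t ht0).1).1
  have r0 : 0 ≤ rn u φ l n t := rh_nonneg
  have rB := h3 t ht
  have rt : MemLp (rn u φ l n t) ∞ m := mem_top_iff.2 ⟨B, by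
    filter_upwards [rB, nonneg_iff_ae.1 r0] with x b1 b2
    rwa [abs_of_nonneg b2]⟩
  obtain ⟨-, h4, h5, -⟩ := h1 t ht
  have hA' : (sob m).EA (en n) (φ l n) (u n) t = I (rn u φ l n t * (sob m).Γ (φ l n t) (φ l n t)) :=
    rfl
  have hB' : (sob m).EB (en n) (φ l n) (u n) t = I (rn u φ l n t * (sob m).Γ (u n t) (u n t)) := rfl
  rw [hA', hB'] at h4
  rw [hA'] at h5
  have mφ : MemLp (rn u φ l n t * (sob m).Γ (φ l n t) (φ l n t) : M →ₘ[m] ℝ) 1 m :=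
    mem_mul_top rt (hC.mem1 _ φW)
  have mu : MemLp (rn u φ l n t * (sob m).Γ (u n t) (u n t) : M →ₘ[m] ℝ) 1 m :=
    mem_mul_top rt (hC.mem1 _ uW)
  have tW : tn u φ l n t ∈ (sob m).W := hC.smul_mem _ _ (hC.add_mem _ φW _ uW)
  have e1 : tn u φ l n t = (2 : ℝ)⁻¹ • φ l n t - (-(2 : ℝ)⁻¹) • u n t := by
    unfold tn th
    rw [smul_add, neg_smul, sub_neg_eq_add]
  have key : I (rn u φ l n t * (sob m).Γ (tn u φ l n t) (tn u φ l n t))
      ≤ (2 : ℝ)⁻¹ * I (rn u φ l n t * (sob m).Γ (φ l n t) (φ l n t))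
        + (2 : ℝ)⁻¹ * I (rn u φ l n t * (sob m).Γ (u n t) (u n t)) := by
    rw [← I_smul, ← I_smul, ← I_add (mem_smul _ mφ) (mem_smul _ mu)]
    refine I_mono (mem_mul_top rt (hC.mem1 _ tW)) (mem_add (mem_smul _ mφ) (mem_smul _ mu))
      (le_iff_ae.2 ?_)
    have f1 := hC.smul_mem (2 : ℝ)⁻¹ _ φW
    have f2 := hC.smul_mem (-(2 : ℝ)⁻¹) _ uW
    have g1 : (sob m).Γ ((2 : ℝ)⁻¹ • φ l n t) ((2 : ℝ)⁻¹ • φ l n t)
        = (4 : ℝ)⁻¹ • (sob m).Γ (φ l n t) (φ l n t) := by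
      rw [hC.smul_left _ _ φW _ f1, hC.Γ_smul_right _ φW φW, smul_smul]; norm_num
    have g2 : (sob m).Γ ((-(2 : ℝ)⁻¹) • u n t) ((-(2 : ℝ)⁻¹) • u n t)
        = (4 : ℝ)⁻¹ • (sob m).Γ (u n t) (u n t) := by
      rw [hC.smul_left _ _ uW _ f2, hC.Γ_smul_right _ uW uW, smul_smul]; norm_num
    have hsub := hC.toIsDir.Γ_sub_le f1 f2
    rw [← e1, g1, g2] at hsub
    filter_upwards [hsub, smul_ae ((sob m).Γ (φ l n t) (φ l n t)) (4 : ℝ)⁻¹,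
      smul_ae ((sob m).Γ (u n t) (u n t)) (4 : ℝ)⁻¹, nonneg_iff_ae.1 r0,
      mul_ae (rn u φ l n t) ((sob m).Γ (tn u φ l n t) (tn u φ l n t)),
      add_ae ((2 : ℝ)⁻¹ • (rn u φ l n t * (sob m).Γ (φ l n t) (φ l n t)))
        ((2 : ℝ)⁻¹ • (rn u φ l n t * (sob m).Γ (u n t) (u n t))),
      smul_ae (rn u φ l n t * (sob m).Γ (φ l n t) (φ l n t)) (2 : ℝ)⁻¹,
      smul_ae (rn u φ l n t * (sob m).Γ (u n t) (u n t)) (2 : ℝ)⁻¹,
      mul_ae (rn u φ l n t) ((sob m).Γ (φ l n t) (φ l n t)),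
      mul_ae (rn u φ l n t) ((sob m).Γ (u n t) (u n t))]
      with x b1 b2 b3 b4 b5 b6 b7 b8 b9 b10
    rw [b2, b3] at b1
    rw [b5, b6, b7, b8, b9, b10]
    nlinarith [mul_le_mul_of_nonneg_left b1 b4]
  have h6 : I (rn u φ l n t * (sob m).Γ (u n t) (u n t))
      ≤ I (rn u φ l n t * (sob m).Γ (φ l n t) (φ l n t)) + |c| := by
    have h7 := (abs_le.1 h4).1
    have h8 : c * en n ≤ |c| := by
      have := en_le_one n
      have := en_pos n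
      nlinarith [le_abs_self c, abs_nonneg c]
    linarith
  have h9 := le_abs_self c
  have h10 := abs_nonneg c
  linarith

end metric

end Vale.Agent.P233.H719.Nw

namespace Vale.Agent.P233.H719.Nw

open Vale.Agent.P233.PA (en OutA PotLim)
open Vale.Agent.P233.PC

section gen

variable {M : Type u} [MeasurableSpace M] {m : Measure M} {C : Calc m}

variable {E : Type} [NormedAddCommGroup E] [InnerProductSpace ℝ E]

end gen

section metric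

variable {M : Type u} [MetricSpace M] [SecondCountableTopology M] [MeasurableSpace M]
  [BorelSpace M] {m : Measure M} {K N : ℝ} {P : ℝ → (M →ₘ[m] ℝ) → (M →ₘ[m] ℝ)} {p : M} {s₀ C₀ : ℝ}
variable {u : ℕ → ℝ → M →ₘ[m] ℝ} {φ : (M →ₘ[m] ℝ) → ℕ → ℝ → M →ₘ[m] ℝ} {l : M →ₘ[m] ℝ}
variable {E : Type} [NormedAddCommGroup E] [InnerProductSpace ℝ E]
  {Gr : (M →ₘ[m] ℝ) → M → E} {V : (M →ₘ[m] ℝ) → (M →ₘ[m] ℝ) → M → E}
  {D : (M →ₘ[m] ℝ) → (M →ₘ[m] ℝ)} {κ : ℝ}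
  {HO : (M →ₘ[m] ℝ) → M → E →L[ℝ] E} {e : ℕ → M →ₘ[m] ℝ}

/-- `√F ∇(θ_n - z)` is small in `L¹(ρ_n)`, uniformly on `[s,1]`, for `F ∈ L¹`. -/
theorem tu6_pair (hyp : CHyp M m K N P p s₀ C₀) (hA : OutA m K N P p s₀ C₀ u φ)
    (hB : LevB m Gr V D κ u φ) (hl : l ∈ (sob m).TestI) {s : ℝ} (hs : s ∈ Ioo (0 : ℝ) 1)
    {F : M →ₘ[m] ℝ} (hF0 : 0 ≤ F) (hF1 : MemLp F 1 m) {δ : ℝ} (hδ : 0 < δ) :
    ∀ᶠ n in atTop, ∀ t ∈ Icc s 1, ∀ X : M →ₘ[m] ℝ,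
      (∀ᵐ x ∂m, |X x| ≤ √(F x) * √((sob m).Γ
        (tn u φ l n t - zc m p s₀ C₀ t) (tn u φ l n t - zc m p s₀ C₀ t) x)) →
      MemLp X 1 m ∧ |I (rn u φ l n t * X)| ≤ δ := by
  have hC := std_gamma hyp.std
  obtain ⟨B, hB0, hBd⟩ := dens_bd hyp hA hl hs.1
  obtain ⟨c1, hc10, hc1⟩ := energy_tn hyp hA hB hl hs
  obtain ⟨c2, hc20, hc2⟩ := energy_z hyp
  set Cc : ℝ := 2 * c1 + 2 * (B * c2) with hCc
  have hCc0 : 0 ≤ Cc := by positivity
  have hIF : 0 ≤ I F := I_nonneg hF0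
  set lam : ℝ := δ / (4 * (Cc + 1)) with hlam
  have hlam0 : 0 < lam := by positivity
  set μ : ℝ := δ / (4 * (B * I F + 1)) with hμ
  have hμ0 : 0 < μ := by positivity
  obtain ⟨A, hA0, hA1, hAle, hFA, hFAδ⟩ := exists_weight hF0 hF1 (δ := δ * lam / (B + 1))
    (by positivity)
  have h1 := tu6 hyp hA hB hl hs hA0 hA1 (δ := δ * μ) (by positivity)
  filter_upwards [h1, hBd, hc1, pair_of hA hl] with n a1 a2 a3 hp t ht X hX
  have ht0 : t ∈ Icc (0 : ℝ) 1 := ⟨hs.1.le.trans ht.1, ht.2⟩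
  have uW := (hC.test_A (hp.u_mem t ht0).1).1
  have φW := (hC.test_A (hp.φ_mem t ht0).1).1
  have zW := zc_W hA ht0
  have tW : tn u φ l n t ∈ (sob m).W := hC.smul_mem _ _ (hC.add_mem _ φW _ uW)
  have dW := hC.sub_mem tW zW
  have r0 : 0 ≤ rn u φ l n t := rh_nonneg
  have rB := a2 t ht
  have rt : MemLp (rn u φ l n t) ∞ m := mem_top_iff.2 ⟨B, by
    filter_upwards [rB, nonneg_iff_ae.1 r0] with x b1 b2
    rwa [abs_of_nonneg b2]⟩
  have At : MemLp A ∞ m := mem_top_iff.2 ⟨1, by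
    filter_upwards [hAle, nonneg_iff_ae.1 hA0] with x b1 b2
    rwa [abs_of_nonneg b2]⟩
  have Q0 := hC.nonneg _ dW
  have Q1 := hC.mem1 _ dW
  have h1A : 0 ≤ F * (1 - A) := by
    rw [nonneg_iff_ae]
    filter_upwards [mul_ae F (1 - A), sub_ae 1 A, one_ae (m := m) (M := M), hAle,
      nonneg_iff_ae.1 hF0] with x b1 b2 b3 b4 b5
    rw [b1, b2, b3]
    exact mul_nonneg b5 (by linarith)
  have mX : MemLp X 1 m := by
    refine mem_of_le (mem_add hF1 Q1) ?_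
    filter_upwards [hX, add_ae F ((sob m).Γ
        (tn u φ l n t - zc m p s₀ C₀ t) (tn u φ l n t - zc m p s₀ C₀ t)),
      nonneg_iff_ae.1 hF0, nonneg_iff_ae.1 Q0] with x b1 b2 b3 b4
    rw [b2, abs_of_nonneg (add_nonneg b3 b4)]
    refine b1.trans ?_
    have h5 := Real.sq_sqrt b3
    have h6 := Real.sq_sqrt b4
    nlinarith [sq_nonneg (√(F x) - √((sob m).Γ
        (tn u φ l n t - zc m p s₀ C₀ t) (tn u φ l n t - zc m p s₀ C₀ t) x)), sq_nonneg (√(F x)),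
      sq_nonneg (√((sob m).Γ
        (tn u φ l n t - zc m p s₀ C₀ t) (tn u φ l n t - zc m p s₀ C₀ t) x))]
  refine ⟨mX, ?_⟩
  set r := rn u φ l n t with hr
  set Q := (sob m).Γ (tn u φ l n t - zc m p s₀ C₀ t) (tn u φ l n t - zc m p s₀ C₀ t) with hQ
  have m1 : MemLp (r * F : M →ₘ[m] ℝ) 1 m := mem_mul_top rt hF1
  have m2 : MemLp (A * r * Q : M →ₘ[m] ℝ) 1 m := mem_mul_top (mem_mul_top At rt) Q1
  have m3 : MemLp (r * (F * (1 - A)) : M →ₘ[m] ℝ) 1 m := mem_mul_top rt hFA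
  have m4 : MemLp (r * Q : M →ₘ[m] ℝ) 1 m := mem_mul_top rt Q1
  have mG : MemLp (μ • (r * F) + (4 * μ)⁻¹ • (A * r * Q) + (4 * lam)⁻¹ • (r * (F * (1 - A)))
      + lam • (r * Q) : M →ₘ[m] ℝ) 1 m :=
    mem_add (mem_add (mem_add (mem_smul _ m1) (mem_smul _ m2)) (mem_smul _ m3)) (mem_smul _ m4)
  have key : |I (r * X)| ≤ I (μ • (r * F) + (4 * μ)⁻¹ • (A * r * Q)
      + (4 * lam)⁻¹ • (r * (F * (1 - A))) + lam • (r * Q)) := by
    refine I_abs_le_of mG ?_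
    filter_upwards [hX, mul_ae r X, add_ae (μ • (r * F) + (4 * μ)⁻¹ • (A * r * Q)
        + (4 * lam)⁻¹ • (r * (F * (1 - A)))) (lam • (r * Q)),
      add_ae (μ • (r * F) + (4 * μ)⁻¹ • (A * r * Q)) ((4 * lam)⁻¹ • (r * (F * (1 - A)))),
      add_ae (μ • (r * F)) ((4 * μ)⁻¹ • (A * r * Q)), smul_ae (r * F) μ,
      smul_ae (A * r * Q) (4 * μ)⁻¹, smul_ae (r * (F * (1 - A))) (4 * lam)⁻¹, smul_ae (r * Q) lam,
      mul_ae r F, mul_ae (A * r) Q, mul_ae A r, mul_ae r (F * (1 - A)), mul_ae F (1 - A),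
      sub_ae 1 A, one_ae (m := m) (M := M), mul_ae r Q, nonneg_iff_ae.1 r0, nonneg_iff_ae.1 hF0,
      nonneg_iff_ae.1 Q0, nonneg_iff_ae.1 hA0, hAle]
      with x b0 b1 b2 b3 b4 b5 b6 b7 b8 b9 b10 b11 b12 b13 b14 b15 b16 c0 c1' c2' c3 c4
    rw [b1, b2, b3, b4, b5, b6, b7, b8, b9, b10, b11, b12, b13, b14, b15, b16, abs_mul,
      abs_of_nonneg c0]
    have h7 := mul_le_mul_of_nonneg_left (young_aux c1' c2' c3 c4 hμ0 hlam0 b0) c0
    refine h7.trans (le_of_eq ?_)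
    ring
  refine key.trans ?_
  rw [I_add (mem_add (mem_add (mem_smul _ m1) (mem_smul _ m2)) (mem_smul _ m3)) (mem_smul _ m4),
    I_add (mem_add (mem_smul _ m1) (mem_smul _ m2)) (mem_smul _ m3),
    I_add (mem_smul _ m1) (mem_smul _ m2), I_smul, I_smul, I_smul, I_smul]
  have k1 : μ * I (r * F) ≤ δ / 4 := by
    have h8 := I_dens_le r0 rB hF0 hF1
    have hBF : 0 ≤ B * I F := mul_nonneg hB0 hIF
    calc μ * I (r * F) ≤ μ * (B * I F) := mul_le_mul_of_nonneg_left h8 hμ0.le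
      _ ≤ μ * (B * I F + 1) := mul_le_mul_of_nonneg_left (by linarith) hμ0.le
      _ = δ / 4 := by
          rw [hμ]
          have : B * I F + 1 ≠ 0 := by positivity
          field_simp
  have k2 : (4 * μ)⁻¹ * I (A * r * Q) ≤ δ / 4 := by
    have h8 := a1 t ht
    calc (4 * μ)⁻¹ * I (A * r * Q) ≤ (4 * μ)⁻¹ * (δ * μ) :=
          mul_le_mul_of_nonneg_left h8 (by positivity)
      _ = δ / 4 := by
          have : μ ≠ 0 := hμ0.ne'
          field_simp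
  have k3 : (4 * lam)⁻¹ * I (r * (F * (1 - A))) ≤ δ / 4 := by
    have h8 := I_dens_le r0 rB h1A hFA
    have h9 : B * I (F * (1 - A)) ≤ δ * lam := by
      calc B * I (F * (1 - A)) ≤ B * (δ * lam / (B + 1)) := mul_le_mul_of_nonneg_left hFAδ hB0
        _ ≤ (B + 1) * (δ * lam / (B + 1)) :=
            mul_le_mul_of_nonneg_right (by linarith) (by positivity)
        _ = δ * lam := by
            have : B + 1 ≠ 0 := by positivity
            field_simp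
    calc (4 * lam)⁻¹ * I (r * (F * (1 - A))) ≤ (4 * lam)⁻¹ * (δ * lam) :=
          mul_le_mul_of_nonneg_left (h8.trans h9) (by positivity)
      _ = δ / 4 := by
          have : lam ≠ 0 := hlam0.ne'
          field_simp
  have k4 : lam * I (r * Q) ≤ δ / 4 := by
    have zb := hc2 t ht0
    have tb := a3 t ht
    have z0 := hC.nonneg _ zW
    have z1 := hC.mem1 _ zW
    have t1 := hC.mem1 _ tW
    have mt : MemLp (r * (sob m).Γ (tn u φ l n t) (tn u φ l n t) : M →ₘ[m] ℝ) 1 m :=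
      mem_mul_top rt t1
    have mz : MemLp (r * (sob m).Γ (zc m p s₀ C₀ t) (zc m p s₀ C₀ t) : M →ₘ[m] ℝ) 1 m :=
      mem_mul_top rt z1
    have h8 : I (r * Q) ≤ 2 * I (r * (sob m).Γ (tn u φ l n t) (tn u φ l n t))
        + 2 * I (r * (sob m).Γ (zc m p s₀ C₀ t) (zc m p s₀ C₀ t)) := by
      rw [← I_smul, ← I_smul, ← I_add (mem_smul _ mt) (mem_smul _ mz)]
      refine I_mono m4 (mem_add (mem_smul _ mt) (mem_smul _ mz)) (le_iff_ae.2 ?_)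
      filter_upwards [hC.toIsDir.Γ_sub_le tW zW, mul_ae r Q,
        add_ae ((2 : ℝ) • (r * (sob m).Γ (tn u φ l n t) (tn u φ l n t)))
          ((2 : ℝ) • (r * (sob m).Γ (zc m p s₀ C₀ t) (zc m p s₀ C₀ t))),
        smul_ae (r * (sob m).Γ (tn u φ l n t) (tn u φ l n t)) (2 : ℝ),
        smul_ae (r * (sob m).Γ (zc m p s₀ C₀ t) (zc m p s₀ C₀ t)) (2 : ℝ),
        mul_ae r ((sob m).Γ (tn u φ l n t) (tn u φ l n t)),
        mul_ae r ((sob m).Γ (zc m p s₀ C₀ t) (zc m p s₀ C₀ t)), nonneg_iff_ae.1 r0]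
        with x b1 b2 b3 b4 b5 b6 b7 b8
      rw [b2, b3, b4, b5, b6, b7]
      nlinarith [mul_le_mul_of_nonneg_left b1 b8]
    have h9 : I (r * (sob m).Γ (zc m p s₀ C₀ t) (zc m p s₀ C₀ t)) ≤ B * c2 :=
      (I_dens_le r0 rB z0 z1).trans (mul_le_mul_of_nonneg_left zb hB0)
    have h10 : I (r * Q) ≤ Cc := by rw [hCc]; linarith
    calc lam * I (r * Q) ≤ lam * Cc := mul_le_mul_of_nonneg_left h10 hlam0.le
      _ ≤ lam * (Cc + 1) := mul_le_mul_of_nonneg_left (by linarith) hlam0.le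
      _ = δ / 4 := by
          rw [hlam]
          have : Cc + 1 ≠ 0 := by positivity
          field_simp
  linarith

end metric

end Vale.Agent.P233.H719.Nw

namespace Vale.Agent.P233.H719.Nw

open Vale.Agent.P233.PA (en OutA PotLim)
open Vale.Agent.P233.PC

section metric

variable {M : Type u} [MetricSpace M] [SecondCountableTopology M] [MeasurableSpace M]
  [BorelSpace M] {m : Measure M} {K N : ℝ} {P : ℝ → (M →ₘ[m] ℝ) → (M →ₘ[m] ℝ)} {p : M} {s₀ C₀ : ℝ}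
variable {u : ℕ → ℝ → M →ₘ[m] ℝ} {φ : (M →ₘ[m] ℝ) → ℕ → ℝ → M →ₘ[m] ℝ} {l : M →ₘ[m] ℝ}
variable {E : Type} [NormedAddCommGroup E] [InnerProductSpace ℝ E]
  {Gr : (M →ₘ[m] ℝ) → M → E} {V : (M →ₘ[m] ℝ) → (M →ₘ[m] ℝ) → M → E}
  {D : (M →ₘ[m] ℝ) → (M →ₘ[m] ℝ)} {κ : ℝ}
  {HO : (M →ₘ[m] ℝ) → M → E →L[ℝ] E} {e : ℕ → M →ₘ[m] ℝ}

/-- The right side of B7 converges uniformly on `[s,1]`. -/
theorem hess_lim (hyp : CHyp M m K N P p s₀ C₀) (hA : OutA m K N P p s₀ C₀ u φ)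
    (hS : Stat (sob m) Gr HO e)
    (hB : LevB m Gr V D κ u φ) (hl : l ∈ (sob m).TestI) {s : ℝ} (hs : s ∈ Ioo (0 : ℝ) 1)
    {U : Ultrafilter ℕ} (hU : (U : Filter ℕ) ≤ atTop) {Y : ℝ → M → M}
    (hSt : Strong p s₀ C₀ U u φ Y) {b : M →ₘ[m] ℝ} (hb : b ∈ (sob m).Test) {δ : ℝ} (hδ : 0 < δ) :
    ∀ᶠ n in (U : Filter ℕ), ∀ t ∈ Icc s 1,
      |I (rn u φ l n t * (sob m).hess b (tn u φ l n t) (tn u φ l n t))
        - ∫ x, qc m Gr HO b (zc m p s₀ C₀ t) (Y t x) * Real.exp (l x) ∂m| ≤ δ := by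
  have hC := std_gamma hyp.std
  obtain ⟨Λ, hΛ0, hΛ2, hΛ⟩ := exists_HB hS hb
  obtain ⟨L, hL0, hθ, hz⟩ := tn_bd hyp hA hl
  have hq : ∀ t ∈ Icc s 1, MemLp (qc m Gr HO b (zc m p s₀ C₀ t)) 1 m ∧
      MemLp (qc m Gr HO b (zc m p s₀ C₀ t)) 2 m := fun t ht => by
    have ht0 : t ∈ Icc (0 : ℝ) 1 := ⟨hs.1.le.trans ht.1, ht.2⟩
    exact qc_mem hC hS hb hΛ0 hΛ2 hΛ (zc_W hA ht0) (hz t ht0)
  have h4 := (tu4_strong hyp hA hl hs.1 hs.2.le hU hSt (b := fun t => qc m Gr HO b (zc m p s₀ C₀ t))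
    (fun t ht => (hq t ht).1) (fun t ht => (hq t ht).2)
    (fun t ht => qc_cont hyp hA hS hb hΛ0 hΛ2 hΛ hs.1 ht)).2 (δ / 2) (by positivity)
  have h6 := tu6_pair hyp hA hB hl hs (F := (4 * L ^ 2) • Λ ^ 2)
    (by
      rw [nonneg_iff_ae]
      filter_upwards [smul_ae (Λ ^ 2) (4 * L ^ 2), sq_ae Λ] with x a1 a2
      rw [a1, a2]; positivity)
    (mem_smul _ (mem_sq hΛ2)) (δ := δ / 2) (by positivity)
  obtain ⟨B, hB0, hBd⟩ := dens_bd hyp hA hl hs.1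
  filter_upwards [h4, hU h6, hU hθ, hU hBd] with n a1 a2 a3 a4 t ht
  have ht0 : t ∈ Icc (0 : ℝ) 1 := ⟨hs.1.le.trans ht.1, ht.2⟩
  obtain ⟨θT, θL⟩ := a3 t ht0
  have θW := (hC.test_A θT).1
  have zW := zc_W hA ht0
  have r0 : 0 ≤ rn u φ l n t := rh_nonneg
  have rt : MemLp (rn u φ l n t) ∞ m := mem_top_iff.2 ⟨B, by
    filter_upwards [a4 t ht, nonneg_iff_ae.1 r0] with x b1 b2
    rwa [abs_of_nonneg b2]⟩
  have hX := a2 t ht ((sob m).hess b (tn u φ l n t) (tn u φ l n t)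
      - qc m Gr HO b (zc m p s₀ C₀ t)) (by
    filter_upwards [hS.hess.grad b hb _ θT _ θT, qc_ae hS hb θW, qc_sub_le hC hS hb hΛ θW zW,
      sub_ae ((sob m).hess b (tn u φ l n t) (tn u φ l n t)) (qc m Gr HO b (zc m p s₀ C₀ t)), θL,
      hz t ht0, smul_ae (Λ ^ 2) (4 * L ^ 2), sq_ae Λ, nonneg_iff_ae.1 hΛ0]
      with x b1 b2 b3 b4 b5 b6 b7 b8 b9
    rw [b4, ← b1, ← b2, b7, b8]
    refine b3.trans ?_
    have c1 : √((sob m).Γ (tn u φ l n t) (tn u φ l n t) x) ≤ L := by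
      rw [Real.sqrt_le_left hL0]; exact b5
    have c2 : √((sob m).Γ (zc m p s₀ C₀ t) (zc m p s₀ C₀ t) x) ≤ L := by
      rw [Real.sqrt_le_left hL0]; exact b6
    have c3 : √(4 * L ^ 2 * Λ x ^ 2) = 2 * L * Λ x := by
      rw [show 4 * L ^ 2 * Λ x ^ 2 = (2 * L * Λ x) ^ 2 by ring]
      exact Real.sqrt_sq (by positivity)
    rw [c3]
    have c4 := mul_nonneg b9 (Real.sqrt_nonneg ((sob m).Γ (tn u φ l n t - zc m p s₀ C₀ t)
        (tn u φ l n t - zc m p s₀ C₀ t) x))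
    nlinarith)
  obtain ⟨mX, hXδ⟩ := hX
  have e1 : I (rn u φ l n t * (sob m).hess b (tn u φ l n t) (tn u φ l n t))
      = I (rn u φ l n t * ((sob m).hess b (tn u φ l n t) (tn u φ l n t)
        - qc m Gr HO b (zc m p s₀ C₀ t))) + I (qc m Gr HO b (zc m p s₀ C₀ t) * rn u φ l n t) := by
    rw [← I_add (mem_mul_top rt mX) (mem_top_mul (hq t ht).1 rt)]
    congr 1; ring
  rw [e1]
  have h7 := a1 t ht
  rw [abs_le] at h7 hXδ ⊢
  constructor <;> linarith [h7.1, h7.2, hXδ.1, hXδ.2]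

/-- The left side of B7 converges. -/
theorem gam_lim (hyp : CHyp M m K N P p s₀ C₀) (hA : OutA m K N P p s₀ C₀ u φ)
    (hB : LevB m Gr V D κ u φ) (hl : l ∈ (sob m).TestI) {s : ℝ} (hs : s ∈ Ioo (0 : ℝ) 1)
    {U : Ultrafilter ℕ} (hU : (U : Filter ℕ) ≤ atTop) {Y : ℝ → M → M}
    (hSt : Strong p s₀ C₀ U u φ Y) {b : M →ₘ[m] ℝ} (hb : b ∈ (sob m).W) {t : ℝ}
    (ht : t ∈ Icc s 1) :
    Tendsto (fun n => I (rn u φ l n t * (sob m).Γ b (tn u φ l n t))) U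
      (𝓝 (∫ x, (sob m).Γ b (zc m p s₀ C₀ t) (Y t x) * Real.exp (l x) ∂m)) := by
  have hC := std_gamma hyp.std
  have ht0 : t ∈ Icc (0 : ℝ) 1 := ⟨hs.1.le.trans ht.1, ht.2⟩
  have ht1 : t ∈ Ioc (0 : ℝ) 1 := ⟨hs.1.trans_le ht.1, ht.2⟩
  obtain ⟨L, hL0, hθ, hz⟩ := tn_bd hyp hA hl
  obtain ⟨B, hB0, hBd⟩ := dens_bd hyp hA hl hs.1
  have zW := zc_W hA ht0
  have mΓ := hC.toIsDir.Γ_mem1 hb zW
  have h1 := hSt.ρ_lim l hl t ht1 ((sob m).Γ b (zc m p s₀ C₀ t)) mΓ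
  rw [Metric.tendsto_nhds] at h1 ⊢
  intro δ hδ
  have h2 := tu6_pair hyp hA hB hl hs (hC.nonneg _ hb) (hC.mem1 _ hb) (δ := δ / 2) (by positivity)
  filter_upwards [h1 (δ / 2) (by positivity), hU h2, hU hθ, hU hBd] with n a1 a2 a3 a4
  obtain ⟨θT, θL⟩ := a3 t ht0
  have θW := (hC.test_A θT).1
  have r0 : 0 ≤ rn u φ l n t := rh_nonneg
  have rt : MemLp (rn u φ l n t) ∞ m := mem_top_iff.2 ⟨B, by
    filter_upwards [a4 t ht, nonneg_iff_ae.1 r0] with x b1 b2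
    rwa [abs_of_nonneg b2]⟩
  obtain ⟨mX, hX⟩ := a2 t ht ((sob m).Γ b (tn u φ l n t - zc m p s₀ C₀ t))
    (hC.toIsDir.Γ_abs_ae hb (hC.sub_mem θW zW))
  have e1 : I (rn u φ l n t * (sob m).Γ b (tn u φ l n t))
      = I (rn u φ l n t * (sob m).Γ b (tn u φ l n t - zc m p s₀ C₀ t))
        + I ((sob m).Γ b (zc m p s₀ C₀ t) * rn u φ l n t) := by
    rw [← I_add (mem_mul_top rt mX) (mem_top_mul mΓ rt), hC.toIsDir.Γ_sub_right hb θW zW]
    congr 1; ring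
  rw [e1]
  rw [Real.dist_eq] at a1 ⊢
  rw [abs_lt] at a1 ⊢
  rw [abs_le] at hX
  constructor <;> linarith [a1.1, a1.2, hX.1, hX.2]

/-- **C5, integrated form** with the final density `e^l`. -/
theorem c5_id (hyp : CHyp M m K N P p s₀ C₀) (hA : OutA m K N P p s₀ C₀ u φ)
    (hS : Stat (sob m) Gr HO e)
    (hB : LevB m Gr V D κ u φ) (hl : l ∈ (sob m).TestI)
    {U : Ultrafilter ℕ} (hU : (U : Filter ℕ) ≤ atTop) {Y : ℝ → M → M}
    (hSt : Strong p s₀ C₀ U u φ Y) {b : M →ₘ[m] ℝ} (hb : b ∈ (sob m).Test) {a : ℝ}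
    (ha : a ∈ Ioc (0 : ℝ) 1) :
    ContinuousOn (fun t => ∫ x, qc m Gr HO b (zc m p s₀ C₀ t) (Y t x) * Real.exp (l x) ∂m)
      (Icc a 1) ∧ ∀ c ∈ Icc a 1,
    (∫ x, (sob m).Γ b (zc m p s₀ C₀ c) (Y c x) * Real.exp (l x) ∂m)
      - (∫ x, (sob m).Γ b (zc m p s₀ C₀ a) (Y a x) * Real.exp (l x) ∂m)
    = ∫ t in a..c, ∫ x, qc m Gr HO b (zc m p s₀ C₀ t) (Y t x) * Real.exp (l x) ∂m := by
  have hC := std_gamma hyp.std
  set s : ℝ := a / 2 with hsdef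
  have hs : s ∈ Ioo (0 : ℝ) 1 := ⟨by have := ha.1; positivity, by linarith [ha.1, ha.2]⟩
  have hsa : s ≤ a := by linarith [ha.1]
  obtain ⟨e7, he7, h7⟩ := hB.b7 l hl b hb s hs
  have hun := fun (δ : ℝ) (hδ : 0 < δ) => hess_lim hyp hA hS hB hl hs hU hSt hb hδ
  have hcont : ContinuousOn (fun t => ∫ x, qc m Gr HO b (zc m p s₀ C₀ t) (Y t x)
      * Real.exp (l x) ∂m) (Icc s 1) := by
    have hT : TendstoUniformlyOn (fun (n : ℕ) (t : ℝ) =>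
        I (rn u φ l n t * (sob m).hess b (tn u φ l n t) (tn u φ l n t)))
        (fun t => ∫ x, qc m Gr HO b (zc m p s₀ C₀ t) (Y t x) * Real.exp (l x) ∂m)
        (U : Filter ℕ) (Icc s 1) := by
      rw [Metric.tendstoUniformlyOn_iff]
      intro δ hδ
      filter_upwards [hun (δ / 2) (by positivity)] with n hn t ht
      rw [Real.dist_eq, abs_sub_comm]
      exact (hn t ht).trans_lt (by linarith)
    refine hT.continuousOn ?_
    exact (Filter.Eventually.mono (hU h7) fun n hn => hn.1).frequently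
  refine ⟨hcont.mono (Icc_subset_Icc_left hsa), fun c hc => ?_⟩
  have hsub : Icc a c ⊆ Icc s 1 := Icc_subset_Icc hsa hc.2
  have hint : Tendsto (fun n => ∫ t in a..c,
      I (rn u φ l n t * (sob m).hess b (tn u φ l n t) (tn u φ l n t))) U
      (𝓝 (∫ t in a..c, ∫ x, qc m Gr HO b (zc m p s₀ C₀ t) (Y t x) * Real.exp (l x) ∂m)) := by
    refine tendsto_int_of_unif hc.1 ?_ ?_ ?_
    · filter_upwards [hU h7] with n hn
      refine ContinuousOn.intervalIntegrable ?_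
      rw [uIcc_of_le hc.1]
      exact hn.1.mono hsub
    · refine ContinuousOn.intervalIntegrable ?_
      rw [uIcc_of_le hc.1]
      exact hcont.mono hsub
    · intro δ hδ
      filter_upwards [hun δ hδ] with n hn t ht using hn t (hsub ht)
  have hg1 := gam_lim hyp hA hB hl hs hU hSt (hC.test_A hb).1 (t := c) ⟨hsa.trans hc.1, hc.2⟩
  have hg2 := gam_lim hyp hA hB hl hs hU hSt (hC.test_A hb).1 (t := a) ⟨hsa, ha.2⟩
  have hlim := (hg1.sub hg2).sub hint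
  have hz : Tendsto (fun n => I (rn u φ l n c * (sob m).Γ b (tn u φ l n c))
      - I (rn u φ l n a * (sob m).Γ b (tn u φ l n a))
      - ∫ t in a..c, I (rn u φ l n t * (sob m).hess b (tn u φ l n t) (tn u φ l n t))) U (𝓝 0) := by
    refine squeeze_zero_norm' ?_ (he7.mono_left hU)
    filter_upwards [hU h7] with n hn
    rw [Real.norm_eq_abs]
    exact hn.2 a c hsa hc.1 hc.2
  have := tendsto_nhds_unique hlim hz
  linarith

variable {φ' ρ : ℝ → M →ₘ[m] ℝ} {R : ℝ → ℝ → (M →ₘ[m] ℝ) → (M →ₘ[m] ℝ)} {Y : ℝ → M → M}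

/-- **C5, limit half.** -/
theorem c5Int (hyp : CHyp M m K N P p s₀ C₀) (hA : OutA m K N P p s₀ C₀ u φ)
    (hS : Stat (sob m) Gr HO e) (hB : LevB m Gr V D κ u φ)
    {U : Ultrafilter ℕ} (hU : (U : Filter ℕ) ≤ atTop)
    (hLim : Lim m K N p s₀ C₀ φ' ρ R) (hM : Maps ρ R Y) (hSt : Strong p s₀ C₀ U u φ Y) :
    C5Int m Gr HO p s₀ C₀ Y := by
  intro b hb l hl a ha c hc
  have hC := std_gamma hyp.std
  have h00 := testI_zero hyp.std
  obtain ⟨k1, k1'⟩ := c5_id hyp hA hS hB hl hU hSt hb.1 ha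
  obtain ⟨k2, k2'⟩ := c5_id hyp hA hS hB h00 hU hSt hb.1 ha
  have k1c := k1' c hc
  have k2c := k2' c hc
  have hc0 : c ∈ Ioc (0 : ℝ) 1 := ⟨ha.1.trans_le hc.1, hc.2⟩
  have bW := (hC.test_A hb.1).1
  obtain ⟨L, hL0, -, hz⟩ := z_bd hyp hA
  obtain ⟨Λ, hΛ0, hΛ2, hΛ⟩ := exists_HB hS hb.1
  have hΓ : ∀ t ∈ Ioc (0 : ℝ) 1, MemLp ((sob m).Γ b (zc m p s₀ C₀ t)) 1 m := fun t ht =>
    hC.toIsDir.Γ_mem1 bW (zc_W hA ⟨ht.1.le, ht.2⟩)
  rw [int_diff hC h00 hLim hM hc0 (hΓ c hc0) hl (ae_of_all _ fun x => rfl),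
    int_diff hC h00 hLim hM ha (hΓ a ha) hl (ae_of_all _ fun x => rfl)]
  have e1 : ∫ τ in a..c, ∫ x, (Real.exp (l x) - 1) * ⟪HO b (Y τ x) (Gr (zc m p s₀ C₀ τ) (Y τ x)),
        Gr (zc m p s₀ C₀ τ) (Y τ x)⟫_ℝ ∂m
      = ∫ τ in a..c, ((∫ x, qc m Gr HO b (zc m p s₀ C₀ τ) (Y τ x) * Real.exp (l x) ∂m)
        - ∫ x, qc m Gr HO b (zc m p s₀ C₀ τ) (Y τ x) * Real.exp ((0 : M →ₘ[m] ℝ) x) ∂m) := by
    refine intervalIntegral.integral_congr fun τ hτ => ?_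
    rw [uIcc_of_le hc.1] at hτ
    have hτ0 : τ ∈ Ioc (0 : ℝ) 1 := ⟨ha.1.trans_le hτ.1, hτ.2.trans hc.2⟩
    have zW := zc_W hA (t := τ) ⟨hτ0.1.le, hτ0.2⟩
    exact int_diff (g := fun y => ⟪HO b y (Gr (zc m p s₀ C₀ τ) y), Gr (zc m p s₀ C₀ τ) y⟫_ℝ)
      hC h00 hLim hM hτ0
      (qc_mem hC hS hb.1 hΛ0 hΛ2 hΛ zW (hz τ ⟨hτ0.1.le, hτ0.2⟩)).1 hl (qc_ae hS hb.1 zW)
  have hsub : Icc a c ⊆ Icc a 1 := Icc_subset_Icc_right hc.2
  rw [e1, intervalIntegral.integral_sub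
    (ContinuousOn.intervalIntegrable (by rw [uIcc_of_le hc.1]; exact k1.mono hsub))
    (ContinuousOn.intervalIntegrable (by rw [uIcc_of_le hc.1]; exact k2.mono hsub)),
    ← k1c, ← k2c]
  ring

end metric

end Vale.Agent.P233.H719.Nw

namespace Vale.Agent.P233.H719.Nw

open Vale.Agent.P233.PA (en OutA PotLim)
open Vale.Agent.P233.PC

/-- **Block C5.** -/
theorem blk_C5 : Blk_C5.{u} := by
  intro M _ _ _ _ _ m K N κ P p s₀ C₀ hyp E _ _ _ Gr V D HO e hE u φ hA hB U hU φ₀ L B R₀ c ρ R Y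
    hP hLO hLim hM hF hSt
  exact H183.second_of_int hyp hE.stat.grad hE.stat.gmeas hE.stat.hess hF
    (c5Int hyp hA hE.stat hB hU hLim hM hSt)

end Vale.Agent.P233.H719.Nw
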