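import Vale.Agent.N233.Lev

/-! P233, local form. The Riccati inequality along the flow for one function `h`. The proofs are
those of `P233/H249` and `P233/H545/PcSS`. -/

set_option linter.all false

open MeasureTheory Filter Topology Set
open scoped ENNReal NNReal InnerProductSpace

universe u

namespace Vale.Agent.P233.H249.Nw

open Vale.Agent.P233.PA (en OutA PotLim)
open Vale.Agent.P233.PC

section real

end real

section lev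

variable {M : Type u} [MetricSpace M] [SecondCountableTopology M] [MeasurableSpace M]
  [BorelSpace M] {m : Measure M} {K N κ : ℝ} {P : ℝ → (M →ₘ[m] ℝ) → (M →ₘ[m] ℝ)} {p : M}
  {s₀ C₀ : ℝ}
  {E : Type} [NormedAddCommGroup E] [InnerProductSpace ℝ E]
  {Gr : (M →ₘ[m] ℝ) → M → E} {V : (M →ₘ[m] ℝ) → (M →ₘ[m] ℝ) → M → E}
  {D : (M →ₘ[m] ℝ) → (M →ₘ[m] ℝ)} {HO : (M →ₘ[m] ℝ) → M → E →L[ℝ] E} {e : ℕ → M →ₘ[m] ℝ}
  {h l : M →ₘ[m] ℝ} {u : ℕ → ℝ → M →ₘ[m] ℝ} {φ : (M →ₘ[m] ℝ) → ℕ → ℝ → M →ₘ[m] ℝ}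
  {L : M → ℝ} {G s : ℝ}

theorem exists_lev6 (hyp : CHyp M m K N P p s₀ C₀) (hE : EHyp m K N Gr V D HO e)
    (hA : OutA m K N P p s₀ C₀ u φ) (hB : LevB m Gr V D κ u φ)
    (hl : l ∈ (sob m).TestI) (hh : h ∈ (sob m).TestI) (hT : St6 m p s₀ C₀ Gr HO h L G)
    (hs : s ∈ Ioo (0 : ℝ) 1) :
    ∃ B L1 cQ : ℝ, 0 ≤ B ∧ 0 ≤ L1 ∧ 0 ≤ cQ ∧
      (∀ t ∈ Icc (0 : ℝ) 1, ∀ᵐ x ∂m, (sob m).Γ (zc m p s₀ C₀ t) (zc m p s₀ C₀ t) x ≤ L1) ∧
      ∀ᶠ n in atTop, Lev6 m p s₀ C₀ V κ u φ l h s B L1 cQ n := by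
  have hC := H719.std_gamma hyp.std
  have hsub : Icc s 1 ⊆ Icc 0 1 := Icc_subset_Icc_left hs.1.le
  obtain ⟨B, hB0, hBd⟩ := H719.dens_bd hyp hA hl hs.1
  obtain ⟨La, hLa0, hu, hz⟩ := H719.z_bd hyp hA
  obtain ⟨Lb, hLb0, hφ⟩ := H719.φ_bd hyp hA hl
  obtain ⟨c3, hc3⟩ := hB.b3 l hl s hs
  obtain ⟨e6, -, he6⟩ := hB.b6 l hl h hh s hs
  refine ⟨B, La ^ 2 + Lb ^ 2, |G ^ 2 * c3|, hB0, by positivity, abs_nonneg _, fun t ht => ?_, ?_⟩
  · filter_upwards [hz t ht] with x hx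
    nlinarith [sq_nonneg Lb]
  filter_upwards [hBd, hu, hφ, hc3, he6, hB.mem l hl, hB.fld l hl h hh, hB.reg l hl]
    with n a1 a2 a3 a4 a5 a6 a7 a8
  have hth : ∀ t ∈ Icc s 1, tn u φ l n t ∈ (sob m).TestI := fun t ht => (a6 t (hsub ht)).2.1
  have hwt : ∀ t ∈ Icc s 1, Wt m B (rn u φ l n t) := fun t ht =>
    ⟨nonneg_iff_ae.1 H719.rh_nonneg, a1 t ht⟩
  have hgθ : ∀ t ∈ Icc s 1, ∀ᵐ x ∂m, (sob m).Γ (tn u φ l n t) (tn u φ l n t) x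
      ≤ La ^ 2 + Lb ^ 2 := by
    intro t ht
    have φW : φ l n t ∈ (sob m).W := (hC.test_A (a8.φ_mem t (hsub ht)).1).1
    have uW : u n t ∈ (sob m).W := (hC.test_A (a8.u_mem t (hsub ht)).1).1
    have e1 : (sob m).Γ (tn u φ l n t) (tn u φ l n t)
        = (4 : ℝ)⁻¹ • (sob m).Γ (φ l n t + u n t) (φ l n t + u n t) := by
      unfold tn Vale.Agent.P233.th
      have hW := hC.add_mem _ φW _ uW
      rw [hC.smul_left _ _ hW _ (hC.smul_mem _ _ hW), hC.Γ_smul_right _ hW hW, smul_smul]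
      norm_num
    filter_upwards [H183.Γ_add_le' hC.toIsDir φW uW, a2 t (hsub ht), a3 t (hsub ht),
      smul_ae ((sob m).Γ (φ l n t + u n t) (φ l n t + u n t)) (4 : ℝ)⁻¹] with x b1 b2 b3 b4
    rw [e1, b4]
    linarith [sq_nonneg La, sq_nonneg Lb]
  refine ⟨hwt, hth, ?_, hgθ, ?_, ?_, ?_, ?_, a5.1, a5.2.1, ?_⟩
  · intro τ hτ t ht
    have b1 := hC.memLp _ (hC.test_A (a6 τ (hsub hτ)).2.2.1.1).1
    have b2 := hC.memLp _ (hC.test_A (a6 t (hsub ht)).2.2.1.1).1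
    have b3 := mem_sub b1 b2
    have e2 : rn u φ l n τ - rn u φ l n t = (rn u φ l n τ - 1) - (rn u φ l n t - 1) := by abel
    rw [e2]; exact b3
  · intro t ht
    have θW : tn u φ l n t ∈ (sob m).W := (hC.test_A (hth t ht).1).1
    have zW := H719.zc_W hA (hsub ht)
    filter_upwards [hC.toIsDir.Γ_sub_le θW zW, hgθ t ht, hz t (hsub ht)] with x b1 b2 b3
    have := sq_nonneg Lb
    linarith
  · intro t ht
    exact (a7 t (hsub ht)).2.2.mono_left (nhdsWithin_mono _ hsub)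
  · intro t ht
    exact hE.hu.mem _ (hth t ht).1 h hh.1
  · intro t ht
    have h1 := (a7 t (hsub ht)).1.mono_left (nhdsWithin_mono t hsub)
    have h2 : Tendsto (fun τ => (eLpNorm (fun x => V (tn u φ l n τ) h x - V (tn u φ l n t) h x) 2
        m).toReal ^ 2) (𝓝[Icc s 1] t) (𝓝 0) := by
      have h3 := (ENNReal.tendsto_toReal ENNReal.zero_ne_top).comp h1
      have h4 := h3.pow 2
      simpa using h4
    refine h2.congr' ?_
    filter_upwards [self_mem_nhdsWithin] with τ hτ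
    exact (n2_eq ((hE.hu.mem _ (hth τ hτ).1 h hh.1).sub (hE.hu.mem _ (hth t ht).1 h hh.1))).symm
  · obtain ⟨e, he1, he2, he3⟩ := a4
    have i1 : IntervalIntegrable (fun t => G ^ 2 * e t) volume s 1 :=
      (he1.intervalIntegrable_of_Icc hs.2.le).const_mul _
    have hb : ∀ t ∈ Icc s 1, I (rn u φ l n t * ipE m (V (tn u φ l n t) h) (V (tn u φ l n t) h))
        ≤ G ^ 2 * e t := by
      intro t ht
      refine (lev_Q hyp hE hT hh (hwt t ht) (hth t ht)).trans ?_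
      have h5 := he3 t ht
      have r0 : 0 ≤ rn u φ l n t := H719.rh_nonneg
      have h6 : 0 ≤ en n ^ 2 * I (rn u φ l n t * D (LL (en n) (φ l n) (u n) t) ^ 2) :=
        mul_nonneg (sq_nonneg _) (I_nonneg (mul_nonneg r0 (sq_nonneg' _)))
      have h7 : 0 ≤ en n ^ 2 * I (rn u φ l n t * (sob m).lap (LL (en n) (φ l n) (u n) t) ^ 2) :=
        mul_nonneg (sq_nonneg _) (I_nonneg (mul_nonneg r0 (sq_nonneg' _)))
      exact mul_le_mul_of_nonneg_left (by linarith) (sq_nonneg _)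
    have hb0 : ∀ t ∈ Icc s 1, 0 ≤ I (rn u φ l n t * ipE m (V (tn u φ l n t) h)
        (V (tn u φ l n t) h)) := fun t ht => lev_Q0 hE hh (hwt t ht) (hth t ht)
    by_cases hint : IntervalIntegrable (fun t => I (rn u φ l n t * ipE m (V (tn u φ l n t) h)
        (V (tn u φ l n t) h))) volume s 1
    · refine (intervalIntegral.integral_mono_on hs.2.le hint i1 hb).trans ?_
      rw [intervalIntegral.integral_const_mul]
      refine le_trans ?_ (le_abs_self _)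
      exact mul_le_mul_of_nonneg_left he2 (sq_nonneg _)
    · rw [intervalIntegral.integral_undef hint]
      exact abs_nonneg _

variable {B L1 cQ : ℝ} {n : ℕ}

end lev

end Vale.Agent.P233.H249.Nw

namespace Vale.Agent.P233.H249.Nw

open Vale.Agent.P233.PA (en OutA PotLim)
open Vale.Agent.P233.PC

section lev

variable {M : Type u} [MetricSpace M] [SecondCountableTopology M] [MeasurableSpace M]
  [BorelSpace M] {m : Measure M} {K N κ : ℝ} {P : ℝ → (M →ₘ[m] ℝ) → (M →ₘ[m] ℝ)} {p : M}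
  {s₀ C₀ : ℝ}
  {E : Type} [NormedAddCommGroup E] [InnerProductSpace ℝ E]
  {Gr : (M →ₘ[m] ℝ) → M → E} {V : (M →ₘ[m] ℝ) → (M →ₘ[m] ℝ) → M → E}
  {D : (M →ₘ[m] ℝ) → (M →ₘ[m] ℝ)} {HO : (M →ₘ[m] ℝ) → M → E →L[ℝ] E} {e : ℕ → M →ₘ[m] ℝ}
  {h l : M →ₘ[m] ℝ} {u : ℕ → ℝ → M →ₘ[m] ℝ} {φ : (M →ₘ[m] ℝ) → ℕ → ℝ → M →ₘ[m] ℝ}
  {U : Ultrafilter ℕ} {Y : ℝ → M → M} {Hs : (M →ₘ[m] ℝ) → ℝ → M → E} {Λ : ℝ → M → ℝ}
  {L : M → ℝ} {G s : ℝ}

/-- the same for the field `w_t`, which is only a.e. measurable -/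
theorem conv_w [SFinite m] (hyp : CHyp M m K N P p s₀ C₀) (hE : EHyp m K N Gr V D HO e)
    (hB : LevB m Gr V D κ u φ) (hU : (U : Filter ℕ) ≤ atTop)
    (hF : RFlow m K N p s₀ C₀ Y) (hT : St6 m p s₀ C₀ Gr HO h L G)
    (hH : HLim m U Gr V u φ Y e Hs Λ) (hl : l ∈ (sob m).TestI)
    (hh : h ∈ (sob m).TestI) (hs : s ∈ Ioo (0 : ℝ) 1)
    {a b : ℝ} (hsa : s ≤ a) (hab : a ≤ b) (hb : b ≤ 1) :
    Tendsto (fun n => ∫ t in a..b, I (rn u φ l n t * ipE m (V (tn u φ l n t) h)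
      (wf6 m Gr HO h p s₀ C₀ t))) U
      (𝓝 (∫ t in a..b, ∫ x, Real.exp (l x) *
        ⟪Hs h t (Y t x), wf6 m Gr HO h p s₀ C₀ t (Y t x)⟫_ℝ ∂m)) := by
  set Φ : ℝ → M → E := fun t y => cz6 p s₀ C₀ t y • hT.hm.mk _ y with hΦ
  have hmk := hT.hm.ae_eq_mk
  have m1 : StronglyMeasurable fun z : ℝ × M => Φ z.1 z.2 :=
    cz6_meas.stronglyMeasurable.smul (hT.hm.stronglyMeasurable_mk.comp_measurable measurable_snd)
  have heq : ∀ t, ∀ᵐ y ∂m, wf6 m Gr HO h p s₀ C₀ t y = Φ t y := by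
    intro t
    filter_upwards [hmk] with y hy
    show cz6 p s₀ C₀ t y • HO h y (Gr (dc m p s₀ C₀) y) = cz6 p s₀ C₀ t y • hT.hm.mk _ y
    rw [← hy]
  have m2 : MemLp (fun z : ℝ × M => Φ z.1 z.2) 2 ((volume.restrict (Ioc s 1)).prod m) := by
    refine (wf6_memLp hyp hT hs.1).ae_eq ?_
    have h1 : ∀ᵐ z ∂((volume.restrict (Ioc s 1)).prod m), HO h z.2 (Gr (dc m p s₀ C₀) z.2)
        = hT.hm.mk _ z.2 := Measure.quasiMeasurePreserving_snd.ae hmk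
    filter_upwards [h1] with z hz
    show cz6 p s₀ C₀ z.1 z.2 • HO h z.2 (Gr (dc m p s₀ C₀) z.2)
      = cz6 p s₀ C₀ z.1 z.2 • hT.hm.mk _ z.2
    rw [hz]
  have key := conv_ab hH hl hh hs m1 m2 hsa hab hb
  have e2 : ∫ t in a..b, ∫ x, Real.exp (l x) * ⟪Hs h t (Y t x), Φ t (Y t x)⟫_ℝ ∂m
      = ∫ t in a..b, ∫ x, Real.exp (l x) *
        ⟪Hs h t (Y t x), wf6 m Gr HO h p s₀ C₀ t (Y t x)⟫_ℝ ∂m := by
    refine intervalIntegral.integral_congr_ae (ae_of_all _ fun t ht => ?_)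
    rw [uIoc_of_le hab] at ht
    refine integral_congr_ae ?_
    filter_upwards [H183.flow_ae hF ⟨(hs.1.trans_le hsa).trans ht.1, ht.2.trans hb⟩ (heq t)]
      with x hx
    rw [hx]
  rw [e2] at key
  refine key.congr' ?_
  filter_upwards [hU (hB.mem l hl)] with n hn
  refine intervalIntegral.integral_congr fun t ht => ?_
  rw [uIcc_of_le hab] at ht
  have ht0 : t ∈ Icc (0 : ℝ) 1 := ⟨hs.1.le.trans (hsa.trans ht.1), ht.2.trans hb⟩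
  have hV := hE.hu.mem _ (hn t ht0).2.1.1 h hh.1
  have hw := wf6_mem hyp hT ht0
  have hΦm : AEStronglyMeasurable (Φ t) m := hw.1.congr (heq t)
  show I (rn u φ l n t * ipE m (V (tn u φ l n t) h) (Φ t)) = I (rn u φ l n t *
    ipE m (V (tn u φ l n t) h) (wf6 m Gr HO h p s₀ C₀ t))
  rw [I_rip _ hV.1 hΦm, I_rip _ hV.1 hw.1]
  refine integral_congr_ae ?_
  filter_upwards [heq t] with x hx
  rw [hx]

end lev

end Vale.Agent.P233.H249.Nw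

namespace Vale.Agent.P233.H249.Nw

open Vale.Agent.P233.PA (en OutA PotLim)
open Vale.Agent.P233.PC

section lev

variable {M : Type u} [MetricSpace M] [SecondCountableTopology M] [MeasurableSpace M]
  [BorelSpace M] {m : Measure M} {K N κ : ℝ} {P : ℝ → (M →ₘ[m] ℝ) → (M →ₘ[m] ℝ)} {p : M}
  {s₀ C₀ : ℝ}
  {E : Type} [NormedAddCommGroup E] [InnerProductSpace ℝ E]
  {Gr : (M →ₘ[m] ℝ) → M → E} {V : (M →ₘ[m] ℝ) → (M →ₘ[m] ℝ) → M → E}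
  {D : (M →ₘ[m] ℝ) → (M →ₘ[m] ℝ)} {HO : (M →ₘ[m] ℝ) → M → E →L[ℝ] E} {e : ℕ → M →ₘ[m] ℝ}
  {h l : M →ₘ[m] ℝ} {u : ℕ → ℝ → M →ₘ[m] ℝ} {φ : (M →ₘ[m] ℝ) → ℕ → ℝ → M →ₘ[m] ℝ}
  {U : Ultrafilter ℕ} {Y : ℝ → M → M} {Hs : (M →ₘ[m] ℝ) → ℝ → M → E} {Λ : ℝ → M → ℝ}
  {L : M → ℝ} {G s : ℝ}

/-- the level estimate `|D_n - D'_n| ≤ η Q_n + ζ` -/
theorem Dn_near (hyp : CHyp M m K N P p s₀ C₀) (hE : EHyp m K N Gr V D HO e)
    (hA : OutA m K N P p s₀ C₀ u φ) (hB : LevB m Gr V D κ u φ) (hU : (U : Filter ℕ) ≤ atTop)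
    (hF : RFlow m K N p s₀ C₀ Y) (hSt : Strong p s₀ C₀ U u φ Y)
    (hT : St6 m p s₀ C₀ Gr HO h L G) (hl : l ∈ (sob m).TestI) (hh : h ∈ (sob m).TestI)
    (hs : s ∈ Ioo (0 : ℝ) 1) {B L1 cQ : ℝ} (hB0 : 0 ≤ B) (hL1 : 0 ≤ L1)
    (hz1 : ∀ t ∈ Icc (0 : ℝ) 1, ∀ᵐ x ∂m, (sob m).Γ (zc m p s₀ C₀ t) (zc m p s₀ C₀ t) x ≤ L1)
    (hLev : ∀ᶠ n in (U : Filter ℕ), Lev6 m p s₀ C₀ V κ u φ l h s B L1 cQ n)
    {η ζ : ℝ} (hη : 0 < η) (hζ : 0 < ζ) : ∀ᶠ n in (U : Filter ℕ), ∀ t ∈ Icc s 1,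
      |Dn m V κ u φ l h n t - (2 * I (rn u φ l n t * ipE m (V (tn u φ l n t) h)
        (wf6 m Gr HO h p s₀ C₀ t)) - κ * ∫ x, Real.exp (l x) *
        Xs (Gr h (Y t x)) (vf6 m Gr p s₀ C₀ t (Y t x)) ∂m)| ≤ η * Qn m V u φ l h n t + ζ := by
  have hC := H719.std_gamma hyp.std
  have hsub : Icc s 1 ⊆ Icc 0 1 := Icc_subset_Icc_left hs.1.le
  have hhW : h ∈ (sob m).W := (hC.test_A hh.1).1
  have hLi : Integrable (fun x => L x ^ 2) m := (memLp_two_iff_integrable_sq hT.L2.1).1 hT.L2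
  -- the weights
  set A : M →ₘ[m] ℝ := cl m fun x => L x ^ 2 with hAd
  have hAae : ∀ᵐ x ∂m, A x = L x ^ 2 := cl_ae hLi.1
  have hA0 : 0 ≤ A := by
    rw [nonneg_iff_ae]
    filter_upwards [hAae] with x hx
    rw [hx]; positivity
  have hA1 : MemLp A 1 m := by
    refine (memLp_one_iff_integrable.2 hLi).ae_eq ?_
    filter_upwards [hAae] with x hx
    rw [hx]
  have hΓ0 : 0 ≤ (sob m).Γ h h := hC.nonneg _ hhW
  have hΓ1 : MemLp ((sob m).Γ h h) 1 m := hC.mem1 _ hhW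
  have hIΓ : 0 ≤ I ((sob m).Γ h h) := I_nonneg hΓ0
  -- the parameters
  set c1 : ℝ := |κ| * (4 * L1 * (B * I ((sob m).Γ h h))) with hc1
  have hc10 : 0 ≤ c1 := by positivity
  set η' : ℝ := ζ / (4 * (c1 + 1)) with hη'
  have hη'0 : 0 < η' := by positivity
  have hc1η : c1 * η' ≤ ζ / 4 := by
    rw [hη', mul_div_assoc', div_le_iff₀ (by positivity)]
    nlinarith
  set δ1 : ℝ := η * ζ / 4 with hδ1
  have hδ10 : 0 < δ1 := by positivity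
  set δ2 : ℝ := η' * ζ / (4 * (|κ| + 1)) with hδ2
  have hδ20 : 0 < δ2 := by positivity
  set δ3 : ℝ := ζ / (4 * (|κ| + 1)) with hδ3
  have hδ30 : 0 < δ3 := by positivity
  filter_upwards [hLev, hU (H719.Nw.tu6 hyp hA hB hl hs hA0 hA1 hδ10),
    hU (H719.Nw.tu6 hyp hA hB hl hs hΓ0 hΓ1 hδ20), lim_S hyp hE hA hU hF hSt hT hl hs hδ30]
    with n a1 a2 a3 a4 t ht
  have b1 := lev_P hyp hE hT hh (a1.wt t ht) (a1.th t ht) (hsub ht) hAae (a1.gd t ht) hη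
  have b2 := lev_S hyp hE hT hh (a1.wt t ht) hB0 (a1.th t ht) (hsub ht) (a1.gd t ht) hL1
    (a1.gθ t ht) (hz1 t (hsub ht)) hη'0
  have b3 := a2 t ht
  have b4 := a3 t ht
  have b5 := a4 t ht
  set X1 := I (rn u φ l n t * ipE m (V h (tn u φ l n t)) (V (tn u φ l n t) h)) with hX1
  set X2 := I (rn u φ l n t * ipE m (V (tn u φ l n t) h) (wf6 m Gr HO h p s₀ C₀ t)) with hX2
  set S1 := I (rn u φ l n t * ((sob m).Γ h h * (sob m).Γ (tn u φ l n t) (tn u φ l n t)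
      - (sob m).Γ h (tn u φ l n t) ^ 2)) with hS1
  set S2 := I (bS m Gr p s₀ C₀ h t * rn u φ l n t) with hS2
  set S3 := ∫ x, Real.exp (l x) * Xs (Gr h (Y t x)) (vf6 m Gr p s₀ C₀ t (Y t x)) ∂m with hS3
  have hQ : Qn m V u φ l h n t = I (rn u φ l n t * ipE m (V (tn u φ l n t) h)
    (V (tn u φ l n t) h)) := rfl
  have hD : Dn m V κ u φ l h n t = 2 * X1 - κ * S1 := rfl
  rw [hD]
  have e1 : 2 * X1 - κ * S1 - (2 * X2 - κ * S3) = 2 * (X1 - X2) - κ * (S1 - S2)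
      - κ * (S2 - S3) := by ring
  rw [e1]
  have t1 : |2 * (X1 - X2)| ≤ η * Qn m V u φ l h n t + ζ / 4 := by
    rw [abs_mul, abs_two, hQ]
    have h6 : (2 * η)⁻¹ * I (A * rn u φ l n t * (sob m).Γ (tn u φ l n t - zc m p s₀ C₀ t)
        (tn u φ l n t - zc m p s₀ C₀ t)) ≤ (2 * η)⁻¹ * δ1 :=
      mul_le_mul_of_nonneg_left b3 (by positivity)
    have h7 : (2 * η)⁻¹ * δ1 = ζ / 8 := by
      rw [hδ1]; field_simp; norm_num
    linarith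
  have t2 : |κ * (S1 - S2)| ≤ ζ / 4 + ζ / 4 := by
    rw [abs_mul]
    have h6 : η'⁻¹ * I ((sob m).Γ h h * rn u φ l n t * (sob m).Γ (tn u φ l n t - zc m p s₀ C₀ t)
        (tn u φ l n t - zc m p s₀ C₀ t)) ≤ η'⁻¹ * δ2 :=
      mul_le_mul_of_nonneg_left b4 (by positivity)
    have h7 : η'⁻¹ * δ2 = ζ / (4 * (|κ| + 1)) := by
      rw [hδ2]; field_simp
    have h8 : |κ| * (ζ / (4 * (|κ| + 1))) ≤ ζ / 4 := by
      rw [mul_div_assoc', div_le_iff₀ (by positivity)]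
      nlinarith [abs_nonneg κ]
    calc |κ| * |S1 - S2| ≤ |κ| * (4 * L1 * η' * (B * I ((sob m).Γ h h)) +
          ζ / (4 * (|κ| + 1))) := by
          refine mul_le_mul_of_nonneg_left ?_ (abs_nonneg κ)
          linarith
      _ = c1 * η' + |κ| * (ζ / (4 * (|κ| + 1))) := by rw [hc1]; ring
      _ ≤ ζ / 4 + ζ / 4 := by linarith
  have t3 : |κ * (S2 - S3)| ≤ ζ / 4 := by
    rw [abs_mul]
    calc |κ| * |S2 - S3| ≤ |κ| * δ3 := mul_le_mul_of_nonneg_left b5 (abs_nonneg κ)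
      _ ≤ ζ / 4 := by
        rw [hδ3, mul_div_assoc', div_le_iff₀ (by positivity)]
        nlinarith [abs_nonneg κ]
  calc |2 * (X1 - X2) - κ * (S1 - S2) - κ * (S2 - S3)|
      ≤ |2 * (X1 - X2) - κ * (S1 - S2)| + |κ * (S2 - S3)| := abs_sub _ _
    _ ≤ |2 * (X1 - X2)| + |κ * (S1 - S2)| + |κ * (S2 - S3)| := by
        gcongr; exact abs_sub _ _
    _ ≤ η * Qn m V u φ l h n t + ζ := by linarith

end lev

end Vale.Agent.P233.H249.Nw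

namespace Vale.Agent.P233.H249.Nw

open Vale.Agent.P233.PA (en OutA PotLim)
open Vale.Agent.P233.PC

section lev

variable {M : Type u} [MetricSpace M] [SecondCountableTopology M] [MeasurableSpace M]
  [BorelSpace M] {m : Measure M} {K N κ : ℝ} {P : ℝ → (M →ₘ[m] ℝ) → (M →ₘ[m] ℝ)} {p : M}
  {s₀ C₀ : ℝ}
  {E : Type} [NormedAddCommGroup E] [InnerProductSpace ℝ E]
  {Gr : (M →ₘ[m] ℝ) → M → E} {V : (M →ₘ[m] ℝ) → (M →ₘ[m] ℝ) → M → E}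
  {D : (M →ₘ[m] ℝ) → (M →ₘ[m] ℝ)} {HO : (M →ₘ[m] ℝ) → M → E →L[ℝ] E} {e : ℕ → M →ₘ[m] ℝ}
  {h l : M →ₘ[m] ℝ} {u : ℕ → ℝ → M →ₘ[m] ℝ} {φ : (M →ₘ[m] ℝ) → ℕ → ℝ → M →ₘ[m] ℝ}
  {U : Ultrafilter ℕ} {Y : ℝ → M → M} {Hs : (M →ₘ[m] ℝ) → ℝ → M → E} {Λ : ℝ → M → ℝ}
  {L : M → ℝ} {G s : ℝ}

/-- **The main theorem of C6.** -/
theorem main6 [SFinite m] (hyp : CHyp M m K N P p s₀ C₀) (hE : EHyp m K N Gr V D HO e)
    (hA : OutA m K N P p s₀ C₀ u φ) (hB : LevB m Gr V D κ u φ) (hU : (U : Filter ℕ) ≤ atTop)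
    (hF : RFlow m K N p s₀ C₀ Y) (hSt : Strong p s₀ C₀ U u φ Y)
    (hH : HLim m U Gr V u φ Y e Hs Λ)
    (hl : l ∈ (sob m).TestI) (hh : h ∈ (sob m).TestI) (h6 : RicB m V κ u φ h)
    (hs : s ∈ Ioo (0 : ℝ) 1) {A1 : ℝ}
    (h1 : Tendsto (fun n => (sob m).SS (en n) (φ l n) (u n) h 1) atTop (𝓝 A1)) :
    ∃ Gs : Set ℝ, Gs ⊆ Ioo s 1 ∧ (∀ᵐ t ∂(volume.restrict (Ioo s 1)), t ∈ Gs) ∧
      (∀ a ∈ Gs, ∀ b ∈ Gs, a < b → (∫ x, Real.exp (l x) * qf6 Gr Hs Y h b x ∂m)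
        - (∫ x, Real.exp (l x) * qf6 Gr Hs Y h a x ∂m)
        ≤ ∫ t in a..b, ∫ x, Real.exp (l x) * bf6 m Gr HO Hs κ p s₀ C₀ Y h t x ∂m) ∧
      (∀ a ∈ Gs, A1 - (∫ x, Real.exp (l x) * qf6 Gr Hs Y h a x ∂m)
        ≤ ∫ t in a..1, ∫ x, Real.exp (l x) * bf6 m Gr HO Hs κ p s₀ C₀ Y h t x ∂m) := by
  have hC := H719.std_gamma hyp.std
  obtain ⟨L, G, hT⟩ := exists_St6 hyp hE hh
  have hI : Int6 m Gr HO Hs κ p s₀ C₀ Y h s := int6 hyp hF hH hT hh hs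
  obtain ⟨B, L1, cQ, hB0, hL1, hcQ, hz1, hLev0⟩ := exists_lev6 hyp hE hA hB hl hh hT hs
  have hLev : ∀ᶠ n in (U : Filter ℕ), Lev6 m p s₀ C₀ V κ u φ l h s B L1 cQ n := hU hLev0
  obtain ⟨er, her, hine⟩ := h6 l hl s hs
  -- space-time functions
  have iX := iX6 hI trivial hyp hF hT hs
  have iW : Integrable (fun z : ℝ × M => ⟪Hs h z.1 (Y z.1 z.2),
      wf6 m Gr HO h p s₀ C₀ z.1 (Y z.1 z.2)⟫_ℝ) ((volume.restrict (Ioc s 1)).prod m) :=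
    int_inner2 hI.H hI.w
  have iH2 : Integrable (fun z : ℝ × M => ‖Hs h z.1 (Y z.1 z.2)‖ ^ 2)
      ((volume.restrict (Ioc s 1)).prod m) := (memLp_two_iff_integrable_sq_norm hI.H.1).1 hI.H
  -- real functions
  set A0 : ℝ → ℝ := fun t => ∫ x, Real.exp (l x) * qf6 Gr Hs Y h t x ∂m with hA0
  set D0 : ℝ → ℝ := fun t => ∫ x, Real.exp (l x) * df6 m Gr HO Hs κ p s₀ C₀ Y h t x ∂m with hD0
  set Q0 : ℝ → ℝ := fun t => ∫ x, Real.exp (l x) * ‖Hs h t (Y t x)‖ ^ 2 ∂m with hQ0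
  have fA := fub (wint hC hl hI.q) le_rfl hs.2.le le_rfl
  have fD := fub (wint hC hl hI.d) le_rfl hs.2.le le_rfl
  have fQ := fub (wint hC hl iH2) le_rfl hs.2.le le_rfl
  have fX := fub (wint hC hl iX) le_rfl hs.2.le le_rfl
  have hIQ : ∀ᶠ n in (U : Filter ℕ), IntervalIntegrable (Qn m V u φ l h n) volume s 1 := by
    filter_upwards [hLev] with n hn
    exact hn.contQ.intervalIntegrable_of_Icc hs.2.le
  have hID : ∀ᶠ n in (U : Filter ℕ), IntervalIntegrable (Dn m V κ u φ l h n) volume s 1 := by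
    filter_upwards [hLev] with n hn
    have e1 : Dn m V κ u φ l h n = fun t => (sob m).FR V κ (en n) (φ l n) (u n) h t
        + Qn m V u φ l h n t := by
      funext t
      rw [← Dn_sub_Qn]; ring
    rw [e1]
    exact (hn.cF.add hn.contQ).intervalIntegrable_of_Icc hs.2.le
  have hQ00 : ∀ᶠ n in (U : Filter ℕ), ∀ t ∈ Icc s 1, 0 ≤ Qn m V u φ l h n t := by
    filter_upwards [hLev] with n hn t ht
    exact lev_Q0 hE hh (hn.wt t ht) (hn.th t ht)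
  have hres := rv_main (U := (U : Filter ℕ)) hs.2
    (A := fun n t => (sob m).SS (en n) (φ l n) (u n) h t)
    (D := fun n t => Dn m V κ u φ l h n t) (Q := fun n t => Qn m V u φ l h n t)
    (A0 := A0) (D0 := D0) (Q0 := Q0) (e := er) (A1 := A1) (her.mono_left hU) ?_ hID hIQ hQ00 ?_
    fA.1 fD.1 fQ.1 ?_ ?_ ?_ ?_ (h1.mono_left hU)
  · obtain ⟨Gs, g1, g2, g3, g4⟩ := hres
    have hfin : ∀ a b, s ≤ a → a ≤ b → b ≤ 1 → ∫ t in a..b, (D0 t - Q0 t)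
        = ∫ t in a..b, ∫ x, Real.exp (l x) * bf6 m Gr HO Hs κ p s₀ C₀ Y h t x ∂m := by
      intro a b hsa hab hb
      have ha' : a ∈ Icc s 1 := ⟨hsa, hab.trans hb⟩
      have hb' : b ∈ Icc s 1 := ⟨hsa.trans hab, hb⟩
      rw [intervalIntegral.integral_sub (ii_sub fD.1 ha' hb') (ii_sub fQ.1 ha' hb')]
      have e3 := fub_sub (F1 := fun z : ℝ × M => Real.exp (l z.2) *
          df6 m Gr HO Hs κ p s₀ C₀ Y h z.1 z.2)
        (F2 := fun z : ℝ × M => Real.exp (l z.2) * ‖Hs h z.1 (Y z.1 z.2)‖ ^ 2)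
        (F := fun z : ℝ × M => Real.exp (l z.2) * bf6 m Gr HO Hs κ p s₀ C₀ Y h z.1 z.2)
        (c1 := 1) (c2 := 1) (wint hC hl hI.d) (wint hC hl iH2)
        (fun z => by unfold bf6; ring) hsa hab hb
      rw [one_mul, one_mul] at e3
      exact e3.symm
    refine ⟨Gs, g1, g2, fun a ha b hb hab => ?_, fun a ha => ?_⟩
    · have h5 := g3 a ha b hb hab
      rw [hfin a b (g1 ha).1.le hab.le (g1 hb).2.le] at h5
      exact h5
    · have h5 := g4 a ha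
      rw [hfin a 1 (g1 ha).1.le (g1 ha).2.le le_rfl] at h5
      exact h5
  · -- A_n integrable
    filter_upwards [hLev] with n hn
    exact hn.cS.intervalIntegrable_of_Icc hs.2.le
  · -- the level inequality
    filter_upwards [hU hine] with n hn a b hsa hab hb
    have h5 := hn a b hsa hab hb
    have e4 : ∫ t in a..b, (Dn m V κ u φ l h n t - Qn m V u φ l h n t)
        = ∫ t in a..b, (sob m).FR V κ (en n) (φ l n) (u n) h t := by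
      congr 1; funext t; exact Dn_sub_Qn n t
    rw [e4]
    exact h5
  · -- limit of A_n
    intro a b hsa hab hb
    have key := conv_ab hH hl hh hs (Φ := fun _ x => Gr h x)
      (hT.gm.comp_measurable measurable_snd) (gh_memLp hT) hsa hab hb
    refine key.congr' ?_
    filter_upwards [hLev] with n hn
    refine intervalIntegral.integral_congr fun t ht => ?_
    rw [uIcc_of_le hab] at ht
    exact (lev_A hyp hE hh (hn.th t ⟨hsa.trans ht.1, ht.2.trans hb⟩)).symm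
  · -- limit of D_n
    intro a b hsa hab hb
    have ha' : a ∈ Icc s 1 := ⟨hsa, hab.trans hb⟩
    have hb' : b ∈ Icc s 1 := ⟨hsa.trans hab, hb⟩
    have e5 : ∫ t in a..b, D0 t = 2 * (∫ t in a..b, ∫ x, Real.exp (l x) *
        ⟪Hs h t (Y t x), wf6 m Gr HO h p s₀ C₀ t (Y t x)⟫_ℝ ∂m)
        - κ * ∫ t in a..b, ∫ x, Real.exp (l x) *
          Xs (Gr h (Y t x)) (vf6 m Gr p s₀ C₀ t (Y t x)) ∂m := by
      exact fub_sub (F1 := fun z : ℝ × M => Real.exp (l z.2) * ⟪Hs h z.1 (Y z.1 z.2),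
          wf6 m Gr HO h p s₀ C₀ z.1 (Y z.1 z.2)⟫_ℝ)
        (F2 := fun z : ℝ × M => Real.exp (l z.2) *
          Xs (Gr h (Y z.1 z.2)) (vf6 m Gr p s₀ C₀ z.1 (Y z.1 z.2)))
        (F := fun z : ℝ × M => Real.exp (l z.2) * df6 m Gr HO Hs κ p s₀ C₀ Y h z.1 z.2)
        (c1 := 2) (c2 := κ) (wint hC hl iW) (wint hC hl iX)
        (fun z => by unfold df6 Xs; ring) hsa hab hb
    rw [e5]
    have key := conv_w hyp hE hB hU hF hT hH hl hh hs hsa hab hb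
    refine tendsto_near ((key.const_mul 2).sub_const _) fun η hη => ?_
    have hba : 0 ≤ b - a := by linarith
    have hba1 : b - a ≤ 1 := by linarith [hs.1]
    filter_upwards [hLev, hIQ, hID, hQ00, Dn_near hyp hE hA hB hU hF hSt hT hl hh hs hB0 hL1 hz1
      hLev (η := η / (2 * (cQ + 1))) (ζ := η / 2) (by positivity) (by positivity)]
      with n a1 a2 a3 a4 a5
    have cw := (a1.contG (F := fun t => wf6 m Gr HO h p s₀ C₀ t)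
      (fun t ht => wf6_mem hyp hT ⟨hs.1.le.trans ht.1, ht.2⟩)
      (fun t ht => wf6_cont hyp hE hT hs.1 ht)).1.intervalIntegrable_of_Icc hs.2.le (μ := volume)
    have e6 : (∫ t in a..b, Dn m V κ u φ l h n t) - (2 * (∫ t in a..b, I (rn u φ l n t *
        ipE m (V (tn u φ l n t) h) (wf6 m Gr HO h p s₀ C₀ t))) - κ * ∫ t in a..b, ∫ x,
          Real.exp (l x) * Xs (Gr h (Y t x)) (vf6 m Gr p s₀ C₀ t (Y t x)) ∂m)
        = ∫ t in a..b, (Dn m V κ u φ l h n t - (2 * I (rn u φ l n t *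
          ipE m (V (tn u φ l n t) h) (wf6 m Gr HO h p s₀ C₀ t)) - κ * ∫ x, Real.exp (l x) *
          Xs (Gr h (Y t x)) (vf6 m Gr p s₀ C₀ t (Y t x)) ∂m)) := by
      rw [intervalIntegral.integral_sub (ii_sub a3 ha' hb') (((ii_sub cw ha' hb').const_mul 2).sub
          ((ii_sub fX.1 ha' hb').const_mul κ)),
        intervalIntegral.integral_sub ((ii_sub cw ha' hb').const_mul 2)
          ((ii_sub fX.1 ha' hb').const_mul κ),
        intervalIntegral.integral_const_mul, intervalIntegral.integral_const_mul]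
    rw [e6]
    have iF : IntervalIntegrable (fun t => Dn m V κ u φ l h n t - (2 * I (rn u φ l n t *
          ipE m (V (tn u φ l n t) h) (wf6 m Gr HO h p s₀ C₀ t)) - κ * ∫ x, Real.exp (l x) *
          Xs (Gr h (Y t x)) (vf6 m Gr p s₀ C₀ t (Y t x)) ∂m)) volume s 1 :=
      a3.sub ((cw.const_mul 2).sub (fX.1.const_mul κ))
    refine (int_bd iF a2 a4 a1.hQ a5 (by positivity) hsa hab hb).trans ?_
    have h8 : η / (2 * (cQ + 1)) * cQ ≤ η / 2 := by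
      rw [div_mul_eq_mul_div, div_le_iff₀ (by positivity)]
      nlinarith
    have h9 : η / 2 * (b - a) ≤ η / 2 := by nlinarith
    linarith
  · -- lower semicontinuity
    intro a b hsa hab hb
    exact lim_Q hyp hA hU hF hSt hH hT hl hh hs hLev hsa hab hb
  · -- equi-absolute continuity
    intro η hη
    obtain ⟨c, hc0, hc⟩ := Dn_bd (φ := φ) (u := u) (l := l) (κ := κ) (s := s) (cQ := cQ) hyp hE hT hh
      hB0 hL1 (η := η / (2 * (cQ + 1))) (by positivity)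
    refine ⟨η / (2 * (c + 1)), by positivity, ?_⟩
    filter_upwards [hLev, hIQ, hID, hQ00] with n a1 a2 a3 a4 a b hsa hab hb hba
    refine (int_bd a3 a2 a4 a1.hQ (hc n a1) (by positivity) hsa hab hb).trans ?_
    have h8 : η / (2 * (cQ + 1)) * cQ ≤ η / 2 := by
      rw [div_mul_eq_mul_div, div_le_iff₀ (by positivity)]
      nlinarith
    have h9 : c * (b - a) ≤ η / 2 := by
      calc c * (b - a) ≤ c * (η / (2 * (c + 1))) := mul_le_mul_of_nonneg_left hba hc0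
        _ ≤ η / 2 := by
          rw [mul_div_assoc', div_le_iff₀ (by positivity)]
          nlinarith
    linarith

end lev

end Vale.Agent.P233.H249.Nw

namespace Vale.Agent.P233.H249.Nw

open Vale.Agent.P233.PA (en OutA PotLim)
open Vale.Agent.P233.PC

section lev

variable {M : Type u} [MetricSpace M] [SecondCountableTopology M] [MeasurableSpace M]
  [BorelSpace M] {m : Measure M} {K N κ : ℝ} {P : ℝ → (M →ₘ[m] ℝ) → (M →ₘ[m] ℝ)} {p : M}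
  {s₀ C₀ : ℝ}
  {E : Type} [NormedAddCommGroup E] [InnerProductSpace ℝ E]
  {Gr : (M →ₘ[m] ℝ) → M → E} {V : (M →ₘ[m] ℝ) → (M →ₘ[m] ℝ) → M → E}
  {D : (M →ₘ[m] ℝ) → (M →ₘ[m] ℝ)} {HO : (M →ₘ[m] ℝ) → M → E →L[ℝ] E} {e : ℕ → M →ₘ[m] ℝ}
  {h l : M →ₘ[m] ℝ} {u : ℕ → ℝ → M →ₘ[m] ℝ} {φ : (M →ₘ[m] ℝ) → ℕ → ℝ → M →ₘ[m] ℝ}
  {U : Ultrafilter ℕ} {Y : ℝ → M → M} {Hs : (M →ₘ[m] ℝ) → ℝ → M → E} {Λ : ℝ → M → ℝ}
  {L : M → ℝ} {G s : ℝ}

theorem ricInt6 [SFinite m] (hyp : CHyp M m K N P p s₀ C₀) (hE : EHyp m K N Gr V D HO e)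
    (hA : OutA m K N P p s₀ C₀ u φ) (hB : LevB m Gr V D κ u φ) (hU : (U : Filter ℕ) ≤ atTop)
    (hF : RFlow m K N p s₀ C₀ Y) (hSt : Strong p s₀ C₀ U u φ Y)
    (hH : HLim m U Gr V u φ Y e Hs Λ)
    (hh : h ∈ (sob m).TestI) (h6 : RicB m V κ u φ h) (hs : s ∈ Ioo (0 : ℝ) 1)
    (h1 : ∀ l ∈ (sob m).TestI, Tendsto (fun n => (sob m).SS (en n) (φ l n) (u n) h 1) atTop
      (𝓝 ((sob m).wHc (zc m p s₀ C₀ 1) h (ex l)))) :
    RicInt6 m Gr HO Hs κ p s₀ C₀ Y h s ∧ EndInt6 m Gr HO Hs κ p s₀ C₀ Y h s := by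
  constructor
  · intro l hl
    obtain ⟨Gs, g1, g2, g3, g4⟩ := main6 hyp hE hA hB hU hF hSt hH hl hh h6 hs (h1 l hl)
    filter_upwards [g2] with a ha
    filter_upwards [g2] with b hb hab
    have := g3 a ha b hb hab
    rwa [intervalIntegral.integral_of_le hab.le] at this
  · intro l hl
    obtain ⟨Gs, g1, g2, g3, g4⟩ := main6 hyp hE hA hB hU hF hSt hH hl hh h6 hs (h1 l hl)
    filter_upwards [g2] with a ha
    exact g4 a ha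

end lev

end Vale.Agent.P233.H249.Nw

namespace Vale.Agent.P233.H545.Nw

open Vale.Agent.P233.PA (en OutA)
open Vale.Agent.P233.PC

theorem pc6_ss {M : Type u} [MetricSpace M] [SecondCountableTopology M] [MeasurableSpace M]
    [BorelSpace M] {m : Measure M} {K N : ℝ} {P : ℝ → (M →ₘ[m] ℝ) → (M →ₘ[m] ℝ)}
    {p : M} {s₀ C₀ : ℝ} (hyp : CHyp M m K N P p s₀ C₀)
    {u : ℕ → ℝ → M →ₘ[m] ℝ} {φ : (M →ₘ[m] ℝ) → ℕ → ℝ → M →ₘ[m] ℝ}
    (hA : OutA m K N P p s₀ C₀ u φ) {l h : M →ₘ[m] ℝ} (hl : l ∈ (sob m).TestI)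
    (hh : h ∈ (sob m).TestI) :
    Tendsto (fun n => (sob m).SS (en n) (φ l n) (u n) h 1) atTop
      (𝓝 ((sob m).wHc (zc m p s₀ C₀ 1) h (ex l))) := by
  have hC : IsGamma (sob m) := isGamma_sob hyp.std.hfin hyp.std.rcd.quadratic
    hyp.std.rcd.sobolev_to_lipschitz
  have hB : (sob m).BEi K := hC.bei hyp.std.hN hyp.std.rcd.bochner
  have h1 : (1 : ℝ) ∈ Icc (0 : ℝ) 1 := ⟨zero_le_one, le_rfl⟩
  obtain ⟨Dc, D', hU⟩ := hA.levU
  have hz := hA.ulim.mem 1 h1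
  have hw : ex l - 1 ∈ (sob m).A := hC.toIsDir.ex_A (hC.test_A hl.1)
  have hBE : BddE (sob m) atTop (fun n => u n 1) := by
    refine ⟨D' 1, ?_⟩
    filter_upwards [hU, hA.fam] with n a1 a2
    exact ⟨hC.tW ((a2 l hl).pair.u_mem 1 h1).1, a1.en 1 ⟨zero_lt_one, le_rfl⟩ 1 ⟨le_rfl, le_rfl⟩⟩
  have hS : SConv atTop (fun n => u n 1) (zc m p s₀ C₀ 1) := by
    refine ⟨?_, hA.ulim.conv 1 h1⟩
    filter_upwards [hBE.mem] with n hn
    exact mem_sub (hC.memLp _ hn) (hC.memLp _ hz.1.1)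
  have hW := hS.wconv (hC.memLp _ hz.1.1)
  have t1 := wHc_tendsto hC hB hW hBE hh hw
  have t2 : Tendsto (fun n => en n * (2⁻¹ * (sob m).wHc l h (ex l))) atTop (𝓝 0) := by
    have h0 := tendsto_one_div_add_atTop_nhds_zero_nat (𝕜 := ℝ)
    simp only [one_div] at h0
    have := h0.mul_const (2⁻¹ * (sob m).wHc l h (ex l))
    rw [zero_mul] at this
    exact this
  have t3 := t1.add t2
  rw [add_zero] at t3
  refine t3.congr' ?_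
  filter_upwards [hA.fam] with n hn
  exact (SS_one hC hB (hn l hl) hl hh).symm

end Vale.Agent.P233.H545.Nw

namespace Vale.Agent.P233.H329.Nw

open Vale.Agent.P233.PC
open Vale.Agent.P233.PA (en OutA PotLim)

/-- The sectional curvature bound on the planes spanned by `∇a` and any gradient. -/
def SecAt {M : Type u} [MeasurableSpace M] {m : Measure M} (C : Calc m) {E : Type}
    [NormedAddCommGroup E] [InnerProductSpace ℝ E] (U : (M →ₘ[m] ℝ) → (M →ₘ[m] ℝ) → M → E)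
    (κ : ℝ) (a : M →ₘ[m] ℝ) : Prop :=
  ∀ b ∈ C.TestI, ∀ w : M →ₘ[m] ℝ, w - 1 ∈ C.TestI → 0 ≤ w →
    κ * I (w * (C.Γ a a * C.Γ b b - C.Γ a b ^ 2)) ≤ C.RR U a b w

/-- The Riccati inequality at level `ε` for one function `h` (proof of `P233/H329/BlkB6`). -/
theorem b6_at (M : Type u) [MeasurableSpace M] (m : Measure M) [SigmaFinite m] (C : Calc m)
    (K N s s' Λ κ : ℝ)
    (E : Type) [NormedAddCommGroup E] [InnerProductSpace ℝ E] [CompleteSpace E]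
    (Gr : (M →ₘ[m] ℝ) → M → E) (U : (M →ₘ[m] ℝ) → (M →ₘ[m] ℝ) → M → E)
    (D : (M →ₘ[m] ℝ) → (M →ₘ[m] ℝ)) (hCt : CtB C K N Gr U D) (hs : 0 < s) (hss' : s < s')
    (hs'1 : s' < 1) (h : M →ₘ[m] ℝ) (hh : h ∈ C.TestI) (hSec : SecAt C U κ h) :
    ∃ err : ℝ → ℝ, Tendsto err (𝓝[>] 0) (𝓝 0) ∧
    ∀ (ε : ℝ) (l : M →ₘ[m] ℝ) (φ u : ℝ → M →ₘ[m] ℝ), LvB C ε s Λ l φ u →
      ∀ t₁ t₂, s' ≤ t₁ → t₁ ≤ t₂ → t₂ ≤ 1 →
        C.SS ε φ u h t₂ - C.SS ε φ u h t₁ ≤ (∫ t in t₁..t₂, C.FR U κ ε φ u h t) + err ε := by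
  have hC := hCt.gam
  have hB : C.BEi K := hC.bei hCt.hN hCt.be
  have hD := hC.toIsDir
  obtain ⟨err, herr, hx⟩ := blk_B6x M m C K N s s' Λ κ E Gr U D hCt hs hss' hs'1 h hh
  refine ⟨err, herr, fun ε l φ u hL => ?_⟩
  obtain ⟨r, hr1, hr2, hr3⟩ := hx ε l φ u hL
  have hR := hL.reg
  obtain ⟨hd, hS1, hFRc⟩ := H343.blk_B6t M m C K E Gr U hC hB hCt.grad hCt.hu ε s 1 φ u hR h hh
  obtain ⟨q1, -, -, -, -⟩ := H343.blk_B0r M m C K hC hB ε s 1 φ u hR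
  have hsub : Icc s' 1 ⊆ Icc s 1 := Icc_subset_Icc hss'.le le_rfl
  have hFR : ContinuousOn (C.FR U κ ε φ u h) (Icc s' 1) := (hFRc κ).mono hsub
  intro t₁ t₂ h1 h12 h2
  -- the static inequality
  have key : ∀ t ∈ Ico s' 1, C.S1 ε φ u h t ≤ C.FR U κ ε φ u h t + r t := by
    intro t ht
    have htI : t ∈ Icc s 1 := hsub (Ico_subset_Icc_self ht)
    obtain ⟨hLT, hθT, hρT, hΓρ, -⟩ := q1 t htI
    set L := LL ε φ u t with hLdef
    set θ := th φ u t with hθdef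
    set ρ := rh ε φ u t with hρdef
    have hρA : ρ - 1 ∈ C.A := hC.test_A hρT.1
    have hρ0 : 0 ≤ ρ := by
      rw [nonneg_iff_ae, hρdef]
      unfold rh ex
      filter_upwards [AEEqFun.coeFn_comp Real.exp Real.continuous_exp (ε⁻¹ • (φ t - u t))] with x hx
      rw [hx]
      exact (Real.exp_pos _).le
    have e1 := H853.blk_B6a M m C K E Gr U hC hB hCt.grad hCt.hu h hh θ hθT ρ hρT
    have e2 := H853.blk_B6a M m C K E Gr U hC hB hCt.grad hCt.hu h hh L hLT ρ hρT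
    have s1 := hSec θ hθT ρ hρT hρ0
    have s2 := hSec L hLT ρ hρT hρ0
    have hΓθ : C.Γ θ θ ∈ C.W := (hC.Γ_mem hB hθT.1 hθT.1).1
    have hΓL : C.Γ L L ∈ C.W := (hC.Γ_mem hB hLT.1 hLT.1).1
    have hlL : C.lap L ∈ C.W := hC.test_lap_mem hLT.1
    have w1 : C.wHc (-((2 : ℝ)⁻¹ • C.Γ θ θ) -
        (ε ^ 2 / 8) • ((2 : ℝ) • C.lap L + C.Γ L L)) h ρ
        = -C.wHc ((2 : ℝ)⁻¹ • C.Γ θ θ) h ρ - ε ^ 2 / 4 * C.wHc (C.lap L) h ρ
          - ε ^ 2 / 4 * C.wHc ((2 : ℝ)⁻¹ • C.Γ L L) h ρ := by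
      have : (-((2 : ℝ)⁻¹ • C.Γ θ θ) - (ε ^ 2 / 8) • ((2 : ℝ) • C.lap L + C.Γ L L) : M →ₘ[m] ℝ)
          = (-1 : ℝ) • ((2 : ℝ)⁻¹ • C.Γ θ θ) + ((-(ε ^ 2 / 4)) • C.lap L
            + (-(ε ^ 2 / 4)) • ((2 : ℝ)⁻¹ • C.Γ L L)) := by
        module
      have hA1 : (2 : ℝ)⁻¹ • C.Γ θ θ ∈ C.W := hC.smul_mem _ _ hΓθ
      have hA2 : (2 : ℝ)⁻¹ • C.Γ L L ∈ C.W := hC.smul_mem _ _ hΓL
      rw [this, wHc_add hC hB (hC.smul_mem _ _ hA1)
        (hC.add_mem _ (hC.smul_mem _ _ hlL) _ (hC.smul_mem _ _ hA2)) hh hρA,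
        wHc_add hC hB (hC.smul_mem _ _ hlL) (hC.smul_mem _ _ hA2) hh hρA,
        wHc_smul hC hB _ hA1 hh hρA, wHc_smul hC hB _ hlL hh hρA, wHc_smul hC hB _ hA2 hh hρA]
      ring
    have g1 : C.Γ L (ρ - 1) = ρ * C.Γ L L := by
      rw [hC.symm _ (hC.tW hLT.1) _ hρA.1]
      exact hΓρ L (hC.tW hLT.1)
    have g2 : (C.Γ L (ρ - 1) + ρ * C.lap L) * C.hess L h h
        = ρ * (C.lap L + C.Γ L L) * C.hess L h h := by
      rw [g1]; ring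
    rw [g2] at e2
    have hErr := (hr2 t ht).2
    unfold Calc.Er Calc.Kt at hErr
    unfold Calc.S1 Calc.FR
    rw [← hLdef, ← hθdef, ← hρdef] at *
    rw [w1]
    have hε2 : 0 ≤ ε ^ 2 / 4 := by positivity
    have s2' := mul_le_mul_of_nonneg_left s2 hε2
    nlinarith [s1, s2', hErr, e1, e2]
  -- integration
  have hcont : ContinuousOn (C.SS ε φ u h) (Icc t₁ t₂) := fun t ht =>
    ((hd t ⟨hss'.le.trans (h1.trans ht.1), ht.2.trans h2⟩).continuousWithinAt).mono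
      (Icc_subset_Icc (hss'.le.trans h1) h2)
  have hder : ∀ t ∈ Ioo t₁ t₂, HasDerivAt (C.SS ε φ u h) (C.S1 ε φ u h t) t := fun t ht =>
    (hd t ⟨hss'.le.trans (h1.trans ht.1.le), ht.2.le.trans h2⟩).hasDerivAt
      (Icc_mem_nhds (by linarith [ht.1]) (by linarith [ht.2]))
  have hsub2 : Icc t₁ t₂ ⊆ Icc s 1 := Icc_subset_Icc (hss'.le.trans h1) h2
  have hint1 : IntervalIntegrable (C.S1 ε φ u h) volume t₁ t₂ :=
    ContinuousOn.intervalIntegrable_of_Icc h12 (hS1.mono hsub2)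
  have hint2 : IntervalIntegrable (C.FR U κ ε φ u h) volume t₁ t₂ :=
    ContinuousOn.intervalIntegrable_of_Icc h12 (hFR.mono (Icc_subset_Icc h1 h2))
  have hint3 : IntervalIntegrable r volume t₁ t₂ := by
    refine hr1.mono_set ?_
    rw [uIcc_of_le h12, uIcc_of_le hs'1.le]
    exact Icc_subset_Icc h1 h2
  have hFTC := intervalIntegral.integral_eq_sub_of_hasDerivAt_of_le h12 hcont hder hint1
  rw [← hFTC]
  have hle : ∫ t in t₁..t₂, C.S1 ε φ u h t ≤ ∫ t in t₁..t₂, (C.FR U κ ε φ u h t + r t) := by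
    refine intervalIntegral.integral_mono_on_of_le_Ioo h12 hint1 (hint2.add hint3) ?_
    intro t ht
    exact key t ⟨h1.trans ht.1.le, ht.2.trans_le h2⟩
  rw [intervalIntegral.integral_add hint2 hint3] at hle
  have hr4 : ∫ t in t₁..t₂, r t ≤ ∫ t in s'..1, r t := by
    refine intervalIntegral.integral_mono_interval h1 h12 h2 ?_ hr1
    have hne : ∀ᵐ t ∂(volume : Measure ℝ), t ≠ 1 := by
      simp [ae_iff, measure_singleton]
    refine (ae_restrict_iff' measurableSet_Ioc).2 ?_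
    filter_upwards [hne] with t ht1 ht
    exact (hr2 t ⟨ht.1.le, lt_of_le_of_ne ht.2 ht1⟩).1
  linarith

section

variable {M : Type u} [MetricSpace M] [CompleteSpace M] [SecondCountableTopology M]
  [MeasurableSpace M] [BorelSpace M] {m : Measure M} {K N κ : ℝ}
  {P : ℝ → (M →ₘ[m] ℝ) → (M →ₘ[m] ℝ)} {p : M} {s₀ C₀ : ℝ}
  {E : Type} [NormedAddCommGroup E] [InnerProductSpace ℝ E] [CompleteSpace E]
  {Gr : (M →ₘ[m] ℝ) → M → E} {V : (M →ₘ[m] ℝ) → (M →ₘ[m] ℝ) → M → E}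
  {D : (M →ₘ[m] ℝ) → (M →ₘ[m] ℝ)} {HO : (M →ₘ[m] ℝ) → M → E →L[ℝ] E} {e : ℕ → M →ₘ[m] ℝ}
  {u : ℕ → ℝ → M →ₘ[m] ℝ} {φ : (M →ₘ[m] ℝ) → ℕ → ℝ → M →ₘ[m] ℝ}

/-- the output of part B, without any sectional curvature bound -/
theorem levB_of (hyp : CHyp M m K N P p s₀ C₀) (hct : CtB (sob m) K N Gr V D)
    (hA : OutA m K N P p s₀ C₀ u φ) (κ : ℝ) : LevB m Gr V D κ u φ := by
  haveI : SigmaFinite m := sigmaFinite_of_ball hyp.std.hfin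
  have hb := blocksB.{u}
  have h : AsB m K N P p s₀ C₀ Gr V D u φ := ⟨hct, hyp.heat, hyp.hC0, hA⟩
  refine ⟨h.reg hb.b0, h.mem hb.b0 hb.b0r hb.b8a, h.fld hb.b0 hb.b0r hb.b0c, h.b2 hb.b0 hb.b2,
    h.b3 hb.b0 hb.b3, h.b4 hb.b0 hb.b4, fun l hl g hg s hs => ?_, h.b7 hb.b0 hb.b7 hb.b7x,
    h.b8 hb.b0 hb.b8a, h.b8b hb.b0 hb.b8b⟩
  refine ⟨fun _ => 0, tendsto_const_nhds, ?_⟩
  filter_upwards [h.reg hb.b0 l hl] with n hn
  obtain ⟨t1, -, t3⟩ := hb.b6t M m (sob m) K E Gr V h.ct.gam h.bei h.ct.grad h.ct.hu (en n) 0 1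
    (φ l n) (u n) hn g hg
  have hsub : Icc s 1 ⊆ Icc (0 : ℝ) 1 := Icc_subset_Icc hs.1.le le_rfl
  exact ⟨(t3 κ).mono hsub, fun t ht => ((t1 t (hsub ht)).continuousWithinAt).mono hsub, trivial⟩

theorem ricB_of (hyp : CHyp M m K N P p s₀ C₀) (hct : CtB (sob m) K N Gr V D)
    (hA : OutA m K N P p s₀ C₀ u φ) {g : M →ₘ[m] ℝ} (hg : g ∈ (sob m).TestI)
    (hS : SecAt (sob m) V κ g) : RicB m V κ u φ g := by
  haveI : SigmaFinite m := sigmaFinite_of_ball hyp.std.hfin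
  have h : AsB m K N P p s₀ C₀ Gr V D u φ := ⟨hct, hyp.heat, hyp.hC0, hA⟩
  intro l hl s hs
  have hs2 : s / 2 ∈ Ioo (0 : ℝ) 1 := ⟨by linarith [hs.1], by linarith [hs.1, hs.2]⟩
  obtain ⟨Λ, hΛ⟩ := h.exists blocksB.{u}.b0 hl hs2
  obtain ⟨err, he1, he2⟩ := b6_at M m (sob m) K N (s / 2) s Λ κ E Gr V D hct hs2.1
    (by linarith [hs.1]) hs.2 g hg hS
  refine ⟨fun n => err (en n), he1.comp en_tendsto, ?_⟩
  filter_upwards [hΛ] with n hn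
  exact he2 (en n) l (φ l n) (u n) hn.2

/-- The Riccati inequality along the flow and the end point, for one function `h`. -/
structure RicAt (m : Measure M) (κ : ℝ) (Gr : (M →ₘ[m] ℝ) → M → E)
    (HO : (M →ₘ[m] ℝ) → M → E →L[ℝ] E) (p : M) (s₀ C₀ : ℝ) (Y : ℝ → M → M)
    (Hs : (M →ₘ[m] ℝ) → ℝ → M → E) (h : M →ₘ[m] ℝ) : Prop where
  ric : ∀ᵐ x ∂m, dist p x < r1 s₀ C₀ →
    ∀ᵐ s ∂(volume.restrict (Ioc (0 : ℝ) 1)), ∀ᵐ t ∂(volume.restrict (Ioc (0 : ℝ) 1)), s < t →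
    ⟪Hs h t (Y t x), Gr h (Y t x)⟫_ℝ - ⟪Hs h s (Y s x), Gr h (Y s x)⟫_ℝ ≤
      ∫ τ in s..t, (2 * spd1 p s₀ x *
            ⟪Hs h τ (Y τ x), HO h (Y τ x) (Gr (dc m p s₀ C₀) (Y τ x))⟫_ℝ
        - ‖Hs h τ (Y τ x)‖ ^ 2 - κ * spd1 p s₀ x ^ 2 * (‖Gr h (Y τ x)‖ ^ 2
            - ⟪Gr h (Y τ x), Gr (dc m p s₀ C₀) (Y τ x)⟫_ℝ ^ 2))
  ricOff : ∀ᵐ x ∂m, r1 s₀ C₀ ≤ dist p x →
    ∀ᵐ s ∂(volume.restrict (Ioc (0 : ℝ) 1)), ∀ᵐ t ∂(volume.restrict (Ioc (0 : ℝ) 1)), s < t →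
    ⟪Hs h t x, Gr h x⟫_ℝ - ⟪Hs h s x, Gr h x⟫_ℝ ≤ ∫ τ in s..t, - ‖Hs h τ x‖ ^ 2
  fin : ∀ w ∈ (sob m).TestI, 0 ≤ w → ∃ A : ℝ,
    ∀ᵐ s ∂(volume.restrict (Ioo (1 / 2 : ℝ) 1)),
      Integrable (fun x => w x * ⟪Hs h s (Y s x), Gr h (Y s x)⟫_ℝ) m ∧
      (sob m).wH (zc m p s₀ C₀ 1) h w
        ≤ (∫ x, w x * ⟪Hs h s (Y s x), Gr h (Y s x)⟫_ℝ ∂m) + A * (1 - s)

theorem ricAt (hyp : CHyp M m K N P p s₀ C₀) (hE : EHyp m K N Gr V D HO e)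
    (hA : OutA m K N P p s₀ C₀ u φ) (hB : LevB m Gr V D κ u φ) {U : Ultrafilter ℕ}
    (hU : (U : Filter ℕ) ≤ atTop) {φ₀ ρ : ℝ → M →ₘ[m] ℝ}
    {R : ℝ → ℝ → (M →ₘ[m] ℝ) → (M →ₘ[m] ℝ)} {Y : ℝ → M → M} (hLim : Lim m K N p s₀ C₀ φ₀ ρ R)
    (hMaps : Maps ρ R Y) (hF : RFlow m K N p s₀ C₀ Y) (hSt : Strong p s₀ C₀ U u φ Y)
    {Hs : (M →ₘ[m] ℝ) → ℝ → M → E} {Λ : ℝ → M → ℝ} (hH : HLim m U Gr V u φ Y e Hs Λ)
    {h : M →ₘ[m] ℝ} (hh : h ∈ (sob m).TestI) (h6 : RicB m V κ u φ h) :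
    RicAt m κ Gr HO p s₀ C₀ Y Hs h := by
  haveI : SigmaFinite m := sigmaFinite_of_ball hyp.std.hfin
  have hint : ∀ s ∈ Ioo (0 : ℝ) 1, Int6 m Gr HO Hs κ p s₀ C₀ Y h s := by
    intro s hs
    obtain ⟨L', G', hT⟩ := H249.exists_St6 hyp hE hh
    exact H249.int6 hyp hF hH hT hh hs
  have hre : ∀ s ∈ Ioo (0 : ℝ) 1, RicInt6 m Gr HO Hs κ p s₀ C₀ Y h s ∧
      EndInt6 m Gr HO Hs κ p s₀ C₀ Y h s := fun s hs =>
    H249.Nw.ricInt6 hyp hE hA hB hU hF hSt hH hh h6 hs fun l hl => H545.Nw.pc6_ss hyp hA hl hh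
  have hrr := H249.pc6_ric M m K N κ P p s₀ C₀ hyp E Gr V D HO e hE _ ρ R Y Hs hLim hMaps hF h hh
    fun s hs => H249.ric_loc hyp hE hF hH hh hs (hre s hs).1
  exact ⟨hrr.1, hrr.2, H788.pc6_fin M m K N κ P p s₀ C₀ hyp E Gr V D HO e hE _ ρ R Y Hs hLim hMaps
    hF h hh hint fun s hs => (hre s hs).2⟩

end

end Vale.Agent.P233.H329.Nw
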