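import Vale.Agent.N233.Hess
import Vale.Agent.N233.Ric
import Vale.Agent.P233.H154.Main

/-! P233, local form. Locality: a sectional curvature bound for weights supported in a set `A`
gives the Riccati inequality along the radial flows that stay well inside `A`. -/

set_option linter.all false

open MeasureTheory Filter Topology Set
open scoped ENNReal NNReal InnerProductSpace

universe u

namespace Vale.Agent.P233.Nw

open Vale.Agent.P233.PC Vale.Agent.P233.H329.Nw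
open Vale.Agent.P233.PA (en OutA PotLim)

variable {M : Type u} [MetricSpace M] [CompleteSpace M] [SecondCountableTopology M]
  [MeasurableSpace M] [BorelSpace M] {m : Measure M} {K N κ : ℝ}
  {P : ℝ → (M →ₘ[m] ℝ) → (M →ₘ[m] ℝ)} {p : M} {s₀ C₀ : ℝ}
  {E : Type} [NormedAddCommGroup E] [InnerProductSpace ℝ E] [CompleteSpace E]
  {Gr : (M →ₘ[m] ℝ) → M → E} {V : (M →ₘ[m] ℝ) → (M →ₘ[m] ℝ) → M → E}
  {D : (M →ₘ[m] ℝ) → (M →ₘ[m] ℝ)} {HO : (M →ₘ[m] ℝ) → M → E →L[ℝ] E} {e : ℕ → M →ₘ[m] ℝ}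

/-- The sectional curvature bound on gradient fields, for weights that vanish outside `A`. -/
def PosOn (m : Measure M) (V : (M →ₘ[m] ℝ) → (M →ₘ[m] ℝ) → M → E) (κ : ℝ) (A : Set M) : Prop :=
  ∀ a ∈ (sob m).Test, ∀ b ∈ (sob m).Test, ∀ f ∈ (sob m).Test, 0 ≤ f →
    (∀ᵐ x ∂m, x ∉ A → f x = 0) → 0 ≤ I ((sob m).rkI (UUof m V) κ a b b a f)

theorem gr_zero (hD : IsDir (sob m)) (hG : IsGrad (sob m) Gr) {a : M →ₘ[m] ℝ}
    (ha : a ∈ (sob m).W) : ∀ᵐ x ∂m, a x = 0 → Gr a x = 0 := by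
  filter_upwards [hD.Γ_zero_ae ha, hG.inner a ha a ha] with x h1 h2 hx
  rw [h1 hx] at h2
  exact inner_self_eq_zero.1 h2

theorem secAt_of [SigmaFinite m] (hct : CtB (sob m) K N Gr V D) {A : Set M}
    (hpos : PosOn m V κ A) {a ψ : M →ₘ[m] ℝ} (ha : a ∈ (sob m).TestI) (hψ : ψ ∈ (sob m).TestI)
    (hψ0 : 0 ≤ ψ) (hψA : ∀ᵐ x ∂m, x ∉ A → ψ x = 0) (hψa : ∀ᵐ x ∂m, ψ x = 1 ∨ a x = 0) :
    SecAt (sob m) V κ a := by
  intro b hb w hw h0
  have hC := hct.gam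
  have hB : (sob m).BEi K := hC.bei hct.hN hct.be
  have hD := hC.toIsDir
  have aT := ha.1
  have bT := hb.1
  have aW := hC.tW aT
  have bW := hC.tW bT
  obtain ⟨f, hf⟩ : ∃ f : M →ₘ[m] ℝ, f = ψ + ψ * (w - 1) := ⟨_, rfl⟩
  have fI : f ∈ (sob m).TestI := hf ▸ hC.testI_add hB hψ (hC.testI_mul hB hψ hw)
  have fT := fI.1
  have ef : f = ψ * w := by rw [hf]; ring
  have fa : ∀ᵐ x ∂m, f x = ψ x * w x := by rw [ef]; exact mul_ae ψ w
  have f0 : 0 ≤ f := by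
    rw [nonneg_iff_ae] at hψ0 h0 ⊢
    filter_upwards [fa, hψ0, h0] with x h1 h2 h3
    rw [h1]; positivity
  have fA : ∀ᵐ x ∂m, x ∉ A → f x = 0 := by
    filter_upwards [fa, hψA] with x h1 h2 hx
    rw [h1, h2 hx, zero_mul]
  have key := hpos a aT b bT f fT f0 fA
  rw [hC.I_rkI hB hct.hu κ aT bT (hC.test_A fT)] at key
  -- the weights agree where `a ≠ 0`
  have t2 : ∀ H : M →ₘ[m] ℝ, (∀ᵐ x ∂m, a x = 0 → H x = 0) → f * H = w * H := by
    intro H hH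
    rw [eq_iff_ae]
    filter_upwards [mul_ae f H, mul_ae w H, fa, hH, hψa] with x h1 h2 h3 h4 h5
    rw [h1, h2, h3]
    rcases h5 with h5 | h5
    · rw [h5, one_mul]
    · rw [h4 h5, mul_zero, mul_zero]
  have t1 : ∀ c ∈ (sob m).Test, ∀ H : M →ₘ[m] ℝ, (∀ᵐ x ∂m, a x = 0 → H x = 0) →
      (sob m).De f c * H = ((sob m).Γ c (w - 1) + w * (sob m).lap c) * H := by
    intro c hc H hH
    have cW := hC.tW hc
    have wW := hC.tW hw.1
    unfold Calc.De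
    rw [add_mul, add_mul, hC.symm _ cW _ wW]
    congr 1
    · rw [eq_iff_ae]
      filter_upwards [mul_ae ((sob m).Γ f c) H, mul_ae ((sob m).Γ (w - 1) c) H, fa, hH, hψa,
        H183.Γ_loc hD (hC.tW fT) wW cW 1, sub_ae w 1, one_ae (M := M) (m := m)]
        with x h1 h2 h3 h4 h5 h6 h7 h8
      rw [h1, h2]
      rcases h5 with h5 | h5
      · rw [h6 (by rw [h3, h5, h7, h8]; ring)]
      · rw [h4 h5, mul_zero, mul_zero]
    · have := t2 ((sob m).lap c * H) (by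
        filter_upwards [mul_ae ((sob m).lap c) H, hH] with x h1 h2 hx
        rw [h1, h2 hx, mul_zero])
      rw [mul_assoc, mul_assoc, this]
  have z0 := hD.Γ_zero_ae aW
  have zG := gr_zero hD hct.grad aW
  have z1 : ∀ᵐ x ∂m, a x = 0 → (sob m).hess b b a x = 0 := by
    filter_upwards [hct.hd.hess b bT b bT a aT, z0] with x h1 h2 hx
    rw [h2 hx, Real.sqrt_zero, mul_zero] at h1
    exact abs_nonpos_iff.1 h1
  have z2 : ∀ᵐ x ∂m, a x = 0 → (sob m).hess b a a x = 0 := by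
    filter_upwards [hct.hd.hess b bT a aT a aT, z0] with x h1 h2 hx
    rw [h2 hx, Real.sqrt_zero, mul_zero] at h1
    exact abs_nonpos_iff.1 h1
  have zU : ∀ c ∈ (sob m).Test, ∀ᵐ x ∂m, a x = 0 → V c a x = 0 := by
    intro c hc
    filter_upwards [hct.hd.norm c hc a aT, zG] with x h1 h2 hx
    rw [h2 hx, norm_zero, mul_zero] at h1
    exact norm_le_zero_iff.1 h1
  have mV := fun {c d : M →ₘ[m] ℝ} (hc : c ∈ (sob m).Test) (hd : d ∈ (sob m).Test) =>
    (hct.hu.mem c hc d hd).1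
  have z3 : ∀ᵐ x ∂m, a x = 0 → ipE m (V a a) (V b b) x = 0 := by
    filter_upwards [ipE_ae (mV aT aT) (mV bT bT), zU a aT] with x h1 h2 hx
    rw [h1, h2 hx, inner_zero_left]
  have z4 : ∀ᵐ x ∂m, a x = 0 → ipE m (V a b) (V b a) x = 0 := by
    filter_upwards [ipE_ae (mV aT bT) (mV bT aT), zU b bT] with x h1 h2 hx
    rw [h1, h2 hx, inner_zero_right]
  have z5 : ∀ᵐ x ∂m, a x = 0 → ipE m (V b a) (V b a) x = 0 := by
    filter_upwards [ipE_ae (mV bT aT) (mV bT aT), zU b bT] with x h1 h2 hx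
    rw [h1, h2 hx, inner_zero_right]
  have z6 : ∀ᵐ x ∂m, a x = 0 → (sob m).Γ a b x = 0 := H183.Γ_loc0 hD aW bW 0
  rw [t1 a aT _ z1, t1 b bT _ z2, t2 _ z3, t2 _ z4, t2 _ z5, t2 _ z0, t2 _ z6] at key
  have wb : MemLp w ∞ m := by
    have h1 := hC.c1_mem (hC.test_A hw.1) 1
    have ew : (1 : ℝ) • (1 : M →ₘ[m] ℝ) + (w - 1) = w := by
      rw [one_smul]
      abel
    rwa [ew] at h1
  have g : ∀ {c d : M →ₘ[m] ℝ}, c ∈ (sob m).Test → d ∈ (sob m).Test → MemLp ((sob m).Γ c d) 2 m :=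
    fun hc hd => hC.memLp _ (hC.Γ_mem hB hc hd).1
  have i1 : MemLp (w * (sob m).Γ a a * (sob m).Γ b b) 1 m :=
    mem_mul_22 (mem_mul_top wb (g aT aT)) (g bT bT)
  have i2 : MemLp (w * (sob m).Γ a b * (sob m).Γ a b) 1 m :=
    mem_mul_22 (mem_mul_top wb (g aT bT)) (g aT bT)
  have e1 : w * ((sob m).Γ a a * (sob m).Γ b b - (sob m).Γ a b ^ 2) =
      w * (sob m).Γ a a * (sob m).Γ b b - w * (sob m).Γ a b * (sob m).Γ a b := by
    ring
  rw [e1, I_sub i1 i2]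
  unfold Calc.RR
  linarith

/-! ### locality of gradients and Hessians -/

theorem gr_loc (hD : IsDir (sob m)) (hG : IsGrad (sob m) Gr) {a h : M →ₘ[m] ℝ}
    (ha : a ∈ (sob m).W) (hh : h ∈ (sob m).W) : ∀ᵐ x ∂m, h x = a x → Gr h x = Gr a x := by
  filter_upwards [hG.inner a ha a ha, hG.inner h hh a ha, hG.inner h hh h hh,
    H183.Γ_loc hD hh ha ha 0, H183.Γ_loc2 hD hh ha hh ha 0 0] with x h1 h2 h3 h4 h5 hx
  have hx0 : h x - a x = 0 := sub_eq_zero.2 hx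
  rw [← sub_eq_zero, ← inner_self_eq_zero (𝕜 := ℝ), inner_sub_left, inner_sub_right,
    inner_sub_right, real_inner_comm (Gr h x) (Gr a x), h1, h2, h3, h4 hx0, h5 hx0 hx0]
  ring

theorem hess_zero (hC : IsGamma (sob m)) (hB : (sob m).BEi K) {b f g : M →ₘ[m] ℝ}
    (hb : b ∈ (sob m).Test) (hf : f ∈ (sob m).Test) (hg : g ∈ (sob m).Test) :
    ∀ᵐ x ∂m, b x = 0 → (sob m).hess b f g x = 0 := by
  have hD := hC.toIsDir
  have W := fun {x : M →ₘ[m] ℝ} (hx : x ∈ (sob m).Test) => hC.tW hx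
  have G := fun {x y : M →ₘ[m] ℝ} (hx : x ∈ (sob m).Test) (hy : y ∈ (sob m).Test) =>
    (hC.Γ_mem hB hx hy).1
  unfold Calc.hess
  rw [hC.symm _ (W hf) _ (G hb hg), hC.symm _ (W hg) _ (G hb hf)]
  filter_upwards [smul_ae ((sob m).Γ ((sob m).Γ b g) f + (sob m).Γ ((sob m).Γ b f) g
      - (sob m).Γ b ((sob m).Γ f g)) (2 : ℝ)⁻¹,
    sub_ae ((sob m).Γ ((sob m).Γ b g) f + (sob m).Γ ((sob m).Γ b f) g) ((sob m).Γ b ((sob m).Γ f g)),
    add_ae ((sob m).Γ ((sob m).Γ b g) f) ((sob m).Γ ((sob m).Γ b f) g),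
    H183.Γ_loc0 hD (W hb) (W hf) 0, H183.Γ_loc0 hD (W hb) (W hg) 0,
    H183.Γ_loc0 hD (G hb hg) (W hf) 0, H183.Γ_loc0 hD (G hb hf) (W hg) 0,
    H183.Γ_loc0 hD (W hb) (G hf hg) 0] with x h1 h2 h3 h4 h5 h6 h7 h8 hx
  rw [h1, h2, h3, h6 (h5 hx), h7 (h4 hx), h8 hx]
  simp

theorem orth_closure {g : ℕ → E} {v w : E} (h : ∀ i, ⟪v, g i⟫_ℝ = 0)
    (hw : w ∈ closure (Submodule.span ℝ (Set.range g) : Set E)) : ⟪v, w⟫_ℝ = 0 := by
  have hc : IsClosed {w : E | ⟪v, w⟫_ℝ = 0} :=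
    isClosed_eq (continuous_const.inner continuous_id) continuous_const
  refine closure_minimal (fun w hw => ?_) hc hw
  refine Submodule.span_induction (p := fun w _ => ⟪v, w⟫_ℝ = 0) ?_ ?_ ?_ ?_ hw
  · rintro _ ⟨i, rfl⟩; exact h i
  · exact inner_zero_right _
  · intro x y _ _ hx hy; rw [inner_add_right, hx, hy, add_zero]
  · intro c x _ hx; rw [inner_smul_right, hx, mul_zero]

theorem ho_zero (hC : IsGamma (sob m)) (hB : (sob m).BEi K) (hS : Stat (sob m) Gr HO e)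
    {b : M →ₘ[m] ℝ} (hb : b ∈ (sob m).Test) : ∀ᵐ x ∂m, b x = 0 → HO b x = 0 := by
  have eT := fun i => (hS.testI i).1
  have h1 : ∀ᵐ x ∂m, ∀ i j, b x = 0 → ⟪HO b x (Gr (e i) x), Gr (e j) x⟫_ℝ = 0 := by
    refine ae_all_iff.2 fun i => ae_all_iff.2 fun j => ?_
    filter_upwards [hS.hess.grad b hb _ (eT i) _ (eT j), hess_zero hC hB hb (eT i) (eT j)]
      with x a1 a2 hx
    rw [a1, a2 hx]
  filter_upwards [h1, hS.hess.symm b hb, hS.hess.range e eT hS.denseW b hb] with x a1 a2 a3 hx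
  have b1 : ∀ i, HO b x (Gr (e i) x) = 0 := fun i =>
    inner_self_eq_zero.1 (orth_closure (fun j => a1 i j hx) (a3 _))
  ext v
  refine inner_self_eq_zero.1 (orth_closure (g := fun i => Gr (e i) x) (fun j => ?_) (a3 v))
  rw [a2, b1, inner_zero_right]

theorem ho_loc (hC : IsGamma (sob m)) (hB : (sob m).BEi K) (hS : Stat (sob m) Gr HO e)
    {a h : M →ₘ[m] ℝ} (ha : a ∈ (sob m).Test) (hh : h ∈ (sob m).Test) :
    ∀ᵐ x ∂m, h x = a x → HO h x = HO a x := by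
  have hb := H154.test_sub' hC hB hh ha
  have h1 := hS.hess.lin _ hb _ ha 1
  rw [one_smul, sub_add_cancel] at h1
  filter_upwards [h1, ho_zero hC hB hS hb, sub_ae h a] with x a1 a2 a3 hx
  rw [a1, a2 (by rw [a3, hx, sub_self]), smul_zero, zero_add]

/-- a.e. statements along almost every curve of the flow -/
theorem flow_ae_ae [SFinite m] {Y : ℝ → M → M} (hF : RFlow m K N p s₀ C₀ Y) {q : M → Prop}
    (hq : ∀ᵐ y ∂m, q y) : ∀ᵐ x ∂m, ∀ᵐ t ∂(volume.restrict (Ioc (0 : ℝ) 1)), q (Y t x) := by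
  obtain ⟨Z, hZ1, hZ2, hZ3⟩ := exists_measurable_superset_of_null (ae_iff.1 hq)
  have h1 : ∀ᵐ t ∂(volume.restrict (Ioc (0 : ℝ) 1)), ∀ᵐ x ∂m, Y t x ∉ Z := by
    refine (ae_restrict_iff' measurableSet_Ioc).2 (Eventually.of_forall fun t ht => ?_)
    exact H183.flow_ae hF ht (q := fun y => y ∉ Z) (measure_eq_zero_iff_ae_notMem.1 hZ3)
  have h2 := (Measure.ae_ae_comm (μ := volume.restrict (Ioc (0 : ℝ) 1)) (ν := m)
    (p := fun t x => Y t x ∉ Z) (hF.meas hZ2.compl)).1 h1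
  filter_upwards [h2] with x hx
  filter_upwards [hx] with t ht
  by_contra hc
  exact ht (hZ1 hc)

theorem flow_ae_t {Y : ℝ → M → M} (hF : RFlow m K N p s₀ C₀ Y) {q : M → Prop}
    (hq : ∀ᵐ y ∂m, q y) : ∀ᵐ t ∂(volume.restrict (Ioc (0 : ℝ) 1)), ∀ᵐ x ∂m, q (Y t x) :=
  (ae_restrict_iff' measurableSet_Ioc).2 (Eventually.of_forall fun t ht => H183.flow_ae hF ht hq)

theorem zr_zero (hs : 0 < s₀) (hC0 : 0 < C₀) {x : M} (hx : r1 s₀ C₀ ≤ dist p x) :
    zr p s₀ C₀ 1 x = 0 := by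
  unfold zr
  refine min_eq_right ?_
  have h1 : 2 * C₀ * (1 + s₀) ≤ dist p x ^ 2 := by
    have h0 : 0 ≤ 2 * C₀ * (1 + s₀) := by positivity
    unfold r1 at hx
    calc 2 * C₀ * (1 + s₀) = √(2 * C₀ * (1 + s₀)) ^ 2 := (Real.sq_sqrt h0).symm
      _ ≤ dist p x ^ 2 := by gcongr
  rw [sub_nonneg, le_div_iff₀ (by positivity)]
  linarith

theorem zr_cont (p : M) (s₀ C₀ t : ℝ) : Continuous (zr p s₀ C₀ t) := by
  unfold zr
  fun_prop

/-- locality of the weak Hessian of a function `F` that vanishes outside `{χ' = 1}` -/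
theorem wH_loc (hC : IsGamma (sob m)) (hB : (sob m).BEi K) {F h a w χ' : M →ₘ[m] ℝ}
    (hF : F ∈ (sob m).W) (hh : h ∈ (sob m).Test) (ha : a ∈ (sob m).Test) (hw : w ∈ (sob m).Test)
    (hχ' : χ' ∈ (sob m).Test) (h1 : ∀ᵐ x ∂m, F x = 0 ∨ χ' x = 1)
    (h2 : ∀ᵐ x ∂m, χ' x ≠ 0 → h x = a x) :
    (sob m).wH F h w = (sob m).wH F a (χ' * w) := by
  have hD := hC.toIsDir
  have W := fun {x : M →ₘ[m] ℝ} (hx : x ∈ (sob m).Test) => hC.tW hx
  have G := fun {x y : M →ₘ[m] ℝ} (hx : x ∈ (sob m).Test) (hy : y ∈ (sob m).Test) =>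
    (hC.Γ_mem hB hx hy).1
  have hw' := hC.test_mul hB hχ' hw
  have e0 : H154.EqOn χ' h a := by
    unfold H154.EqOn
    rw [eq_iff_ae]
    filter_upwards [mul_ae χ' h, mul_ae χ' a, h2] with x a1 a2 a3
    rw [a1, a2]
    by_cases hx : χ' x = 0
    · rw [hx, zero_mul, zero_mul]
    · rw [a3 hx]
  have el : χ' * (sob m).lap h = χ' * (sob m).lap a := H154.EqOn.lap hC hB hχ' hh ha e0
  have e1 : (sob m).Γ F h * (w * (sob m).lap h + (sob m).Γ h w)
      = (sob m).Γ F a * (χ' * w * (sob m).lap a + (sob m).Γ a (χ' * w)) := by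
    rw [eq_iff_ae] at el ⊢
    have l1 := H183.Γ_loc hD (W hh) (W ha) hF 0
    rw [hC.symm _ (W hh) _ hF, hC.symm _ (W ha) _ hF] at l1
    filter_upwards [mul_ae ((sob m).Γ F h) (w * (sob m).lap h + (sob m).Γ h w),
      mul_ae ((sob m).Γ F a) (χ' * w * (sob m).lap a + (sob m).Γ a (χ' * w)),
      add_ae (w * (sob m).lap h) ((sob m).Γ h w),
      add_ae (χ' * w * (sob m).lap a) ((sob m).Γ a (χ' * w)),
      mul_ae w ((sob m).lap h), mul_ae (χ' * w) ((sob m).lap a), mul_ae χ' w,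
      mul_ae χ' ((sob m).lap h), mul_ae χ' ((sob m).lap a), el, h1, h2, l1,
      H183.Γ_loc0 hD hF (W hh) 0, H183.Γ_loc0 hD hF (W ha) 0,
      H183.Γ_loc2 hD (W hh) (W ha) (W hw) (W hw') 0 0]
      with x a1 a2 a3 a4 a5 a6 a7 a8 a9 b0 b1 b2 b3 b4 b5 b6
    rw [a1, a2]
    rcases b1 with b1 | b1
    · rw [b4 b1, b5 b1, zero_mul, zero_mul]
    · have c1 : h x - a x = 0 := sub_eq_zero.2 (b2 (by rw [b1]; exact one_ne_zero))
      rw [a8, a9, b1, one_mul, one_mul] at b0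
      rw [a3, a4, a5, a6, a7, b3 c1, b6 c1 (by rw [a7, b1, one_mul, sub_self]), b0, b1, one_mul]
  have e2 : w * (sob m).Γ F ((sob m).Γ h h) = χ' * w * (sob m).Γ F ((sob m).Γ a a) := by
    rw [eq_iff_ae]
    have l1 := H183.Γ_loc hD (G hh hh) (G ha ha) hF 0
    rw [hC.symm _ (G hh hh) _ hF, hC.symm _ (G ha ha) _ hF] at l1
    filter_upwards [mul_ae w ((sob m).Γ F ((sob m).Γ h h)),
      mul_ae (χ' * w) ((sob m).Γ F ((sob m).Γ a a)), mul_ae χ' w, h1, h2, l1,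
      H183.Γ_loc0 hD hF (G hh hh) 0, H183.Γ_loc0 hD hF (G ha ha) 0,
      H183.Γ_loc2 hD (W hh) (W ha) (W hh) (W ha) 0 0] with x a1 a2 a3 b1 b2 b3 b4 b5 b6
    rw [a1, a2]
    rcases b1 with b1 | b1
    · rw [b4 b1, b5 b1, mul_zero, mul_zero]
    · have c1 : h x - a x = 0 := sub_eq_zero.2 (b2 (by rw [b1]; exact one_ne_zero))
      rw [b3 (sub_eq_zero.2 (b6 c1 c1)), a3, b1, one_mul]
  unfold Calc.wH
  rw [e1, e2]

/-- The output of part C for the cut fields `c • Hs`, from the Riccati inequality for the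
functions `χ h` only. -/
theorem cout_cut (hyp : CHyp M m K N P p s₀ C₀) (hE : EHyp m K N Gr V D HO e)
    (hC : IsGamma (sob m)) (hB : (sob m).BEi K) {U : Ultrafilter ℕ}
    {u : ℕ → ℝ → M →ₘ[m] ℝ} {φ : (M →ₘ[m] ℝ) → ℕ → ℝ → M →ₘ[m] ℝ} {φ₀ ρ : ℝ → M →ₘ[m] ℝ}
    {R : ℝ → ℝ → (M →ₘ[m] ℝ) → (M →ₘ[m] ℝ)} {Y : ℝ → M → M} (hLim : Lim m K N p s₀ C₀ φ₀ ρ R)
    (hMaps : Maps ρ R Y) (hF : RFlow m K N p s₀ C₀ Y) (hSec : Second m Gr HO p s₀ C₀ Y)
    {Hs : (M →ₘ[m] ℝ) → ℝ → M → E} {Λ : ℝ → M → ℝ} (hH : HLim m U Gr V u φ Y e Hs Λ)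
    {χ χ' : M →ₘ[m] ℝ} (hχ : χ ∈ (sob m).TestI) (hχ' : χ' ∈ (sob m).TestI) (h0 : 0 ≤ χ')
    (h1 : χ' ≤ 1) (hin : ∀ᵐ x ∂m, dist p x < r1 s₀ C₀ → χ' x = 1)
    (hχχ : ∀ᵐ x ∂m, χ' x ≠ 0 → χ x = 1)
    (hR : ∀ h ∈ (sob m).TestI, RicAt m κ Gr HO p s₀ C₀ Y Hs (χ * h)) :
    ∃ Hs', COut m K N κ Gr HO e p s₀ C₀ φ₀ ρ R Y Hs' Λ := by
  classical
  haveI : SigmaFinite m := sigmaFinite_of_ball hyp.std.hfin
  have hD := hC.toIsDir
  have hS := hE.stat
  obtain ⟨c, hc⟩ : ∃ c : M → ℝ, c = fun y => if dist p y < r1 s₀ C₀ then 1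
      else max 0 (min 1 (χ' y)) := ⟨_, rfl⟩
  have cm : Measurable c := by
    rw [hc]
    exact Measurable.ite (measurableSet_lt (continuous_const.dist continuous_id).measurable
      measurable_const) measurable_const
      (measurable_const.max (measurable_const.min χ'.measurable))
  have c0 : ∀ y, 0 ≤ c y := by
    intro y; rw [hc]; dsimp only; split_ifs
    · exact zero_le_one
    · exact le_max_left _ _
  have c1 : ∀ y, c y ≤ 1 := by
    intro y; rw [hc]; dsimp only; split_ifs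
    · exact le_rfl
    · exact max_le zero_le_one (min_le_left _ _)
  have cin : ∀ y, dist p y < r1 s₀ C₀ → c y = 1 := by
    intro y hy; rw [hc]; dsimp only; rw [if_pos hy]
  have cχ : ∀ᵐ y ∂m, c y = χ' y := by
    filter_upwards [nonneg_iff_ae.1 h0, le_iff_ae.1 h1, one_ae (M := M) (m := m), hin]
      with y a1 a2 a3 a4
    rw [a3] at a2
    rw [hc]; dsimp only; split_ifs with hy
    · exact (a4 hy).symm
    · rw [min_eq_right a2, max_eq_right a1]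
  -- the flow stays in the ball
  have stay : ∀ᵐ x ∂m, dist p x < r1 s₀ C₀ → ∀ t ∈ Icc (0 : ℝ) 1, c (Y t x) = 1 := by
    filter_upwards [hF.rad] with x hx hb t ht
    refine cin _ (lt_of_le_of_lt ?_ hb)
    rw [hx hb t ht]
    unfold spd1
    have hs := hyp.hs
    rw [← mul_div_assoc, div_le_iff₀ (by positivity)]
    nlinarith [dist_nonneg (x := p) (y := x), ht.2]
  have cY : ∀ᵐ x ∂m, ∀ t ∈ Icc (0 : ℝ) 1, c (Y t x) = χ' x := by
    filter_upwards [stay, cχ, hin] with x a1 a2 a3 t ht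
    by_cases hx : dist p x < r1 s₀ C₀
    · rw [a1 hx t ht, a3 hx]
    · rw [hF.off x (not_lt.1 hx), a2]
  -- locality
  have aI : ∀ h ∈ (sob m).TestI, χ * h ∈ (sob m).TestI := fun h hh => hC.testI_mul hB hχ hh
  have eqa : ∀ h : M →ₘ[m] ℝ, ∀ᵐ y ∂m, c y ≠ 0 → h y = (χ * h) y := by
    intro h
    filter_upwards [cχ, hχχ, mul_ae χ h] with y a1 a2 a3 hy
    rw [a3, a2 (a1 ▸ hy), one_mul]
  have eG : ∀ h ∈ (sob m).TestI, ∀ᵐ y ∂m, c y ≠ 0 → Gr h y = Gr (χ * h) y := by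
    intro h hh
    filter_upwards [eqa h, gr_loc hD hS.grad (hC.tW (aI h hh).1) (hC.tW hh.1)] with y a1 a2 hy
    exact a2 (a1 hy)
  have eH : ∀ h ∈ (sob m).TestI, ∀ᵐ y ∂m, c y ≠ 0 → HO h y = HO (χ * h) y := by
    intro h hh
    filter_upwards [eqa h, ho_loc hC hB hS (aI h hh).1 hh.1] with y a1 a2 hy
    exact a2 (a1 hy)
  have eS : ∀ h ∈ (sob m).TestI, ∀ᵐ t ∂(volume.restrict (Ioc (0 : ℝ) 1)), ∀ᵐ x ∂m,
      c (Y t x) ≠ 0 → Hs h t (Y t x) = Hs (χ * h) t (Y t x) := by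
    intro h hh
    have bI : h - χ * h ∈ (sob m).TestI := by
      have := hC.testI_add hB hh (hC.testI_smul hB (-1) (aI h hh))
      rwa [neg_one_smul, ← sub_eq_add_neg] at this
    have z : ∀ᵐ y ∂m, c y ≠ 0 → Gr (h - χ * h) y = 0 := by
      filter_upwards [eqa h, gr_zero hD hS.grad (hC.tW bI.1), sub_ae h (χ * h)] with y a1 a2 a3 hy
      exact a2 (by rw [a3, ← a1 hy, sub_self])
    have l := hH.lin _ (aI h hh) _ bI 1
    rw [one_smul, add_sub_cancel] at l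
    filter_upwards [l, hH.bd _ bI, flow_ae_t hF z] with t a1 a2 a3
    filter_upwards [a1, a2, a3] with x b1 b2 b3 hx
    rw [b3 hx, norm_zero, mul_zero] at b2
    rw [b1, norm_le_zero_iff.1 b2, smul_zero, add_zero]
  have eS' : ∀ h ∈ (sob m).TestI, ∀ᵐ x ∂m, ∀ᵐ t ∂(volume.restrict (Ioc (0 : ℝ) 1)),
      c (Y t x) ≠ 0 → Hs h t (Y t x) = Hs (χ * h) t (Y t x) := by
    intro h hh
    refine (Measure.ae_ae_comm (μ := volume.restrict (Ioc (0 : ℝ) 1)) (ν := m)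
      (p := fun t x => c (Y t x) ≠ 0 → Hs h t (Y t x) = Hs (χ * h) t (Y t x)) ?_).1 (eS h hh)
    have mY : Measurable fun z : ℝ × M => (z.1, Y z.1 z.2) := measurable_fst.prodMk hF.meas
    have m1 := ((hH.meas h hh).comp_measurable mY).measurableSet_eq_fun
      ((hH.meas _ (aI h hh)).comp_measurable mY)
    have m2 : MeasurableSet {z : ℝ × M | c (Y z.1 z.2) = 0} :=
      measurableSet_eq_fun (cm.comp hF.meas) measurable_const
    convert m2.union m1 using 1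
    ext z
    simp only [mem_setOf_eq, mem_union, Function.comp]
    tauto
  refine ⟨fun h t y => c y • Hs h t y, hLim, hMaps, hF, hSec, ?_, hH.measΛ, hH.nonneg, hH.int,
    ?_, ?_, ?_, ?_, ?_, ?_, ?_⟩
  · intro h hh
    exact (cm.comp measurable_snd).stronglyMeasurable.smul (hH.meas h hh)
  · intro h hh
    filter_upwards [hH.bd h hh] with t ht
    filter_upwards [ht] with x hx
    rw [norm_smul, Real.norm_eq_abs, abs_of_nonneg (c0 _)]
    exact (mul_le_of_le_one_left (norm_nonneg _) (c1 _)).trans hx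
  · intro h hh h' hh' a
    filter_upwards [hH.lin h hh h' hh' a] with t ht
    filter_upwards [ht] with x hx
    rw [hx, smul_add, smul_comm]
  · intro h hh h' hh'
    filter_upwards [hH.sym h hh h' hh'] with t ht
    filter_upwards [ht] with x hx
    rw [real_inner_smul_left, real_inner_smul_left, hx]
  · intro h hh
    filter_upwards [hH.span h hh] with t ht
    filter_upwards [ht] with x hx
    exact Submodule.smul_mem _ _ hx
  · intro h hh
    filter_upwards [(hR h hh).ric, stay, eS' h hh, flow_ae_ae hF (eG h hh),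
      flow_ae_ae hF (eH h hh)] with x a1 a2 a3 a4 a5 hx
    have a6 : ∀ᵐ t ∂(volume.restrict (Ioc (0 : ℝ) 1)),
        c (Y t x) • Hs h t (Y t x) = Hs (χ * h) t (Y t x) ∧ Gr h (Y t x) = Gr (χ * h) (Y t x) ∧
          HO h (Y t x) = HO (χ * h) (Y t x) := by
      filter_upwards [a3, a4, a5, ae_restrict_mem measurableSet_Ioc] with t b1 b2 b3 ht
      have b4 := a2 hx t (Ioc_subset_Icc_self ht)
      have b5 : c (Y t x) ≠ 0 := by rw [b4]; exact one_ne_zero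
      exact ⟨by rw [b4, one_smul, b1 b5], b2 b5, b3 b5⟩
    filter_upwards [a1 hx, a6, ae_restrict_mem measurableSet_Ioc] with s b1 b2 hs
    filter_upwards [b1, a6, ae_restrict_mem measurableSet_Ioc] with t d1 d2 ht hst
    rw [b2.1, b2.2.1, d2.1, d2.2.1]
    refine (d1 hst).trans (le_of_eq (intervalIntegral.integral_congr_ae ?_))
    filter_upwards [(ae_restrict_iff' measurableSet_Ioc).1 a6] with τ d3 hτ
    rw [uIoc_of_le hst.le] at hτ
    have d4 := d3 ⟨hs.1.trans hτ.1, hτ.2.trans ht.2⟩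
    rw [d4.1, d4.2.1, d4.2.2]
  · intro h hh
    filter_upwards [(hR h hh).ricOff, eS' h hh, eG h hh] with x a1 a3 a4 hx
    by_cases hcx : c x = 0
    · refine Eventually.of_forall fun s => Eventually.of_forall fun t _ => ?_
      simp [hcx]
    have a6 : ∀ᵐ t ∂(volume.restrict (Ioc (0 : ℝ) 1)), Hs h t x = Hs (χ * h) t x := by
      filter_upwards [a3] with t b1
      rw [hF.off x hx] at b1
      exact b1 hcx
    filter_upwards [a1 hx, a6, ae_restrict_mem measurableSet_Ioc] with s b1 b2 hs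
    filter_upwards [b1, a6, ae_restrict_mem measurableSet_Ioc] with t d1 d2 ht hst
    have d3 := d1 hst
    have d4 : ∫ τ in s..t, -‖c x • Hs h τ x‖ ^ 2
        = c x ^ 2 * ∫ τ in s..t, -‖Hs (χ * h) τ x‖ ^ 2 := by
      rw [← intervalIntegral.integral_const_mul]
      refine intervalIntegral.integral_congr_ae ?_
      filter_upwards [(ae_restrict_iff' measurableSet_Ioc).1 a6] with τ d3 hτ
      rw [uIoc_of_le hst.le] at hτ
      rw [d3 ⟨hs.1.trans hτ.1, hτ.2.trans ht.2⟩, norm_smul, Real.norm_eq_abs, mul_pow, sq_abs]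
      ring
    have d5 : ∫ τ in s..t, -‖Hs (χ * h) τ x‖ ^ 2 ≤ 0 := by
      rw [intervalIntegral.integral_neg, neg_nonpos]
      exact intervalIntegral.integral_nonneg hst.le fun τ _ => sq_nonneg _
    rw [d4, real_inner_smul_left, real_inner_smul_left, b2, d2, a4 hcx, ← mul_sub]
    have d6 := mul_le_mul_of_nonneg_left d3 (c0 x)
    have d7 : c x ^ 2 ≤ c x := by nlinarith [c0 x, c1 x]
    nlinarith [mul_le_mul_of_nonpos_right d7 d5]
  · intro h hh w hw hw0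
    have w' : χ' * w ∈ (sob m).TestI := hC.testI_mul hB hχ' hw
    have w0 : 0 ≤ χ' * w := by
      rw [nonneg_iff_ae] at h0 hw0 ⊢
      filter_upwards [h0, hw0, mul_ae χ' w] with x a1 a2 a3
      rw [a3]; positivity
    obtain ⟨A, hA⟩ := (hR h hh).fin _ w' w0
    refine ⟨A, ?_⟩
    have sub : Ioo (1 / 2 : ℝ) 1 ⊆ Ioc 0 1 := fun s hs => ⟨by linarith [hs.1], hs.2.le⟩
    have ew : (sob m).wH (zc m p s₀ C₀ 1) h w = (sob m).wH (zc m p s₀ C₀ 1) (χ * h) (χ' * w) := by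
      refine wH_loc hC hB (hLim.z_mem 1 ⟨zero_le_one, le_rfl⟩).1 hh.1 (aI h hh).1 hw.1 hχ'.1 ?_ ?_
      · filter_upwards [H183.cl_cont (m := m) (zr_cont p s₀ C₀ 1), hin] with x a1 a2
        by_cases hx : dist p x < r1 s₀ C₀
        · exact Or.inr (a2 hx)
        · left
          unfold zc
          rw [a1, zr_zero hyp.hs hyp.hC0 (not_lt.1 hx)]
      · filter_upwards [eqa h, cχ] with x a1 a2 hx
        exact a1 (a2 ▸ hx)
    filter_upwards [hA, ae_restrict_of_ae_restrict_of_subset sub (eS h hh),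
      ae_restrict_of_ae_restrict_of_subset sub (flow_ae_t hF (eG h hh)),
      ae_restrict_mem measurableSet_Ioo] with s a1 a2 a3 hs
    have ee : (fun x => (χ' * w : M →ₘ[m] ℝ) x * ⟪Hs (χ * h) s (Y s x), Gr (χ * h) (Y s x)⟫_ℝ)
        =ᵐ[m] fun x => w x * ⟪c (Y s x) • Hs h s (Y s x), Gr h (Y s x)⟫_ℝ := by
      filter_upwards [a2, a3, cY, mul_ae χ' w] with x b1 b2 b3 b4
      have b5 := b3 s (Ioc_subset_Icc_self (sub hs))
      rw [b4, real_inner_smul_left, ← b5]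
      by_cases hx : c (Y s x) = 0
      · rw [hx]; ring
      · rw [b1 hx, b2 hx]; ring
    refine ⟨a1.1.congr ee, ?_⟩
    rw [ew, ← integral_congr_ae ee]
    exact a1.2

end Vale.Agent.P233.Nw
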