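import Vale.Agent.N233.Loc

/-! P233, local form. In an `RCD(K,n)` space with the measure `Hⁿ` (any `K`), a sectional curvature
bound for weights supported in a ball gives triangle comparison near the centre of the ball. -/

set_option linter.all false

open MeasureTheory Filter Topology Set
open scoped ENNReal NNReal InnerProductSpace MeasureTheory

universe u

namespace Vale.Agent.P233.Nw

open Vale.Agent.P233.PC Vale.Agent.P233.H329.Nw Vale.Agent.P233.PF
open Vale.Agent.P233.PA (en OutA PotLim)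

/-! ### the metric part -/

section metric

variable {M : Type u} [MetricSpace M] [MeasurableSpace M] {m : Measure M}

open H616 in
theorem pw_ae_loc [ProperSpace M] {κ R R' Λ₀ : ℝ} (hR : Adm κ R) {w p : M}
    (key : ∀ k : ℕ, ∃ Y : ℝ → M → M, ∀ᵐ x ∂m, dist w x < R' →
      (∀ t ∈ Ioc (0 : ℝ) 1, dist w (Y t x) = (t + ((k : ℝ) + 1)⁻¹) / (1 + ((k : ℝ) + 1)⁻¹) * dist w x ∧
        dist (Y t x) x = (1 - t) / (1 + ((k : ℝ) + 1)⁻¹) * dist w x) ∧
      ConcAt κ p R Λ₀ w ((k : ℝ) + 1)⁻¹ Y x) :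
    ∀ᵐ x ∂m, dist w x < R' → (dist w p + dist p x + dist x w) / 2 < R →
      ∀ s ∈ Ioo 0 (dist w x), PW κ w p x s := by
  choose Y hY using key
  filter_upwards [ae_all_iff.2 hY] with x hx hwx hN1 s hs
  have hper : √κ * (dist w p + dist p x + dist x w) < 2 * Real.pi := by
    have h1 := mul_le_mul_of_nonneg_left hN1.le (Real.sqrt_nonneg κ)
    have h2 := hR.2
    linarith
  have hL : 0 < dist w x := hs.1.trans hs.2
  obtain ⟨L, hLe⟩ : ∃ L, L = dist w x := ⟨_, rfl⟩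
  obtain ⟨e, he⟩ : ∃ e : ℕ → ℝ, e = fun k : ℕ => ((k : ℝ) + 1)⁻¹ := ⟨_, rfl⟩
  have he0 : ∀ k, 0 < e k := fun k => by rw [he]; positivity
  have helim : Tendsto e atTop (𝓝 0) := by
    rw [he]
    simpa [one_div] using tendsto_one_div_add_atTop_nhds_zero_nat (𝕜 := ℝ)
  obtain ⟨T, hT⟩ : ∃ T : ℕ → ℝ, T = fun k : ℕ => s * (1 + e k) / L - e k := ⟨_, rfl⟩
  have hTlim : Tendsto T atTop (𝓝 (s / L)) := by
    rw [hT]
    have h1 : Tendsto (fun k => s * (1 + e k) / L - e k) atTop (𝓝 (s * (1 + 0) / L - 0)) :=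
      ((tendsto_const_nhds.mul (tendsto_const_nhds.add helim)).div_const L).sub helim
    simpa using h1
  have hL' : 0 < L := hLe ▸ hL
  have hsL : s < L := hLe ▸ hs.2
  have hev : ∀ᶠ k in atTop, e k ≤ T k ∧ e k < 1 := by
    have h1 : ∀ᶠ k in atTop, e k < s / L / 2 :=
      helim.eventually_lt_const (by have := div_pos hs.1 hL'; linarith)
    have h2 : ∀ᶠ k in atTop, s / L / 2 < T k :=
      hTlim.eventually_const_lt (by have := div_pos hs.1 hL'; linarith)
    have h3 : ∀ᶠ k in atTop, e k < 1 := helim.eventually_lt_const one_pos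
    filter_upwards [h1, h2, h3] with k h1 h2 h3
    exact ⟨(h1.trans h2).le, h3⟩
  have hTle : ∀ k, T k ≤ 1 := by
    intro k
    have h1 := he0 k
    rw [hT]
    have h2 : s * (1 + e k) / L ≤ 1 + e k := by
      rw [div_le_iff₀ hL']; nlinarith
    simp only
    linarith
  refine PW.of_tendsto (x' := fun _ => x) (a := fun k => dist p (Y k (e k) x))
    (b := fun _ => dist p x) (s' := fun k => L / (1 + e k) * (T k - e k))
    (t' := fun k => L / (1 + e k) * (1 - T k)) (z := fun k => Y k (T k) x)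
    tendsto_const_nhds ?_ tendsto_const_nhds ?_ ?_ ?_
  · have h1 : Tendsto (fun k => dist w (Y k (e k) x)) atTop (𝓝 0) := by
      have h2 : Tendsto (fun k => (e k + e k) / (1 + e k) * L) atTop
          (𝓝 ((0 + 0) / (1 + 0) * L)) :=
        ((helim.add helim).div (tendsto_const_nhds.add helim) (by norm_num)).mul_const L
      simp only [add_zero, zero_div, zero_mul] at h2
      refine h2.congr' ?_
      filter_upwards [hev] with k hk
      have h3 := ((hx k hwx).1 (e k) ⟨he0 k, hk.2.le⟩).1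
      rw [he, hLe]
      rw [he] at h3
      exact h3.symm
    have h2 : Tendsto (fun k => Y k (e k) x) atTop (𝓝 w) := by
      rw [tendsto_iff_dist_tendsto_zero]
      exact h1.congr fun k => dist_comm _ _
    exact tendsto_const_nhds.dist h2
  · have h1 : Tendsto (fun k => L / (1 + e k) * (T k - e k)) atTop
        (𝓝 (L / (1 + 0) * (s / L - 0))) :=
      (tendsto_const_nhds.div (tendsto_const_nhds.add helim) (by norm_num)).mul
        (hTlim.sub helim)
    have h2 : L / (1 + 0) * (s / L - 0) = s := by field_simp; ring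
    rwa [h2] at h1
  · have h1 : ∀ k, L / (1 + e k) * (1 - T k) = dist w x - s := by
      intro k
      have h2 : 1 + e k ≠ 0 := by have := he0 k; positivity
      rw [hT, ← hLe]
      field_simp
      ring
    simp only [h1]
    exact tendsto_const_nhds
  · filter_upwards [hev] with k hk
    have hTk : T k ∈ Ioc (0 : ℝ) 1 := ⟨(he0 k).trans_le hk.1, hTle k⟩
    have h2 : 1 + e k ≠ 0 := by have := he0 k; positivity
    obtain ⟨hr1, hr2⟩ := (hx k hwx).1 (T k) hTk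
    have hek : ((k : ℝ) + 1)⁻¹ = e k := by rw [he]
    rw [hek, ← hLe] at hr1 hr2
    refine ⟨?_, ?_, ?_⟩
    · rw [hr1, hT]; field_simp; ring
    · rw [hr2, hT, ← hLe]; field_simp; ring
    · have h3 := cmp_of_concAt (κ := κ) (p := p) (q := w) (x := x) (R := R) (Λ₀ := Λ₀)
        (s₀ := ((k : ℝ) + 1)⁻¹) (Y := Y k) (by positivity) hL (hx k hwx).1 (hx k hwx).2
        hN1 hper (a := e k) (t := T k) (he0 k) hk.1 (hTle k) hk.2
      rw [hek, ← hLe] at h3
      exact h3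

open H616 in
theorem pw_loc [ProperSpace M] (hm : m.IsOpenPosMeasure) {κ R : ℝ} {w p : M}
    (hgood : ∀ᵐ x ∂m, (dist w p + dist p x + dist x w) / 2 < R →
      ∀ s ∈ Ioo 0 (dist w x), PW κ w p x s) {x : M}
    (hper : (dist w p + dist p x + dist x w) / 2 < R) :
    ∀ s ∈ Icc 0 (dist w x), PW κ w p x s := by
  intro s hs
  rcases hs.1.eq_or_lt with h0 | h0
  · rw [← h0]; exact PW.zero κ w p x
  rcases hs.2.eq_or_lt with h1 | h1
  · rw [h1]; exact PW.full κ w p x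
  have hm' : ∀ x : M, ∀ r > 0, m (Metric.ball x r) ≠ 0 := fun x r hr =>
    (Metric.isOpen_ball.measure_pos m ⟨x, Metric.mem_ball_self hr⟩).ne'
  choose y hy1 hy2 using fun k : ℕ =>
    H933.exists_ball_of_ae hm' hgood x (r := 1 / ((k : ℝ) + 1)) (by positivity)
  have hylim : Tendsto y atTop (𝓝 x) := by
    rw [tendsto_iff_dist_tendsto_zero]
    refine squeeze_zero (fun _ => dist_nonneg) (fun k => (hy1 k).le)
      (tendsto_one_div_add_atTop_nhds_zero_nat (𝕜 := ℝ))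
  have hper' : ∀ᶠ k in atTop, (dist w p + dist p (y k) + dist (y k) w) / 2 < R := by
    have : Tendsto (fun k => (dist w p + dist p (y k) + dist (y k) w) / 2) atTop
        (𝓝 ((dist w p + dist p x + dist x w) / 2)) :=
      ((tendsto_const_nhds.add (tendsto_const_nhds.dist hylim)).add
        (hylim.dist tendsto_const_nhds)).div_const 2
    exact this.eventually_lt_const hper
  have hs' : ∀ᶠ k in atTop, s < dist w (y k) := by
    have : Tendsto (fun k => dist w (y k)) atTop (𝓝 (dist w x)) :=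
      tendsto_const_nhds.dist hylim
    exact this.eventually_const_lt h1
  have hz : ∀ k : ℕ, ∃ z : M, ((dist w p + dist p (y k) + dist (y k) w) / 2 < R ∧
      s < dist w (y k)) → (dist w z = s ∧ dist z (y k) = dist w (y k) - s ∧
        T.Cmp κ (dist p w) (dist p (y k)) s (dist w (y k) - s) (dist p z)) := by
    intro k
    by_cases hc : (dist w p + dist p (y k) + dist (y k) w) / 2 < R ∧ s < dist w (y k)
    · obtain ⟨z, hz⟩ := hy2 k hc.1 s ⟨h0, hc.2⟩
      exact ⟨z, fun _ => hz⟩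
    · exact ⟨w, fun h => absurd h hc⟩
  choose z hz using hz
  refine PW.of_tendsto (x' := y) (a := fun _ => dist p w) (b := fun k => dist p (y k))
    (s' := fun _ => s) (t' := fun k => dist w (y k) - s) (z := z) hylim tendsto_const_nhds
    (tendsto_const_nhds.dist hylim) tendsto_const_nhds
    ((tendsto_const_nhds.dist hylim).sub_const s) ?_
  filter_upwards [hper', hs'] with k h1 h2
  exact hz k ⟨h1, h2⟩

open H933 in
/-- radial concavity for the centres in a ball and the first variation formula give triangle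
comparison in the ball -/
theorem cmp_loc (hm : m.IsOpenPosMeasure) {κ δ : ℝ} {z : M} {G : M → M → M → ℝ}
    (hκ : √κ * (4 * δ) < Real.pi) (hQ : FirstVar m G)
    (hP : ∀ p, dist z p < δ → ∀ w x : M, (dist w p + dist p x + dist x w) / 2 < 4 * δ →
      ∀ s ∈ Icc 0 (dist w x), H616.PW κ w p x s)
    {p x y w : M} (hp : dist z p < δ) (hx : dist z x < δ) (hy : dist z y < δ)
    (hw : dist x w + dist w y = dist x y) :
    T.Cmp κ (dist p x) (dist p y) (dist x w) (dist w y) (dist p w) := by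
  have hm' : ∀ x : M, ∀ r > 0, m (Metric.ball x r) ≠ 0 := fun x r hr =>
    (Metric.isOpen_ball.measure_pos m ⟨x, Metric.mem_ball_self hr⟩).ne'
  have hk : 0 ≤ √κ := Real.sqrt_nonneg _
  have hinge : ∀ p x : M, dist z p < δ → dist z x < δ → ∀ᵐ w ∂m, w ≠ x → dist z w < 2 * δ →
      Hinge κ (dist w p) (dist w x) (dist p x) (G p x w) := by
    intro p x hp hx
    filter_upwards [hQ.1 p x] with w hw hwx hzw
    have h2 := hP p hp w x (by
      have a1 := dist_triangle w z p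
      have a2 := dist_triangle p z x
      have a3 := dist_triangle x z w
      rw [dist_comm w z] at a1
      rw [dist_comm p z] at a2
      rw [dist_comm x z] at a3
      linarith)
    classical
    have h3 : ∀ s : ℝ, ∃ v : M, s ∈ Icc 0 (dist w x) → (dist w v = s ∧ dist v x = dist w x - s ∧
        T.Cmp κ (dist p w) (dist p x) s (dist w x - s) (dist p v)) := by
      intro s
      by_cases hs : s ∈ Icc 0 (dist w x)
      · obtain ⟨v, hv⟩ := h2 s hs
        exact ⟨v, fun _ => hv⟩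
      · exact ⟨w, fun h => absurd h hs⟩
    choose σ hσ' using h3
    have hσ : ∀ s ∈ Icc 0 (dist w x), dist w (σ s) = s ∧ dist (σ s) x = dist w x - s :=
      fun s hs => ⟨(hσ' s hs).1, (hσ' s hs).2.1⟩
    have h1 := hw σ hwx hσ
    have hL : 0 < dist w x := dist_pos.2 hwx
    have h0 : σ 0 = w := (dist_eq_zero.1 (hσ 0 ⟨le_rfl, hL.le⟩).1).symm
    rw [dist_comm w p]
    refine H933.hinge_of_cmp (r := fun s => dist p (σ s)) hL (by simp [h0])
      (fun s hs => (hσ' s hs).2.2) ?_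
    rw [hasDerivWithinAt_iff_tendsto_slope' (by simp)]
    refine h1.congr fun s => ?_
    rw [slope_def_field, sub_zero]
    simp only [h0]
  have hGram : ∀ᵐ w ∂m, Gram3 (G p x w) (G p y w) (G x y w) := by
    filter_upwards [hQ.2 p x y, hQ.2 y p x] with w h1 h2 s t r
    have h3 := h1.2.2 s t r
    rw [h2.2.1] at h3
    linarith
  rcases (dist_nonneg (x := x) (y := w)).eq_or_lt with hs | hs
  · have hwx : x = w := dist_eq_zero.1 hs.symm
    subst hwx
    refine ⟨fun _ => ?_, fun _ => ?_, fun _ => ?_⟩ <;> simp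
  rcases (dist_nonneg (x := w) (y := y)).eq_or_lt with ht | ht
  · have hwy : w = y := dist_eq_zero.1 ht.symm
    subst hwy
    refine ⟨fun _ => ?_, fun _ => ?_, fun _ => ?_⟩ <;> simp
  have hwx : w ≠ x := fun h => by rw [h, dist_self] at hs; exact lt_irrefl _ hs
  have hwy : w ≠ y := fun h => by rw [h, dist_self] at ht; exact lt_irrefl _ ht
  have hxy : dist x y < 2 * δ := by
    have := dist_triangle x z y
    rw [dist_comm x z] at this
    linarith
  have hzw : dist z w < 2 * δ := by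
    have a1 := dist_triangle z x w
    have a2 := dist_triangle z y w
    rw [dist_comm y w] at a2
    linarith
  have hpi : √κ * (dist x w + dist w y) < Real.pi := by
    refine lt_of_le_of_lt (mul_le_mul_of_nonneg_left ?_ hk) hκ
    have := dist_nonneg (x := x) (y := y)
    linarith
  have hall : ∀ᵐ v ∂m, Gram3 (G p x v) (G p y v) (G x y v) ∧
      (v ≠ x → dist z v < 2 * δ → Hinge κ (dist v p) (dist v x) (dist p x) (G p x v)) ∧
      (v ≠ y → dist z v < 2 * δ → Hinge κ (dist v p) (dist v y) (dist p y) (G p y v)) ∧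
      (v ≠ y → dist z v < 2 * δ → Hinge κ (dist v x) (dist v y) (dist x y) (G x y v)) := by
    filter_upwards [hGram, hinge p x hp hx, hinge p y hp hy, hinge x y hx hy] with v a1 a2 a3 a4
    exact ⟨a1, a2, a3, a4⟩
  choose V hV hG h1 h2 h3 using fun n : ℕ =>
    exists_ball_of_ae hm' hall w (r := 1 / ((n : ℝ) + 1)) (by positivity)
  have tV : Tendsto V atTop (𝓝 w) := tendsto_iff_dist_tendsto_zero.2
    (squeeze_zero (fun _ => dist_nonneg) (fun n => (hV n).le)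
      tendsto_one_div_add_atTop_nhds_zero_nat)
  have hmem : ∀ n, (G p x (V n), G p y (V n), G x y (V n)) ∈
      (Set.Icc (-1 : ℝ) 1) ×ˢ ((Set.Icc (-1 : ℝ) 1) ×ˢ (Set.Icc (-1 : ℝ) 1)) := by
    intro n
    obtain ⟨_, a1, a2, a3⟩ := (hG n).swap
    exact ⟨abs_le.1 a1, abs_le.1 a2, abs_le.1 a3⟩
  obtain ⟨⟨a, b, d⟩, -, φ, hφ, hlim⟩ :=
    ((isCompact_Icc.prod (isCompact_Icc.prod isCompact_Icc)).tendsto_subseq hmem)
  have la : Tendsto (fun n => G p x (V (φ n))) atTop (𝓝 a) :=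
    (continuous_fst.tendsto _).comp hlim
  have lb : Tendsto (fun n => G p y (V (φ n))) atTop (𝓝 b) :=
    ((continuous_fst.comp continuous_snd).tendsto _).comp hlim
  have ld : Tendsto (fun n => G x y (V (φ n))) atTop (𝓝 d) :=
    ((continuous_snd.comp continuous_snd).tendsto _).comp hlim
  have sV := tV.comp hφ.tendsto_atTop
  have lim1 : ∀ {q v : M} {e : ℕ → ℝ} {e0 : ℝ}, w ≠ v → Tendsto e atTop (𝓝 e0) →
      (∀ n, V (φ n) ≠ v → dist z (V (φ n)) < 2 * δ →
        Hinge κ (dist (V (φ n)) q) (dist (V (φ n)) v) (dist q v) (e n)) →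
      Hinge κ (dist w q) (dist w v) (dist q v) e0 := by
    intro q v e e0 hz he hallq
    have t1 : Tendsto (fun n => dist (V (φ n)) q) atTop (𝓝 (dist w q)) :=
      sV.dist tendsto_const_nhds
    have t2 : Tendsto (fun n => dist (V (φ n)) v) atTop (𝓝 (dist w v)) :=
      sV.dist tendsto_const_nhds
    have t4 : Tendsto (fun n => dist z (V (φ n))) atTop (𝓝 (dist z w)) :=
      tendsto_const_nhds.dist sV
    obtain ⟨N, hN⟩ := eventually_atTop.1 ((t4.eventually_lt_const hzw).and (sV.eventually_ne hz))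
    have sh : Tendsto (fun n : ℕ => n + N) atTop atTop := tendsto_add_atTop_nat N
    refine Hinge.tendsto (t1.comp sh) (t2.comp sh) tendsto_const_nhds (he.comp sh)
      fun n => ?_
    obtain ⟨c1, c2⟩ := hN _ (Nat.le_add_left N n)
    exact hallq (n + N) c2 c1
  have g1 := lim1 hwx la fun n => h1 (φ n)
  have g2 := lim1 hwy lb fun n => h2 (φ n)
  have g3 := lim1 hwy ld fun n => h3 (φ n)
  have hG' : Gram3 a b d := Gram3.tendsto la lb ld fun n => hG (φ n)
  rw [dist_comm w p, dist_comm w x] at g1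
  rw [dist_comm w p] at g2
  rw [dist_comm w x] at g3
  refine cmp_of_hinges hs.le ht.le (fun _ => hpi.le) g1 g2 (hG'.opp ?_)
  rw [← hw] at g3
  exact le_neg_one_of_hinge hs ht (fun _ => hpi) g3

end metric

/-! ### the flows -/

section flows

variable {M : Type u} [MetricSpace M] [CompleteSpace M] [SecondCountableTopology M]
  [MeasurableSpace M] [BorelSpace M] {m : Measure M} {K N κ : ℝ}
  {P : ℝ → (M →ₘ[m] ℝ) → (M →ₘ[m] ℝ)}
  {E : Type} [NormedAddCommGroup E] [InnerProductSpace ℝ E] [CompleteSpace E]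
  {Gr : (M →ₘ[m] ℝ) → M → E} {V : (M →ₘ[m] ℝ) → (M →ₘ[m] ℝ) → M → E}
  {D : (M →ₘ[m] ℝ) → (M →ₘ[m] ℝ)} {HO : (M →ₘ[m] ℝ) → M → E →L[ℝ] E} {e : ℕ → M →ₘ[m] ℝ}

/-- The standing data; no sectional curvature bound. -/
structure Dat (m : Measure M) (K N : ℝ) (P : ℝ → (M →ₘ[m] ℝ) → (M →ₘ[m] ℝ))
    (Gr : (M →ₘ[m] ℝ) → M → E) (V : (M →ₘ[m] ℝ) → (M →ₘ[m] ℝ) → M → E)
    (D : (M →ₘ[m] ℝ) → (M →ₘ[m] ℝ))
    (HO : (M →ₘ[m] ℝ) → M → E →L[ℝ] E) (e : ℕ → M →ₘ[m] ℝ) : Prop where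
  std : Std m K N
  hK : K ≤ 0
  atom : ∀ p : M, m {p} = 0
  heat : Heat (sob m) K P
  ehyp : EHyp m K N Gr V D HO e
  ctb : CtB (sob m) K N Gr V D

/-- Everything about the flow of one centre that needs no sectional curvature bound. -/
theorem Dat.flow (h : Dat m K N P Gr V D HO e) (κ : ℝ) (p : M) {s₀ C₀ : ℝ} (h1 : 0 < s₀)
    (h2 : s₀ ≤ 1) (h3 : 0 < C₀) :
    ∃ (u : ℕ → ℝ → M →ₘ[m] ℝ) (φ : (M →ₘ[m] ℝ) → ℕ → ℝ → M →ₘ[m] ℝ) (U : Ultrafilter ℕ)
      (φ₀ ρ : ℝ → M →ₘ[m] ℝ) (R : ℝ → ℝ → (M →ₘ[m] ℝ) → (M →ₘ[m] ℝ)) (Y : ℝ → M → M)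
      (Hs : (M →ₘ[m] ℝ) → ℝ → M → E) (Λ : ℝ → M → ℝ),
      CHyp M m K N P p s₀ C₀ ∧ OutA m K N P p s₀ C₀ u φ ∧ LevB m Gr V D κ u φ ∧
      (U : Filter ℕ) ≤ atTop ∧ Lim m K N p s₀ C₀ φ₀ ρ R ∧ Maps ρ R Y ∧ RFlow m K N p s₀ C₀ Y ∧
      Strong p s₀ C₀ U u φ Y ∧ Second m Gr HO p s₀ C₀ Y ∧ HLim m U Gr V u φ Y e Hs Λ := by
  have hyp : CHyp M m K N P p s₀ C₀ := ⟨h.std, h.hK, h.atom p, h.heat, h1, h2, h3⟩
  obtain ⟨u, φ, hL⟩ := H715.blk_A M m K N h.std P h.heat p s₀ C₀ h1 h2 h3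
  have hB := levB_of hyp h.ctb hL κ
  have hE := h.ehyp
  let U : Ultrafilter ℕ := Filter.hyperfilter ℕ
  have hU : (U : Filter ℕ) ≤ atTop := Nat.hyperfilter_le_atTop
  obtain ⟨φ₀, L, B, R₀, c, ρ, R, a0, a1, a2⟩ :=
    H326.cBlocks.c1 M m K N P p s₀ C₀ hyp u φ hL U hU
  have a3 := H326.cBlocks.c2 M m K N P p s₀ C₀ hyp _ ρ R a2
  obtain ⟨Y₀, a4⟩ := H326.cBlocks.c3 M m K N P p s₀ C₀ hyp _ ρ R a2 a3
  obtain ⟨Y, a5, a6⟩ := H326.cBlocks.c4 M m K N P p s₀ C₀ hyp _ ρ R Y₀ a2 a4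
  have a7 := H183.Nw.blk_C6a M m K N κ P p s₀ C₀ hyp E Gr V D HO e hE u φ hL hB U hU φ₀ L B R₀ c
    ρ R Y a0 a1 a2 a3 a5
  have a8 := H719.Nw.blk_C5 M m K N κ P p s₀ C₀ hyp E Gr V D HO e hE u φ hL hB U hU φ₀ L B R₀ c
    ρ R Y a0 a1 a2 a5 a6 a7
  obtain ⟨Hs, Λ, a9⟩ := H994.Nw.blk_C6b M m K N κ P p s₀ C₀ hyp E Gr V D HO e hE u φ hL hB U hU
    φ₀ L B R₀ c ρ R Y a0 a1 a2 a3 a5 a6 a7
  exact ⟨u, φ, U, _, ρ, R, Y, Hs, Λ, hyp, hL, hB, hU, a2, a5, a6, a7, a8, a9⟩

theorem Dat.contr (h : Dat m K N P Gr V D HO e) : PD.HasContr m N := by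
  refine H326.cBlocks.c4d M m K N h.std h.hK h.atom fun p s₀ C₀ h1 h2 h3 => ?_
  obtain ⟨u, φ, U, φ₀, ρ, R, Y, Hs, Λ, -, -, -, -, a2, a5, a6, -⟩ := h.flow 0 p h1 h2 h3
  exact ⟨φ₀, ρ, R, Y, a2, a5, a6⟩

/-- the flows with the Riccati inequality, for centres near `z` -/
theorem Dat.flowH (h : Dat m K N P Gr V D HO e) (hgeo : T.IsGeodesic M) {z : M} {δ : ℝ}
    (hδ : 0 < δ) (hpos : PosOn m V κ (Metric.ball z (36 * δ))) {p : M} {s₀ C₀ : ℝ} (h1 : 0 < s₀)
    (h2 : s₀ ≤ 1) (h3 : 0 < C₀) (hp : dist z p + r1 s₀ C₀ ≤ 10 * δ) :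
    ∃ Y Hh Λ, FlowH Gr HO e κ p s₀ C₀ Y Hh Λ := by
  haveI : SigmaFinite m := sigmaFinite_of_ball h.std.hfin
  have hC := h.ctb.gam
  have hB : (sob m).BEi K := hC.bei h.ctb.hN h.ctb.be
  have hM : H154.ABSp m K N := ⟨h.std.hfin, h.std.rcd.quadratic, h.hK, h.std.hN, h.std.rcd.bochner,
    h.std.rcd.sobolev_to_lipschitz, hgeo⟩
  obtain ⟨χ', a1, a2, a3, a4, a5⟩ := H154.exists_cut_loc hM z (R := 5 * δ) (by positivity)
  obtain ⟨χ, b1, b2, b3, b4, b5⟩ := H154.exists_cut_loc hM z (R := 8 * δ) (by positivity)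
  obtain ⟨ψ, c1, c2, c3, c4, c5⟩ := H154.exists_cut_loc hM z (R := 12 * δ) (by positivity)
  obtain ⟨u, φ, U, φ₀, ρ, R, Y, Hs, Λ, hyp, hA, hLv, hU, hLim, hMaps, hF, hSt, hSec, hH⟩ :=
    h.flow κ p h1 h2 h3
  refine (cout_cut (κ := κ) hyp h.ehyp hC hB hLim hMaps hF hSec hH b1 a1 a2 a3 ?_ ?_ ?_).elim
    fun Hs' ho =>
      ⟨Y, _, Λ, JCE.blk_C7' M m K N κ P p s₀ C₀ hyp E Gr V D HO e h.ehyp φ₀ ρ R Y Hs' Λ ho⟩
  · filter_upwards [a4] with x hx hpx
    refine hx ?_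
    have := dist_triangle z p x
    rw [dist_comm x z]
    linarith
  · filter_upwards [a5, b4] with x h5 h4 hx
    refine h4 ?_
    by_contra hc
    exact hx (h5 (by linarith [not_le.1 hc]))
  · intro g hg
    have gI := hC.testI_mul hB b1 hg
    refine ricAt hyp h.ehyp hA hLv hU hLim hMaps hF hSt hH gI (ricB_of hyp h.ctb hA gI ?_)
    refine secAt_of h.ctb hpos gI c1 c2 ?_ ?_
    · filter_upwards [c5] with x hx hb
      refine hx ?_
      rw [Metric.mem_ball, not_lt] at hb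
      linarith
    · filter_upwards [c4, b5, mul_ae χ g] with x h4 h5 h6
      by_cases hx : dist x z ≤ 2 * (12 * δ)
      · exact Or.inl (h4 hx)
      · right
        rw [h6, h5 (by linarith [not_le.1 hx]), zero_mul]

/-- the weak Hessian bound for the distance from points near `z` -/
theorem Dat.hessDist [ProperSpace M] (h : Dat m K N P Gr V D HO e) (hgeo : T.IsGeodesic M)
    {W : ℕ → M → M → ℝ} (hW : JointW Gr e W) (hSB : SmallBalls Gr e W) (hFR : FinRank Gr e)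
    {z : M} {δ : ℝ} (hδ : 0 < δ) (hδ1 : √κ * (5 * δ) < Real.pi)
    (hpos : PosOn m V κ (Metric.ball z (36 * δ))) {p : M} (hp : dist z p < δ) :
    HessDist m κ p (4 * δ) := by
  haveI : SigmaFinite m := sigmaFinite_of_ball h.std.hfin
  have hS := h.std
  have hSt := h.ehyp.stat
  have hC := h.ctb.gam
  have hB : (sob m).BEi K := hC.bei h.ctb.hN h.ctb.be
  have hGA : ∀ i j, (sob m).Γ (e i) (e j) ∈ (sob m).W := fun i j =>
    (hC.Γ_mem hB (hSt.testI i).1 (hSt.testI j).1).1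
  choose Gt hGt using fun i j => H561.blk_E1 m Gr HO e K N hS hSt _ (hGA i j)
  have hstr : ∀ (p : M) (s₀ C₀ : ℝ) (Y : ℝ → M → M), Flow Gr HO p s₀ C₀ Y →
      StrongV Gr HO e Gt p s₀ C₀ Y := H561.blk_E2 m Gr HO e Gt K N hS hSt hGt
  have hrk : RankConst Gr HO Gt :=
    H450.blk_E3 m Gr HO e Gt W K N hS hSt hGt hstr hW hSB hFR
  set C₀ : ℝ := (5 * δ) ^ 2 / 2 with hC₀
  have hC0 : 0 < C₀ := by positivity
  have hsq : √(2 * C₀) = 5 * δ := by
    rw [hC₀, show 2 * ((5 * δ) ^ 2 / 2) = (5 * δ) ^ 2 by ring, Real.sqrt_sq (by positivity)]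
  have hκC : √κ * √(2 * C₀) < Real.pi := by rw [hsq]; exact hδ1
  set s : ℕ → ℝ := fun n => ((n : ℝ) + 2)⁻¹ with hs
  have hs1 : ∀ n, 0 < s n := fun n => by positivity
  have hs2 : ∀ n, s n < 1 := fun n => by
    have h0 : (0 : ℝ) ≤ n := n.cast_nonneg
    exact inv_lt_one_of_one_lt₀ (by linarith)
  have hs0 : Tendsto s atTop (𝓝 0) := tendsto_inv_atTop_zero.comp
    (tendsto_atTop_add_const_right _ _ tendsto_natCast_atTop_atTop)
  have hgood : ∀ᵐ q ∂m, dist z q < 2 * δ → H761.HB m κ q (4 * δ) := by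
    filter_upwards [hrk] with q hq hzq
    refine H761.step_B hC hB hS.hfin hC0 (by positivity) (by rw [hC₀]; nlinarith) hκC hs1
      (fun n => (hs2 n).le) hs0 fun n => ?_
    have hr : r1 (s n) C₀ ≤ 8 * δ := by
      unfold r1
      refine Real.sqrt_le_iff.2 ⟨by positivity, ?_⟩
      rw [hC₀]
      nlinarith [hs2 n, sq_nonneg δ]
    obtain ⟨Y, Hh, Λ, hfl⟩ := h.flowH hgeo hδ hpos (p := q) (hs1 n) (hs2 n).le hC0 (by linarith)
    refine H992.blk_E6a m Gr HO e K N κ hS hSt q (s n) C₀ Y Hh Λ hfl hκC ?_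
    exact blk_E45F m Gr HO e Gt K N κ H768.blk_E45 hS hSt hGt q (s n) C₀ Y Hh Λ hfl hκC
      (hq (s n) C₀ Y hfl.flow)
  have hfull := hS.full
  have hm' : ∀ x : M, ∀ r > 0, m (Metric.ball x r) ≠ 0 := fun x r hr =>
    (Metric.isOpen_ball.measure_pos m ⟨x, Metric.mem_ball_self hr⟩).ne'
  choose q hq1 hq2 using fun n : ℕ =>
    H933.exists_ball_of_ae hm' hgood p (r := min δ ((n : ℝ) + 1)⁻¹) (by positivity)
  refine H761.step_C hC hB hS.hfin (by positivity) (q := q) (fun n => ?_) ?_ fun n => hq2 n ?_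
  · refine ((hq1 n).le.trans (min_le_right _ _)).trans (inv_le_one_of_one_le₀ ?_)
    have h0 : (0 : ℝ) ≤ n := n.cast_nonneg
    linarith
  · refine squeeze_zero (fun n => dist_nonneg) (fun n => (hq1 n).le.trans (min_le_right _ _)) ?_
    exact tendsto_inv_atTop_zero.comp
      (tendsto_atTop_add_const_right _ _ tendsto_natCast_atTop_atTop)
  · have a1 := (hq1 n).trans_le (min_le_left _ _)
    have a2 := dist_triangle z p (q n)
    rw [dist_comm p (q n)] at a2
    linarith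

/-- radial concavity of the distance from one point `p` -/
theorem Dat.pw [ProperSpace M] (h : Dat m K N P Gr V D HO e) {p : M} {R : ℝ} (hR : Adm κ R)
    (hH : HessDist m κ p R) (w x : M) (hper : (dist w p + dist p x + dist x w) / 2 < R) :
    ∀ s ∈ Icc 0 (dist w x), H616.PW κ w p x s := by
  haveI : SigmaFinite m := sigmaFinite_of_ball h.std.hfin
  obtain ⟨Λ₀, hΛ⟩ := hH
  obtain ⟨G, hG⟩ : ∃ G, (sob m).FLap (cl m (mdr κ p R)) G := by
    have hR2 : 0 < R ^ 2 / (2 * (1 + 1)) := by have := hR.1; positivity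
    obtain ⟨u, φ, U, φ₀, ρ, Rr, Y, Hs, Λ, -, -, -, -, hL, -⟩ := h.flow κ p one_pos le_rfl hR2
    obtain ⟨c, hc⟩ := hL.z_lap (1 / 2) ⟨by norm_num, by norm_num⟩
    exact H866.exists_FLap h.std hR (s₀ := 1) (t := 1) (by norm_num) rfl
      fun w hw hw1 hw0 => hc 1 ⟨by norm_num, le_rfl⟩ w hw.1 hw0 hw1
  refine pw_loc h.std.full ?_ hper
  have hC0 : 0 < R ^ 2 / 2 := by have := hR.1; positivity
  refine (pw_ae_loc (m := m) (R' := R) (Λ₀ := Λ₀) (w := w) (p := p) hR fun k => ?_).mono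
    fun y hy hper' => hy (by
      have := dist_triangle w p y
      rw [dist_comm y w] at hper'
      linarith) hper'
  have hs : (0 : ℝ) < ((k : ℝ) + 1)⁻¹ := by positivity
  have hs1 : ((k : ℝ) + 1)⁻¹ ≤ 1 := by
    rw [inv_le_one₀ (by positivity)]; have : (0 : ℝ) ≤ k := Nat.cast_nonneg k
    linarith
  have hr : R ≤ r1 ((k : ℝ) + 1)⁻¹ (R ^ 2 / 2) := by
    rw [r1]
    refine Real.le_sqrt_of_sq_le ?_
    nlinarith [sq_nonneg R]
  obtain ⟨u, φ, U, φ₀, ρ, Rr, Y, Hs, Λ, hyp, hA, hLv, hU, hL, -, hY, hSt, -⟩ :=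
    h.flow κ w hs hs1 hC0
  have hI := intConc_of_TU hyp h.ctb (H329.blk_LvB M m K N P w _ _ hyp u φ hA) hU hY hL.z_grad
    (fun l hl s hs b hb1 hb2 _ hbc d hd =>
      (H719.tu4_strong hyp hA hl hs.1 hs.2.le hU hSt hb1 hb2 hbc).2 d hd)
    (fun l hl s hs A hA1 hA0 d hd => hU (H719.Nw.tu6 hyp hA hLv hl hs hA0 hA1 hd)) hR hΛ hG
  refine ⟨Y, ?_⟩
  filter_upwards [(H276.contr_of_rflow h.std.hfin h.ctb.gam.toIsDir hs hY hL.unit hr).rad,
    concAt_of_intConc h.std h.heat hs hC0 hY hL.unit hR hI] with y h1 h2 hy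
  exact ⟨h1 hy, h2 (hy.trans_le hr)⟩

end flows

/-- **The local theorem.** `RCD(K,n)` for `Hⁿ` with any `K`: the space is proper and geodesic, and
a sectional curvature bound on gradient fields for weights supported near `z` gives triangle
comparison near `z`. -/
theorem local_main (M : Type u) [MetricSpace M] [CompleteSpace M] [SecondCountableTopology M]
    [MeasurableSpace M] [BorelSpace M] {n : ℕ} (hn : 2 ≤ n) {K : ℝ}
    (hf : (μH[n] : Measure M).IsOpenPosMeasure) (hr : T.IsRCD (μH[n] : Measure M) K n) :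
    ProperSpace M ∧ T.IsGeodesic M ∧
    ∃ (E : Type) (_ : NormedAddCommGroup E) (_ : InnerProductSpace ℝ E) (_ : CompleteSpace E)
      (Gr : (M →ₘ[(μH[n] : Measure M)] ℝ) → M → E)
      (V : (M →ₘ[(μH[n] : Measure M)] ℝ) → (M →ₘ[(μH[n] : Measure M)] ℝ) → M → E),
      IsGrad (sob (μH[n] : Measure M)) Gr ∧ IsHU (sob (μH[n] : Measure M)) Gr V ∧
      ∀ (κ : ℝ) (z : M) (r : ℝ), 0 < r → PosOn (μH[n] : Measure M) V κ (Metric.ball z r) →
        T.CurvNear M κ z := by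
  set m : Measure M := μH[n] with hm
  have hn0 : (0 : ℝ) < n := by exact_mod_cast (by omega : 0 < n)
  have hS : Std m (min K 0) n := std_mono hn0 (min_le_left _ _) hf hr
  have hsf : SigmaFinite m := sigmaFinite_of_ball hS.hfin
  have hC : IsGamma (sob m) := isGamma_sob hS.hfin hS.rcd.quadratic hS.rcd.sobolev_to_lipschitz
  have hBE : (sob m).BE (min K 0) n := hS.rcd.bochner
  have hBi : (sob m).BEi (min K 0) := hC.bei hn0 hBE
  have hat : ∀ p : M, m {p} = 0 := by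
    intro p
    have := Measure.noAtoms_hausdorff M hn0
    exact measure_singleton p
  obtain ⟨P, hP⟩ := H715.blk_A1 M m (min K 0) n hS
  obtain ⟨Gr, HO, e, hst, -⟩ := H131.exists_stat_sob hS
  obtain ⟨V, hV⟩ := hC.exists_HU hBi hst.grad
  obtain ⟨D, hD⟩ := H853.blk_BHD M m (sob m) (min K 0) n hC hn0 hBE _ Gr V hst.grad hV
  have h : Dat m (min K 0) n P Gr V D HO e := ⟨hS, min_le_right _ _, hat, hP, ⟨sep_l2, hst, hV, hD⟩,
    ⟨hC, hn0, hBE, hst.grad, hV, hD⟩⟩
  have hd := PD.dout' M m n (min K 0) ⟨hS, rfl, h.contr, H790.blk_A5v M m _ n hS⟩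
  haveI : ProperSpace M := hd.geo.proper
  refine ⟨hd.geo.proper, hd.geo.geod, _, _, _, inferInstance, Gr, V, hst.grad, hV,
    fun κ z r hr0 hpos => ?_⟩
  obtain ⟨W, hW1, hW2, hW3⟩ := PD.bridgeE hS hst hd
  obtain ⟨G, hG⟩ := hd.fvar
  have hk : 0 ≤ √κ := Real.sqrt_nonneg κ
  set δ : ℝ := min (r / 36) (5 * (√κ + 1))⁻¹ with hδ
  have hδ0 : 0 < δ := lt_min (by positivity) (by positivity)
  have hδ1 : √κ * (5 * δ) < Real.pi := by
    have a1 : δ ≤ (5 * (√κ + 1))⁻¹ := min_le_right _ _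
    have a2 : δ * (5 * (√κ + 1)) ≤ 1 := by
      rw [← le_div_iff₀ (by positivity), one_div]; exact a1
    nlinarith [Real.pi_gt_three]
  have hδ2 : √κ * (4 * δ) < Real.pi := by nlinarith
  have hpos' : PosOn m V κ (Metric.ball z (36 * δ)) := by
    intro a ha b hb f hf1 hf0 hfA
    refine hpos a ha b hb f hf1 hf0 ?_
    filter_upwards [hfA] with x hx hb
    refine hx fun hc => hb (Metric.ball_subset_ball ?_ hc)
    have : δ ≤ r / 36 := min_le_left _ _
    linarith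
  refine ⟨δ, hδ0, fun p x y w hp hx hy hw => cmp_loc hf hδ2 hG (fun q hq v a hper => ?_) hp hx hy hw⟩
  exact h.pw ⟨by positivity, hδ2⟩ (h.hessDist hd.geo.geod hW1 hW2 hW3 hδ0 hδ1 hpos' hq) v a hper

end Vale.Agent.P233.Nw
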