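import Vale.Agent.N233.Met
import Vale.Agent.N233.Defs
import Vale.Agent.P233G39.Ctx
import Vale.Agent.P233G30.Fin
import Mathlib.Topology.TietzeExtension

/-! P233, local form: translation to Gigli's calculus in the tangent module. -/

set_option linter.all false

open MeasureTheory Filter Topology Set
open scoped ENNReal NNReal InnerProductSpace MeasureTheory

universe u

namespace Vale.Agent.N233

open Vale.Agent.P233 Vale.Agent.P233G Vale.Agent.P233Z

/-! ### one model of `L²(TM)`, functions -/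

/-- the bound for weights that vanish outside `A`, in some model of `L²(TM)` -/
def SecEx {M : Type u} (C : T.Calc M) (κ : ℝ) (A : Set M) : Prop :=
  ∃ (H : Type u) (_ : NormedAddCommGroup H) (_ : InnerProductSpace ℝ H) (ι : T.VF M → H),
    C.IsL2TM ι ∧ ∀ X Y, C.TestV X → C.TestV Y → ∀ f, C.Test f → C.ae (fun x => 0 ≤ f x) →
      C.ae (fun x => x ∉ A → f x = 0) →
      C.CurvGE ι X Y f (κ * C.int fun x => f x * (C.ip X X x * C.ip Y Y x - C.ip X Y x ^ 2))

theorem SecEx.scl {M : Type u} {C : T.Calc M} {κ a : ℝ} {A : Set M} (ha : 0 < a)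
    (h : SecEx C κ A) : SecEx (scl C a) κ A := by
  obtain ⟨H, i1, i2, ι, hι, h⟩ := h
  refine ⟨H, i1, i2, _, scl_isL2TM ha hι, fun X Y hX hY f hf h0 hA => ?_⟩
  rw [scl_testV ha] at hX hY
  rw [scl_test ha] at hf
  obtain ⟨A', B, D, E, F, G, h1, h2, h3, h4, h5, h6, h7⟩ := h X Y hX hY f hf h0 hA
  refine ⟨_, _, _, _, _, _, scl_isCov ha h1, scl_isCov ha h2, scl_isCov ha h3, scl_isCov ha h4,
    scl_isCov ha h5, scl_isCovT ha h6, ?_⟩
  rw [← smul_sub, inner_sqrt ha, inner_sqrt ha, inner_sqrt ha, scl_dv ha]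
  change κ * (a * C.int fun x => f x * (C.ip X X x * C.ip Y Y x - C.ip X Y x ^ 2)) ≤
    -(a * ⟪A', B⟫_ℝ) - a * C.int (fun x => f x * C.nab Y Y X x * C.dv X x) + a * ⟪D, E⟫_ℝ
      + a * C.int (fun x => f x * C.nab X Y X x * C.dv Y x) - a * ⟪E - F, G⟫_ℝ
  have := mul_le_mul_of_nonneg_left h7 ha.le
  linarith

section classes

variable {M : Type u} [MetricSpace M] [CompleteSpace M] [MeasurableSpace M] [BorelSpace M]
  [SecondCountableTopology M] {m : Measure M}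
  {E : Type} [NormedAddCommGroup E] [InnerProductSpace ℝ E] [CompleteSpace E]
  {Gr : (M →ₘ[m] ℝ) → M → E} {V : (M →ₘ[m] ℝ) → (M →ₘ[m] ℝ) → M → E}

open H236 in
theorem posOn_of {κ K N : ℝ} {A : Set M} (h : H326.Base m K N) (hD : SecEx (T.sob m) κ A)
    (hG : IsGrad (sob m) Gr) (hU : IsHU (sob m) Gr V) : Nw.PosOn m V κ A := by
  have hsf := h.sf
  have hC := h.hC
  have hB := h.hB
  obtain ⟨χ, hχ⟩ := h.exists_isCut
  obtain ⟨H, i1, i2, ι, hι, hD⟩ := hD
  have hιS : (S.sob m).IsL2TM ι := hι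
  have hcs : CompleteSpace H := hι.1
  have hι' := isL2TM_coe hC hιS
  have hcov : ∀ X' Y' : List ((M →ₘ[m] ℝ) × (M →ₘ[m] ℝ)), (sob m).IsTestV X' →
      (sob m).IsTestV Y' → (∃ V, (sob m).IsCov (fun X' => ι (coeV X')) X' Y' V) ∧
      (∃ V, (sob m).IsCovT (fun X' => ι (coeV X')) X' Y' V) := fun X' Y' hX hY =>
    ⟨(covE_rep hC hB hG hU hι' hX hY).1, (covTE_rep hC hB hG hU hι' hX hY).1⟩
  intro a ha b hb f hf hf0 hfA
  have hsec : ∀ X' Y' : List ((M →ₘ[m] ℝ) × (M →ₘ[m] ℝ)), (sob m).IsTestV X' →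
      (sob m).IsTestV Y' →
      κ * I (f * ((sob m).ip X' X' * (sob m).ip Y' Y' - (sob m).ip X' Y' ^ 2))
        ≤ (sob m).curv (fun X' => ι (coeV X')) X' Y' Y' X' f := by
    intro X' Y' hX' hY'
    have rX := RV_coeV hX'
    have rY := RV_coeV hY'
    obtain ⟨A, B, D, E, F₁, G, hA, hB', hD', hE, hF1, hG', hle⟩ :=
      hD _ _ rX.testV rY.testV f ((R.coe f).test_iff.2 hf) (nonneg_iff_ae.1 hf0) hfA
    have h1 := (curvEq_iff hC hB hι hcov rX rY rY rX (R.coe f) hf).1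
      ⟨A, B, D, E, E, F₁, G, hA, hB', hD', hE, hE, hF1, hG', rfl⟩
    rw [← h1]
    refine le_trans (le_of_eq ?_) hle
    congr 1
    exact (R.int ((R.coe f).mul (R.sub ((rX.ip rX hC).mul (rY.ip rY hC))
      (rX.ip rY hC).sq))).symm
  have hUU := hU.isUU hC hB hG
  have hχ4 := (hχ.sq hC hB).sq hC hB
  refine ge_of_tendsto (cut_rk hχ4 hC hB hUU ha hb hb ha hf) (Eventually.of_forall fun n => ?_)
  have hc := hχ.mem n
  have hX : (sob m).IsTestV [(χ n, a)] := by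
    intro p hp
    rw [List.mem_singleton] at hp
    rw [hp]; exact ⟨hc, ha⟩
  have hY : (sob m).IsTestV [(χ n, b)] := by
    intro p hp
    rw [List.mem_singleton] at hp
    rw [hp]; exact ⟨hc, hb⟩
  have h1 := hsec _ _ hX hY
  rw [glue' hC hB hG hU hι' hX hY hY hX hf] at h1
  obtain ⟨t1, t2, t3⟩ := fin_term hC hB (κ' := κ) hUU hf (p := (χ n, a)) (q := (χ n, b))
    (r := (χ n, b)) (s := (χ n, a)) ⟨hc, ha⟩ ⟨hc, hb⟩ ⟨hc, hb⟩ ⟨hc, ha⟩
  have e1 : f * ((sob m).ip [(χ n, a)] [(χ n, a)] * (sob m).ip [(χ n, b)] [(χ n, b)]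
      - (sob m).ip [(χ n, a)] [(χ n, b)] ^ 2)
      = finW (sob m) f (χ n, a) (χ n, b) (χ n, b) (χ n, a) := by
    unfold finW Calc.ip
    simp only [List.map_cons, List.map_nil, List.sum_cons, List.sum_nil, add_zero]
    ring
  have e2 : ((([(χ n, a)] : List ((M →ₘ[m] ℝ) × (M →ₘ[m] ℝ))).map fun p =>
      (([(χ n, b)] : List ((M →ₘ[m] ℝ) × (M →ₘ[m] ℝ))).map fun q =>
      (([(χ n, b)] : List ((M →ₘ[m] ℝ) × (M →ₘ[m] ℝ))).map fun r =>
      (([(χ n, a)] : List ((M →ₘ[m] ℝ) × (M →ₘ[m] ℝ))).map fun s =>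
        (sob m).omI (UUof m V) f p q r s).sum).sum).sum).sum)
      = (sob m).omI (UUof m V) f (χ n, a) (χ n, b) (χ n, b) (χ n, a) := by
    simp only [List.map_cons, List.map_nil, List.sum_cons, List.sum_nil, add_zero]
  have e3 : χ n * χ n * (χ n * χ n) * f = f * (χ n * χ n) * (χ n * χ n) := by ring
  rw [e1, e2] at h1
  rw [e3]
  have t3' : I ((sob m).rkI (UUof m V) κ a b b a (f * (χ n * χ n) * (χ n * χ n)))
      = I ((sob m).omI (UUof m V) f (χ n, a) (χ n, b) (χ n, b) (χ n, a))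
        - κ * I (finW (sob m) f (χ n, a) (χ n, b) (χ n, b) (χ n, a)) := t3
  rw [t3']
  linarith

end classes

/-! ### the tangent module -/

section tan

variable {M : Type u} [MetricSpace M] [CompleteSpace M] [MeasurableSpace M] [BorelSpace M]
  [SecondCountableTopology M] {U : Measure M → (M → ℝ) → (M → ℝ) → Prop} {m : Measure M}
  {K : ℝ} {Gr : L0 m → M → E1}

theorem secEx_of (c : Ctx U m K Gr) {κ : ℝ} {A : Set M} (h : SecOn U m (fun _ => κ) A) :
    SecEx (T.sob m) κ A := by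
  obtain ⟨H, _, _, ⟨T⟩⟩ := P233G49.te M U m K Gr c
  obtain ⟨J, σ, k⟩ := exists_kit c T
  refine ⟨H, _, _, _, k.isL2TM, fun X Y hX hY f hf h0 hA => ?_⟩
  have rX := RV_clsV (m := m) hX
  have rY := RV_clsV (m := m) hY
  obtain ⟨F₀, rf, hF⟩ := S_test_exists (m := m) hf
  obtain ⟨A, Q, D, E, F, G, h1, h2, h3, h4, h5, h6, h7, h8⟩ := k.key rX rY rf hF
  refine ⟨A, Q, D, E, F, G, h1, h2, h3, h4, h5, h6, ?_⟩
  rw [h7, h8, ← integral_const_mul]
  refine h H T _ _ _ ((k.b.testV_iff k.c).2 ⟨_, rX.isTestV, rfl⟩)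
    ((k.b.testV_iff k.c).2 ⟨_, rY.isTestV, rfl⟩) ((k.b.test_iff k.c).2 hF) (nonneg_iff_ae.2 ?_) ?_
  · filter_upwards [h0, rf] with x a1 a2
    rwa [← a2]
  · filter_upwards [hA, rf] with x a1 a2 hx
    rw [← a2]; exact a1 hx

/-- from the curvature functional of the abstract calculus to the tangent module -/
theorem secOn_of (c : Ctx U m K Gr) {V : L0 m → L0 m → M → E1} (hV : IsHU (sob m) Gr V)
    {k : M → ℝ} {A : Set M}
    (h : ∀ (H : Type u) [NormedAddCommGroup H] [InnerProductSpace ℝ H] [CompleteSpace H]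
      (ι : List (L0 m × L0 m) → H), (sob m).IsL2TM ι → ∀ X Y, (sob m).IsTestV X →
      (sob m).IsTestV Y → ∀ f ∈ (sob m).Test, 0 ≤ f → (∀ᵐ x ∂m, x ∉ A → f x = 0) →
      ∫ x, k x * (f * ((sob m).ip X X * (sob m).ip Y Y - (sob m).ip X Y ^ 2) : L0 m) x ∂m
        ≤ (sob m).curv ι X Y Y X f) : SecOn U m k A := by
  intro H _ _ T X Y f hX hY hf h0 hA
  obtain ⟨J, σ, q⟩ := exists_kit c T
  have hsf := c.sf
  have hC := c.hC
  have hB := c.hB
  obtain ⟨l, hl, rfl⟩ := (q.b.testV_iff c).1 hX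
  obtain ⟨l', hl', rfl⟩ := (q.b.testV_iff c).1 hY
  rw [q.b.test_iff c] at hf
  have rX := RV_coeV hl
  have rY := RV_coeV hl'
  have hι := q.isL2TM
  have hιS : (S.sob m).IsL2TM fun X => T.io (clsV m X) := hι
  have hcs : CompleteSpace H := T.complete
  have hι' := isL2TM_coe hC hιS
  obtain ⟨A', Q, D, E, F, G, h1, h2, h3, h4, h5, h6, -, h8⟩ := q.key rX rY (R.coe f) hf
  have e := (H236.curvEq_iff hC hB hι (fun X' Y' hX hY =>
    ⟨(covE_rep hC hB c.hG hV hι' hX hY).1, (covTE_rep hC hB c.hG hV hι' hX hY).1⟩)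
    rX rY rY rX (R.coe f) hf).1 ⟨A', Q, D, E, E, F, G, h1, h2, h3, h4, h4, h5, h6, rfl⟩
  rw [← h8, e]
  refine le_trans (le_of_eq (integral_congr_ae ?_)) (h H _ hι' l l' hl hl' f hf h0 hA)
  filter_upwards [q.ar_ae (f := f) hl hl'] with x hx
  rw [hx]

/-- monotonicity in the bound and in the set -/
theorem SecOn.mono (c : Ctx U m K Gr) {k : M → ℝ} {κ B : ℝ} {A A' : Set M} (h : SecOn U m k A)
    (hA : A' ⊆ A) (hA' : MeasurableSet A') (hk : ContinuousOn k A') (h1 : ∀ x ∈ A', κ ≤ k x)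
    (h2 : ∀ x ∈ A', k x ≤ B) : SecOn U m (fun _ => κ) A' := by
  intro H _ _ T X Y f hX hY hf h0 hfA
  refine le_trans ?_ (h H T X Y f hX hY hf h0 (hfA.mono fun x hx hb => hx fun hc => hb (hA hc)))
  obtain ⟨J, σ, q⟩ := exists_kit c T
  obtain ⟨l, hl, rfl⟩ := (q.b.testV_iff c).1 hX
  obtain ⟨l', hl', rfl⟩ := (q.b.testV_iff c).1 hY
  rw [q.b.test_iff c] at hf
  have hi := q.ar_int hl hl' hf
  have h3 : ∀ᵐ x ∂m, 0 ≤ T.ar (T.io l) (T.io l') f x := by
    filter_upwards [q.ar_ae (f := f) hl hl', nonneg_iff_ae.1 h0,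
      H154.wedge_nonneg c.hC c.hG hl hl',
      mul_ae f ((sob m).ip l l * (sob m).ip l' l' - (sob m).ip l l' ^ 2)] with x a1 a2 a3 a4
    rw [a1, a4]
    exact mul_nonneg a2 a3
  have h4 : ∀ᵐ x ∂m, x ∉ A' → T.ar (T.io l) (T.io l') f x = 0 := by
    filter_upwards [hfA] with x a1 hx
    unfold Tan.ar
    rw [a1 hx, zero_mul]
  have h5 : Integrable (fun x => k x * T.ar (T.io l) (T.io l') f x) m := by
    have h6 : IntegrableOn (fun x => k x * T.ar (T.io l) (T.io l') f x) A' m := by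
      refine Integrable.bdd_mul (c := max |κ| |B|) hi.integrableOn
        (hk.aestronglyMeasurable hA') ?_
      filter_upwards [ae_restrict_mem hA'] with x hx
      rw [Real.norm_eq_abs, abs_le]
      have := neg_abs_le κ
      have := le_abs_self B
      have := le_max_left |κ| |B|
      have := le_max_right |κ| |B|
      constructor <;> linarith [h1 x hx, h2 x hx]
    refine ((integrable_indicator_iff hA').2 h6).congr ?_
    filter_upwards [h4] with x a1
    by_cases hx : x ∈ A'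
    · rw [indicator_of_mem hx]
    · rw [indicator_of_notMem hx, a1 hx, mul_zero]
  refine integral_mono_ae (hi.const_mul κ) h5 ?_
  filter_upwards [h3, h4] with x a1 a2
  by_cases hx : x ∈ A'
  · exact mul_le_mul_of_nonneg_right (h1 x hx) a1
  · simp only [a2 hx, mul_zero, le_refl]

end tan

/-! ### triangle comparison near a point -/

section metric

variable {M : Type u} [MetricSpace M] [CompleteSpace M] {κ : ℝ} {z : M}

theorem curvNear_iff (hgeo : T.IsGeodesic M) :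
    T.CurvNear M κ z ↔ ∃ V ∈ 𝓝 z, TriModel V κ := by
  simp only [triModel_iff]
  constructor
  · rintro ⟨r, hr, h⟩
    refine ⟨Metric.ball z r, Metric.ball_mem_nhds z hr, fun p x y α β γ _ _ hγ _ s hs => ?_⟩
    have e1 := hγ.2.2 0 ⟨le_rfl, dist_nonneg⟩ s hs
    have e2 := hγ.2.2 s hs _ ⟨dist_nonneg, le_rfl⟩
    rw [hγ.1, zero_sub, abs_neg, abs_of_nonneg hs.1] at e1
    rw [hγ.2.1, abs_sub_comm, abs_of_nonneg (sub_nonneg.2 hs.2)] at e2
    have := h p x y (γ s) (Metric.mem_ball'.1 p.2) (Metric.mem_ball'.1 x.2) (Metric.mem_ball'.1 y.2)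
      (by
        change dist x (γ s) + dist (γ s) y = dist x y
        rw [e1, e2]; ring)
    change T.Cmp κ (dist p x) (dist p y) (dist x (γ s)) (dist (γ s) y) (dist p (γ s)) at this
    rwa [e1, e2] at this
  · rintro ⟨V, hV, h⟩
    obtain ⟨ρ, hρ⟩ := exists_LC_of_loc hV (fun x _ y _ => H416.exists_geo hgeo x y) h
    have h0 := hρ.pos
    refine ⟨ρ / 2, by positivity, fun p x y w hp hx hy hw => hρ.cmp p ?_ x ?_ y ?_ w ?_ hw⟩
    · rw [Metric.mem_ball']; linarith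
    · rw [Metric.mem_ball']; linarith
    · rw [Metric.mem_ball']; linarith
    · rw [Metric.mem_ball']
      have a1 := dist_triangle z x w
      have a2 := dist_triangle z y w
      have a3 := dist_triangle x z y
      rw [dist_comm y w] at a2
      rw [dist_comm x z] at a3
      linarith

end metric

/-! ### the local theorems -/

theorem local_all (M : Type u) [MetricSpace M] [CompleteSpace M] [SecondCountableTopology M]
    [MeasurableSpace M] [BorelSpace M] {n : ℕ} (hn : 2 ≤ n) {c : ℝ≥0} (hc : c ≠ 0)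
    {m : Measure M} (hm : m = c • μH[n]) {U : Measure M → (M → ℝ) → (M → ℝ) → Prop}
    (hU : ∀ f G, U m f G ↔ T.IsRelaxedSlope m f G) {K : ℝ} (h : P233Z.IsHilb m)
    (hcd : P242.IsCD K n m ∨ IsCDb K n m) :
    ProperSpace M ∧ T.IsGeodesic M ∧ dimH (univ : Set M) = n ∧
    (∀ (κ : ℝ) (z : M), (∃ A ∈ 𝓝 z, SecOn U m (fun _ => κ) A) ↔ T.CurvNear M κ z) ∧
    ∀ (Ω : Set M) (k : M → ℝ), IsOpen Ω → ContinuousOn k Ω →
      ((∀ A ⊆ Ω, IsCompact A → SecOn U m k A) ↔ ∀ z ∈ Ω, ∀ κ < k z, T.CurvNear M κ z) := by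
  obtain ⟨Gr, cx⟩ := P233G39.ctx hn hc hm hU h hcd
  subst hm
  have hN : (0 : ℝ) < n := by exact_mod_cast (by omega : 0 < n)
  have hc' : (0 : ℝ) < c := NNReal.coe_pos.2 (pos_iff_ne_zero.2 hc)
  obtain ⟨g1, g2⟩ := isRCD_of_smul hn hc h.full (h.isRCDb (hcd.elim (h.isCDb hn) id))
  obtain ⟨hp, hgeo, E, i1, i2, i3, Gr₀, V₀, hG₀, hV₀, hloc⟩ := Nw.local_main M hn g1 g2
  have hfull := h.full
  have hsf := cx.sf
  have hM : H154.ABSp (c • μH[n] : Measure M) (min K 0) n :=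
    H154.abSp_of hN (T_rcd (P233G39.rcd_smul hc g2)) hgeo
  obtain ⟨V, hV⟩ := cx.hC.exists_HU cx.hB cx.hG
  have hdim : dimH (univ : Set M) = n := by
    haveI := g1
    haveI := h.ne
    refine H636.dimH_univ_eq (fun x r hr => ?_)
      (fun x => ⟨1, one_pos, H636.ball_finite_of_isRCD g2 x 1⟩)
    exact (Metric.isOpen_ball.measure_pos _ ⟨x, Metric.mem_ball_self hr⟩).ne'
  have h1 : ∀ (κ : ℝ) (z : M), (∃ A ∈ 𝓝 z, SecOn U (c • μH[n]) (fun _ => κ) A) →
      T.CurvNear M κ z := by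
    rintro κ z ⟨A, hA, hs⟩
    obtain ⟨r, hr, hsub⟩ := Metric.mem_nhds_iff.1 hA
    have a1 := secEx_of cx hs
    rw [sob_smul hc] at a1
    have a2 := a1.scl (inv_pos.2 hc')
    rw [scl_scl hc'] at a2
    have a3 := posOn_of (H326.base_of_rcd hN g2) a2 hG₀ hV₀
    exact hloc κ z r hr fun a ha b hb f hf h0 hf' =>
      a3 a ha b hb f hf h0 (hf'.mono fun x hx hb => hx fun hc => hb (hsub hc))
  have h2 : ∀ (κ : ℝ) (z : M), T.CurvNear M κ z → ∃ ρ > 0,
      ∀ a ∈ (sob (c • μH[n] : Measure M)).Test, ∀ b ∈ (sob (c • μH[n] : Measure M)).Test,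
      ∀ f ∈ H154.TL (sob (c • μH[n] : Measure M)).Test (sob (c • μH[n] : Measure M))
        {x | dist x z ≤ ρ}, 0 ≤ f →
      0 ≤ I ((sob (c • μH[n] : Measure M)).rkI (UUof _ V) κ a b b a f) := by
    intro κ z hz
    obtain ⟨τ, hτ, hA⟩ := H154.locAlex_of hgeo hz
    obtain ⟨r₀, hr₀, CL, hCL, hL⟩ := hA.lss hτ
    have hL' : H154.LSSon {x | dist x z ≤ τ / 2} κ r₀ CL := fun z' hz' x₁ x₂ x₃ r a1 a2 a3 a4 =>
      hL z' x₁ x₂ x₃ r (by rw [dist_comm]; exact hz') a4 a1 a2 a3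
    exact ⟨2 * (τ / 2) / 9, by positivity,
      H154.pos_ball hM cx.hG hV hr₀ hCL (show 0 < τ / 2 by positivity) hL'⟩
  refine ⟨hp, hgeo, hdim, fun κ z => ⟨h1 κ z, fun hz => ?_⟩, fun Ω k hΩ hk => ⟨?_, ?_⟩⟩
  · obtain ⟨ρ, hρ, hpos⟩ := h2 κ z hz
    refine ⟨Metric.ball z (2 * (ρ / 3)), Metric.ball_mem_nhds z (by positivity),
      secOn_of cx hV fun H _ _ _ ι hι X Y hX hY f hf h0 hA => ?_⟩
    rw [integral_const_mul]
    refine H154.sec_loc cx.hC cx.hB cx.hG hV hι hX hY hpos (H154.TL_of_ball hM hρ hf ?_) h0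
    filter_upwards [hA] with x hx hb
    exact hx (by rw [Metric.mem_ball', not_lt]; exact hb)
  · intro hs z hz κ hκ
    have hkz : ContinuousAt k z := hk.continuousAt (hΩ.mem_nhds hz)
    have a1 : ∀ᶠ x in 𝓝 z, x ∈ Ω ∧ κ < k x ∧ k x < k z + 1 :=
      Filter.Eventually.and (hΩ.mem_nhds hz) ((hkz.eventually (lt_mem_nhds hκ)).and
        (hkz.eventually (gt_mem_nhds (lt_add_one _))))
    obtain ⟨r, hr, hsub⟩ := Metric.nhds_basis_closedBall.mem_iff.1 a1
    have hsub' : Metric.closedBall z r ⊆ Ω := fun x hx => (hsub hx).1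
    exact h1 κ z ⟨Metric.closedBall z r, Metric.closedBall_mem_nhds z hr,
      (hs _ hsub' (isCompact_closedBall z r)).mono cx subset_rfl
        Metric.isClosed_closedBall.measurableSet (hk.mono hsub') (fun x hx => (hsub hx).2.1.le)
        fun x hx => (hsub hx).2.2.le⟩
  · intro hcurv A hAΩ hA
    refine secOn_of cx hV fun H _ _ _ ι hι X Y hX hY f hf h0 hfA => ?_
    have hkA : ContinuousOn k A := hk.mono hAΩ
    haveI : CompactSpace A := isCompact_iff_compactSpace.1 hA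
    obtain ⟨k', -, hk'⟩ := (BoundedContinuousFunction.mkOfCompact
      (⟨A.restrict k, continuousOn_iff_continuous_restrict.1 hkA⟩ : C(A, ℝ))
      ).exists_norm_eq_restrict_eq_of_closed hA.isClosed
    have e' : ∀ x ∈ A, k' x = k x := fun x hx => by
      have := congrArg (fun g => g ⟨x, hx⟩) hk'
      exact this
    have key := H154.part hM cx.hG hV hι hX hY k'.continuous (B := ‖k'‖)
      (fun x => k'.norm_coe_le_norm x) hA (fun z hz κ hκ => ?_) hf h0 hfA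
    · refine le_trans (le_of_eq (integral_congr_ae ?_)) key
      filter_upwards [hfA, mul_ae f ((sob (c • μH[n] : Measure M)).ip X X
        * (sob (c • μH[n] : Measure M)).ip Y Y - (sob (c • μH[n] : Measure M)).ip X Y ^ 2)]
        with x a1 a2
      by_cases hx : x ∈ A
      · rw [e' x hx]
      · rw [a2, a1 hx]; ring
    · obtain ⟨ρ, hρ, hpos⟩ := h2 κ z (hcurv z (hAΩ hz) κ (by rwa [e' z hz] at hκ))
      exact ⟨ρ, hρ, fun F hF hF0 => H154.sec_loc cx.hC cx.hB cx.hG hV hι hX hY hpos hF hF0⟩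

end Vale.Agent.N233
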